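import Mathlib

/-!
# P207, block CS: measurable sections and fundamental domains
-/

set_option linter.all false

open Set Filter Topology Metric MeasureTheory

noncomputable section

namespace Vale.Agent.P207Z.CS

section sec

variable {X Y : Type*} [MetricSpace X] [TopologicalSpace.SeparableSpace X] [Nonempty X]

/-- closed sets indexed by lists -/
def clL (X : Type*) [MetricSpace X] [TopologicalSpace.SeparableSpace X] [Nonempty X] :
    List ℕ → Set X
  | [] => univ
  | n :: l => clL X l ∩ closedBall (TopologicalSpace.denseSeq X n) (1 / 2 ^ l.length)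

theorem clL_closed : ∀ l : List ℕ, IsClosed (clL X l)
  | [] => isClosed_univ
  | _ :: l => (clL_closed l).inter isClosed_closedBall

theorem clL_next (π : X → Y) (l : List ℕ) (y : Y) :
    ∃ n : ℕ, y ∈ π '' clL X l → y ∈ π '' clL X (n :: l) := by
  by_cases h : y ∈ π '' clL X l
  · obtain ⟨x, hx, rfl⟩ := h
    obtain ⟨n, hn⟩ := (TopologicalSpace.denseRange_denseSeq X).exists_dist_lt x
      (show (0 : ℝ) < 1 / 2 ^ l.length by positivity)
    exact ⟨n, fun _ => ⟨x, ⟨hx, mem_closedBall.2 hn.le⟩, rfl⟩⟩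
  · exact ⟨0, fun h' => (h h').elim⟩

open Classical in
/-- the next index -/
def nxL (π : X → Y) (l : List ℕ) (y : Y) : ℕ := Nat.find (clL_next π l y)

/-- the sequence of lists -/
def sqL (π : X → Y) : ℕ → Y → List ℕ
  | 0 => fun _ => []
  | k + 1 => fun y => nxL π (sqL π k y) y :: sqL π k y

theorem sqL_length (π : X → Y) (y : Y) : ∀ k, (sqL π k y).length = k
  | 0 => rfl
  | k + 1 => by simp [sqL, sqL_length π y k]

theorem sqL_mem {π : X → Y} (hs : Function.Surjective π) (y : Y) :
    ∀ k, y ∈ π '' clL X (sqL π k y)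
  | 0 => by
    obtain ⟨x, hx⟩ := hs y
    exact ⟨x, mem_univ _, hx⟩
  | k + 1 => by
    classical
    exact Nat.find_spec (clL_next π (sqL π k y) y) (sqL_mem hs y k)

/-- a proper surjection has a measurable section -/
theorem exists_section [MeasurableSpace X] [BorelSpace X] [TopologicalSpace Y] [MeasurableSpace Y]
    [OpensMeasurableSpace Y] {π : X → Y} (hp : IsProperMap π) (hs : Function.Surjective π) :
    ∃ s : Y → X, Measurable s ∧ ∀ y, π (s y) = y := by
  classical
  letI : MeasurableSpace (List ℕ) := ⊤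
  have hm : ∀ l, MeasurableSet (π '' clL X l) := fun l =>
    (hp.isClosedMap _ (clL_closed l)).measurableSet
  have h1 : ∀ l, Measurable (nxL π l) := fun l =>
    measurable_find (clL_next π l) fun n => by
      have : {y | y ∈ π '' clL X l → y ∈ π '' clL X (n :: l)} =
          (π '' clL X l)ᶜ ∪ π '' clL X (n :: l) := by
        ext y
        simp only [mem_setOf_eq, mem_union, mem_compl_iff]
        tauto
      rw [this]
      exact (hm l).compl.union (hm _)
  have h2 : Measurable fun p : Y × List ℕ => nxL π p.2 p.1 :=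
    measurable_from_prod_countable_left fun l => h1 l
  have h2' : Measurable fun p : Y × List ℕ => nxL π p.2 p.1 :: p.2 :=
    measurable_from_prod_countable_left fun l =>
      (measurable_from_top (f := fun n : ℕ => n :: l)).comp (h1 l)
  have h3 : ∀ k, Measurable (sqL π k) := by
    intro k
    induction k with
    | zero => exact measurable_const
    | succ k ih => exact h2'.comp (measurable_id.prodMk ih)
  have h4 : ∀ y, ∃ x, π x = y ∧ ∀ k, x ∈ clL X (sqL π k y) := by
    intro y
    have h5 := IsCompact.nonempty_iInter_of_sequence_nonempty_isCompact_isClosed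
      (fun k => π ⁻¹' {y} ∩ clL X (sqL π k y))
      (fun k => inter_subset_inter_right _ inter_subset_left)
      (fun k => by
        obtain ⟨x, hx, he⟩ := sqL_mem hs y k
        exact ⟨x, he, hx⟩)
      ((hp.isCompact_preimage isCompact_singleton).inter_right (clL_closed _))
      (fun k => ((hp.isCompact_preimage isCompact_singleton).inter_right (clL_closed _)).isClosed)
    obtain ⟨x, hx⟩ := h5
    rw [mem_iInter] at hx
    exact ⟨x, (hx 0).1, fun k => (hx k).2⟩
  choose s hs1 hs2 using h4
  refine ⟨s, ?_, hs1⟩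
  refine measurable_of_tendsto_metrizable
    (f := fun k y => TopologicalSpace.denseSeq X (nxL π (sqL π k y) y))
    (fun k => (measurable_from_top (f := TopologicalSpace.denseSeq X)).comp
      (h2.comp (measurable_id.prodMk (h3 k)))) ?_
  rw [tendsto_pi_nhds]
  intro y
  rw [tendsto_iff_dist_tendsto_zero]
  have h6 : Tendsto (fun k : ℕ => (1 / 2 ^ k : ℝ)) atTop (𝓝 0) := by
    have := tendsto_pow_atTop_nhds_zero_of_lt_one (r := (1 / 2 : ℝ)) (by norm_num) (by norm_num)
    simpa using this
  refine squeeze_zero (fun _ => dist_nonneg) (fun k => ?_) h6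
  have h7 := (hs2 y (k + 1)).2
  rw [sqL_length, mem_closedBall, dist_comm] at h7
  exact h7

end sec

section fund

variable {Γ Y : Type*} [Group Γ] [Countable Γ] [MulAction Γ Y] [TopologicalSpace Y] [T2Space Y]
  [ContinuousConstSMul Γ Y] [MeasurableSpace Y] [BorelSpace Y]

/-- a strict fundamental domain in a compact set -/
theorem exists_fund {K : Set Y} (hK : IsCompact K) (hc : ∀ y, ∃ g : Γ, g • y ∈ K)
    (hw : ∀ y : Y, ∃ W : Set Y, IsOpen W ∧ y ∈ W ∧ ∀ g : Γ, ∀ z ∈ W, g • z ∈ W → g = 1) :
    ∃ Z : Set Y, MeasurableSet Z ∧ Z ⊆ K ∧ ∀ y, ∃! g : Γ, g • y ∈ Z := by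
  classical
  choose W hW1 hW2 hW3 using hw
  obtain ⟨t, ht⟩ := hK.elim_finite_subcover W hW1 fun y _ => mem_iUnion.2 ⟨y, hW2 y⟩
  rcases isEmpty_or_nonempty Y with hY | hY
  · exact ⟨∅, MeasurableSet.empty, empty_subset _, fun y => (hY.false y).elim⟩
  obtain ⟨f, hf⟩ : ∃ f : ℕ → Y, ∀ y ∈ t, ∃ n, f n = y := by
    obtain ⟨y0⟩ := hY
    obtain ⟨f, hf⟩ := (Set.countable_insert.2 t.countable_toSet).exists_eq_range
      (insert_nonempty y0 _)
    refine ⟨f, fun y hy => ?_⟩
    have : y ∈ range f := hf ▸ mem_insert_of_mem _ hy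
    exact this
  have hex : ∀ y : Y, ∃ n : ℕ, ∃ g : Γ, g • y ∈ W (f n) ∩ K := by
    intro y
    obtain ⟨g, hg⟩ := hc y
    have h1 := ht hg
    simp only [mem_iUnion] at h1
    obtain ⟨z, hz, h1⟩ := h1
    obtain ⟨n, rfl⟩ := hf z hz
    exact ⟨n, g, h1, hg⟩
  have hms : ∀ n, MeasurableSet {y : Y | ∃ g : Γ, g • y ∈ W (f n) ∩ K} := by
    intro n
    rw [setOf_exists]
    exact MeasurableSet.iUnion fun g => (continuous_const_smul g).measurable
      ((hW1 _).measurableSet.inter hK.measurableSet)
  have hN : Measurable fun y => Nat.find (hex y) := measurable_find hex hms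
  have hinv : ∀ (g : Γ) y, Nat.find (hex (g • y)) = Nat.find (hex y) := by
    intro g y
    refine le_antisymm (Nat.find_mono ?_) (Nat.find_mono ?_)
    · rintro n ⟨g', h⟩
      exact ⟨g' * g⁻¹, by rwa [mul_smul, inv_smul_smul]⟩
    · rintro n ⟨g', h⟩
      exact ⟨g' * g, by rwa [mul_smul]⟩
  refine ⟨{y | y ∈ W (f (Nat.find (hex y))) ∩ K}, ?_, fun y hy => hy.2, fun y => ?_⟩
  · have : {y | y ∈ W (f (Nat.find (hex y))) ∩ K} =
        ⋃ n, (fun y => Nat.find (hex y)) ⁻¹' {n} ∩ (W (f n) ∩ K) := by
      ext y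
      simp only [mem_setOf_eq, mem_iUnion, mem_inter_iff, mem_preimage, mem_singleton_iff]
      constructor
      · intro h
        exact ⟨_, rfl, h⟩
      · rintro ⟨n, rfl, h⟩
        exact h
    rw [this]
    exact MeasurableSet.iUnion fun n => (hN (measurableSet_singleton n)).inter
      ((hW1 _).measurableSet.inter hK.measurableSet)
  · obtain ⟨g, hg⟩ := Nat.find_spec (hex y)
    refine ⟨g, ?_, fun g' hg' => ?_⟩
    · show g • y ∈ W (f (Nat.find (hex (g • y)))) ∩ K
      rwa [hinv]
    · have h1 : g' • y ∈ W (f (Nat.find (hex (g' • y)))) ∩ K := hg'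
      rw [hinv] at h1
      have h2 := hW3 _ (g' * g⁻¹) (g • y) hg.1 (by
        rw [mul_smul, inv_smul_smul]; exact h1.1)
      exact mul_inv_eq_one.1 h2

omit [T2Space Y] in
/-- the group element which moves a point to the fundamental domain -/
theorem exists_gam {Z : Set Y} (hZ : MeasurableSet Z) (h : ∀ y, ∃! g : Γ, g • y ∈ Z) :
    ∃ γ : Y → Γ, (∀ g, MeasurableSet (γ ⁻¹' {g})) ∧ (∀ y, γ y • y ∈ Z) ∧
      ∀ (g : Γ) y, γ (g • y) = γ y * g⁻¹ := by
  choose γ h1 h2 using h
  refine ⟨γ, fun g => ?_, h1, fun g y => ?_⟩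
  · have : γ ⁻¹' {g} = (fun y => g • y) ⁻¹' Z := by
      ext y
      constructor
      · rintro rfl
        exact h1 y
      · intro hy
        exact (h2 y g hy).symm
    rw [this]
    exact (continuous_const_smul g).measurable hZ
  · refine (h2 (g • y) _ ?_).symm
    show (γ y * g⁻¹) • g • y ∈ Z
    rw [mul_smul, inv_smul_smul]
    exact h1 y

omit [T2Space Y] in
/-- an equivariant measurable section -/
theorem exists_equiv_section {X : Type*} [TopologicalSpace X] [MulAction Γ X]
    [ContinuousConstSMul Γ X] [MeasurableSpace X] [BorelSpace X] {π : X → Y}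
    (hπ : ∀ (g : Γ) x, π (g • x) = g • π x) {s : Y → X} (hs : Measurable s) (hs' : ∀ y, π (s y) = y)
    {Z : Set Y} (hZ : MeasurableSet Z) (h : ∀ y, ∃! g : Γ, g • y ∈ Z) :
    ∃ s : Y → X, Measurable s ∧ (∀ y, π (s y) = y) ∧ ∀ (g : Γ) y, s (g • y) = g • s y := by
  obtain ⟨γ, h1, -, h3⟩ := exists_gam hZ h
  letI : MeasurableSpace Γ := ⊤
  have hγ : Measurable γ := measurable_to_countable' fun g => h1 g
  have h4 : Measurable fun p : Y × Γ => p.2⁻¹ • s (p.2 • p.1) :=
    measurable_from_prod_countable_left fun g =>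
      (continuous_const_smul g⁻¹).measurable.comp (hs.comp (continuous_const_smul g).measurable)
  refine ⟨fun y => (γ y)⁻¹ • s (γ y • y), h4.comp (measurable_id.prodMk hγ), fun y => ?_,
    fun g y => ?_⟩
  · rw [hπ, hs', inv_smul_smul]
  · simp only [h3, mul_smul, inv_smul_smul, mul_inv_rev, inv_inv]

end fund

end Vale.Agent.P207Z.CS
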