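import Vale.Agent.P207.N4.H824.Top
import Vale.Agent.P207Z.CS.Gen

/-!
# P207, block CS: the space `Y` of triples, the flow and the group action
-/

set_option linter.all false

open Set Filter Topology Metric MeasureTheory

noncomputable section

namespace Vale.Agent.P207Z.CS

open Vale.Agent.P207.N4

variable [Dim]

variable {Γ X B : Type} [Group Γ] [MetricSpace X] [ProperSpace X] [MulAction Γ X]
  [IsIsometricSMul Γ X] [TopologicalSpace B] [CompactSpace B] [T2Space B] [MulAction Γ B]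
  [ContinuousConstSMul Γ B]

/-- the space of triples `(ξ, η, t)`; the unit of time is `τ` -/
def Yt (_ : Leaf Γ X B) (_ : ℝ) : Type := H824.Tri B

variable (L : Leaf Γ X B) (τ : ℝ)

instance : TopologicalSpace (Yt L τ) := inferInstanceAs (TopologicalSpace (H824.Tri B))
instance : T2Space (Yt L τ) := inferInstanceAs (T2Space (H824.Tri B))
instance : LocallyCompactSpace (Yt L τ) := (H824.isOpen_ne (B := B)).locallyCompactSpace
instance : SecondCountableTopology (Yt L τ) := by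
  have := H824.secondCountable L
  exact TopologicalSpace.Subtype.secondCountableTopology {p : (B × B) × ℝ | p.1.1 ≠ p.1.2}

variable {L τ}

/-- constructor -/
def mkY (ξ η : B) (t : ℝ) (h : ξ ≠ η) : Yt L τ := ⟨((ξ, η), t), h⟩

/-- end point in the past -/
def Yt.xi (p : Yt L τ) : B := p.1.1.1
/-- end point in the future -/
def Yt.eta (p : Yt L τ) : B := p.1.1.2
/-- time -/
def Yt.tm (p : Yt L τ) : ℝ := p.1.2

theorem Yt.ne (p : Yt L τ) : p.xi ≠ p.eta := p.2

theorem Yt.ext' {p q : Yt L τ} (h1 : p.xi = q.xi) (h2 : p.eta = q.eta) (h3 : p.tm = q.tm) :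
    p = q := Subtype.ext (Prod.ext (Prod.ext h1 h2) h3)

theorem val_cont : Continuous fun p : Yt L τ => (p.1 : (B × B) × ℝ) := continuous_subtype_val
theorem xi_cont : Continuous (Yt.xi : Yt L τ → B) := val_cont.fst.fst
theorem eta_cont : Continuous (Yt.eta : Yt L τ → B) := val_cont.fst.snd
theorem tm_cont : Continuous (Yt.tm : Yt L τ → ℝ) := val_cont.snd

theorem cont_mk {Z : Type*} [TopologicalSpace Z] {f : Z → Yt L τ}
    (h1 : Continuous fun z => (f z).xi) (h2 : Continuous fun z => (f z).eta)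
    (h3 : Continuous fun z => (f z).tm) : Continuous f :=
  Continuous.subtype_mk (f := fun z => (((f z).xi, (f z).eta), (f z).tm))
    ((h1.prodMk h2).prodMk h3) fun z => (f z).2

variable (L τ)

/-- the projection from frames -/
def pr (x : X) : Yt L τ := mkY (L.em x) (L.ep x) (L.lv x / τ) (L.em_ne_ep x)

/-- the flow -/
def fl (s : ℝ) (p : Yt L τ) : Yt L τ := mkY p.xi p.eta (p.tm + s) p.ne

theorem exists_em (ξ : B) : ∃ x, L.em x = ξ := by
  obtain ⟨x, hx⟩ := H824.exists_ep L ξ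
  exact ⟨L.flip x, (L.ep_flip x).symm.trans hx⟩

/-- the Busemann cocycle -/
def coc (g : Γ) (ξ : B) : ℝ :=
  L.lv (g • Classical.choose (exists_em L ξ)) - L.lv (Classical.choose (exists_em L ξ))

theorem coc_eq (g : Γ) (x : X) : coc L g (L.em x) = L.lv (g • x) - L.lv x := by
  have h1 := Classical.choose_spec (exists_em L (L.em x))
  have h2 := L.lv_smul g _ _ h1
  unfold coc
  linarith

variable {L τ}

@[simp] theorem xi_mk (ξ η : B) (t : ℝ) (h : ξ ≠ η) : (mkY ξ η t h : Yt L τ).xi = ξ := rfl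
@[simp] theorem eta_mk (ξ η : B) (t : ℝ) (h : ξ ≠ η) : (mkY ξ η t h : Yt L τ).eta = η := rfl
@[simp] theorem tm_mk (ξ η : B) (t : ℝ) (h : ξ ≠ η) : (mkY ξ η t h : Yt L τ).tm = t := rfl
@[simp] theorem xi_pr (x : X) : (pr L τ x).xi = L.em x := rfl
@[simp] theorem eta_pr (x : X) : (pr L τ x).eta = L.ep x := rfl
@[simp] theorem tm_pr (x : X) : (pr L τ x).tm = L.lv x / τ := rfl
@[simp] theorem xi_fl (s : ℝ) (p : Yt L τ) : (fl L τ s p).xi = p.xi := rfl
@[simp] theorem eta_fl (s : ℝ) (p : Yt L τ) : (fl L τ s p).eta = p.eta := rfl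
@[simp] theorem tm_fl (s : ℝ) (p : Yt L τ) : (fl L τ s p).tm = p.tm + s := rfl

theorem fl_zero (p : Yt L τ) : fl L τ 0 p = p := Yt.ext' rfl rfl (add_zero _)

theorem fl_add (s t : ℝ) (p : Yt L τ) : fl L τ (s + t) p = fl L τ s (fl L τ t p) :=
  Yt.ext' rfl rfl (by simp only [tm_fl]; ring)

theorem fl_cont : Continuous fun q : ℝ × Yt L τ => fl L τ q.1 q.2 :=
  cont_mk (f := fun q : ℝ × Yt L τ => fl L τ q.1 q.2)
    (show Continuous fun q : ℝ × Yt L τ => q.2.xi from xi_cont.comp continuous_snd)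
    (show Continuous fun q : ℝ × Yt L τ => q.2.eta from eta_cont.comp continuous_snd)
    (show Continuous fun q : ℝ × Yt L τ => q.2.tm + q.1 from
      (tm_cont.comp continuous_snd).add continuous_fst)

theorem fl_cont' (s : ℝ) : Continuous (fl L τ s) :=
  fl_cont.comp (continuous_const.prodMk continuous_id)

theorem pr_cont : Continuous (pr L τ) :=
  cont_mk L.em_cont (H824.ep_cont L) (L.lv_cont.div_const τ)

theorem coc_one (ξ : B) : coc L 1 ξ = 0 := by
  obtain ⟨x, rfl⟩ := exists_em L ξ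
  rw [coc_eq, one_smul, sub_self]

theorem coc_mul (g g' : Γ) (ξ : B) : coc L (g * g') ξ = coc L g (g' • ξ) + coc L g' ξ := by
  obtain ⟨x, rfl⟩ := exists_em L ξ
  rw [← L.em_smul, coc_eq, coc_eq, coc_eq, mul_smul]
  ring

instance : MulAction Γ (Yt L τ) where
  smul g p := mkY (g • p.xi) (g • p.eta) (p.tm + coc L g p.xi / τ)
    fun h => p.ne (MulAction.injective g h)
  one_smul p := Yt.ext' (one_smul Γ p.xi) (one_smul Γ p.eta) (by
    show p.tm + coc L 1 p.xi / τ = p.tm
    rw [coc_one, zero_div, add_zero])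
  mul_smul g g' p := Yt.ext' (mul_smul g g' p.xi) (mul_smul g g' p.eta) (by
    show p.tm + coc L (g * g') p.xi / τ = p.tm + coc L g' p.xi / τ + coc L g (g' • p.xi) / τ
    rw [coc_mul]
    ring)

@[simp] theorem xi_smul (g : Γ) (p : Yt L τ) : (g • p).xi = g • p.xi := rfl
@[simp] theorem eta_smul (g : Γ) (p : Yt L τ) : (g • p).eta = g • p.eta := rfl
theorem tm_smul (g : Γ) (p : Yt L τ) : (g • p).tm = p.tm + coc L g p.xi / τ := rfl

theorem pr_smul (g : Γ) (x : X) : pr L τ (g • x) = g • pr L τ x :=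
  Yt.ext' (L.em_smul g x) (H824.ep_smul L g x) (by
    rw [tm_smul, xi_pr, coc_eq, tm_pr, tm_pr]
    ring)

theorem fl_smul (g : Γ) (s : ℝ) (p : Yt L τ) : fl L τ s (g • p) = g • fl L τ s p :=
  Yt.ext' rfl rfl (by
    rw [tm_fl, tm_smul, tm_smul, tm_fl, xi_fl]
    ring)

theorem pr_rot (a : O2) (x : X) : pr L τ (L.rot a x) = pr L τ x :=
  Yt.ext' (L.em_rot a x) (H824.ep_rot L a x) (by rw [tm_pr, tm_pr, L.lv_rot])

theorem coc_cont (g : Γ) : Continuous (coc L g) := by
  have h1 : Continuous fun p : H824.Tri B => coc L g p.1.1.1 := by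
    have h2 : IsQuotientMap (H824.pr L) :=
      (H824.pr_proper L).isClosedMap.isQuotientMap (H824.pr_cont L) (H824.pr_surj L)
    rw [h2.continuous_iff]
    have : ((fun p : H824.Tri B => coc L g p.1.1.1) ∘ H824.pr L) =
        fun x => L.lv (g • x) - L.lv x := funext fun x => coc_eq L g x
    rw [this]
    exact (L.lv_cont.comp (continuous_const_smul g)).sub L.lv_cont
  rw [continuous_iff_continuousAt]
  intro ξ
  obtain ⟨x, rfl⟩ := exists_em L ξ
  have h3 : IsOpen {ξ : B | ξ ≠ L.ep x} := isOpen_ne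
  have h4 : ContinuousOn (coc L g) {ξ : B | ξ ≠ L.ep x} := by
    rw [continuousOn_iff_continuous_restrict]
    exact h1.comp (f := fun ξ : {ξ : B | ξ ≠ L.ep x} =>
      (⟨((ξ.1, L.ep x), 0), ξ.2⟩ : H824.Tri B)) (Continuous.subtype_mk (by fun_prop) _)
  exact h4.continuousAt (h3.mem_nhds (L.em_ne_ep x))

instance : ContinuousConstSMul Γ (Yt L τ) where
  continuous_const_smul g := cont_mk ((continuous_const_smul g).comp xi_cont)
    ((continuous_const_smul g).comp eta_cont)
    (tm_cont.add (((coc_cont g).comp xi_cont).div_const τ))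

theorem countable_Γ (L : Leaf Γ X B) : Countable Γ := by
  obtain ⟨x⟩ := L.nonempty
  have h1 : (univ : Set Γ) ⊆ ⋃ n : ℕ, {g : Γ | ∃ y ∈ closedBall x n, g • y ∈ closedBall x n} := by
    intro g _
    obtain ⟨n, hn⟩ := exists_nat_ge (dist (g • x) x)
    exact mem_iUnion.2 ⟨n, x, mem_closedBall_self (by positivity), hn⟩
  exact Set.countable_univ_iff.1 ((countable_iUnion fun n : ℕ =>
    (L.proper _ (isCompact_closedBall x (n : ℝ))).countable).mono h1)

theorem pow_ne_one (L : Leaf Γ X B) {g : Γ} (hg : g ≠ 1) {n : ℕ} (hn : 0 < n) : g ^ n ≠ 1 := by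
  obtain ⟨x, l, a, hl, hx⟩ := L.exists_axis g hg
  have h1 : ∀ n : ℕ, ∃ a', g ^ n • x = L.φ (n * l) (L.rot a' x) := by
    intro n
    induction n with
    | zero => exact ⟨1, by simp [L.φ_zero, L.rot_one]⟩
    | succ n ih =>
      obtain ⟨a', ha'⟩ := ih
      refine ⟨a' * a, ?_⟩
      rw [pow_succ, mul_smul, hx, ← L.φ_smul, ← L.rot_smul, ha', L.rot_φ, ← L.rot_mul, ← L.φ_add]
      congr 1
      push_cast
      ring
  intro h
  obtain ⟨a', ha'⟩ := h1 n
  rw [h, one_smul] at ha'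
  have h2 := congrArg L.lv ha'
  rw [L.lv_φ, L.lv_rot] at h2
  have h3 : (0 : ℝ) < n * l := by positivity
  linarith

variable [hτ : Fact (0 < τ)]

theorem τ_pos : 0 < τ := hτ.out

theorem pr_φ (s : ℝ) (x : X) : pr L τ (L.φ (s * τ) x) = fl L τ s (pr L τ x) :=
  Yt.ext' (L.em_φ _ x) (H824.ep_φ L _ x) (by
    rw [tm_fl, tm_pr, tm_pr, L.lv_φ, add_div, mul_div_cancel_right₀ _ τ_pos.ne'])

theorem pr_φ' (s : ℝ) (x : X) : pr L τ (L.φ s x) = fl L τ (s / τ) (pr L τ x) := by
  rw [← pr_φ, div_mul_cancel₀ _ τ_pos.ne']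

theorem pr_surj : Function.Surjective (pr L τ) := by
  intro p
  obtain ⟨x, h1, h2, h3⟩ := L.exists_frame p.xi p.eta p.ne (p.tm * τ)
  exact ⟨x, Yt.ext' h1 h2 (by rw [tm_pr, h3, mul_div_cancel_right₀ _ τ_pos.ne'])⟩

theorem pr_eq {x y : X} (h : pr L τ x = pr L τ y) : ∃ a, y = L.rot a x := by
  refine L.frame_unique x y (congrArg Yt.xi h) (congrArg Yt.eta h) ?_
  have h1 : L.lv x / τ = L.lv y / τ := congrArg Yt.tm h
  exact (div_left_inj' τ_pos.ne').1 h1

theorem pr_proper : IsProperMap (pr L τ) := by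
  rw [isProperMap_iff_isCompact_preimage]
  refine ⟨pr_cont, fun K hK => ?_⟩
  have h1 : IsCompact ((fun p : Yt L τ => (p.xi, p.eta)) '' K) :=
    hK.image (xi_cont.prodMk eta_cont)
  have h2 : IsCompact ((fun p : Yt L τ => p.tm * τ) '' K) := hK.image (tm_cont.mul_const τ)
  obtain ⟨c, hc⟩ := h2.isBounded.subset_closedBall 0
  refine (L.hopf_proper _ h1 ?_ c).of_isClosed_subset (hK.isClosed.preimage pr_cont) ?_
  · rintro _ ⟨p, _, rfl⟩
    exact p.ne
  · intro x hx
    refine ⟨⟨pr L τ x, hx, rfl⟩, ?_⟩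
    have := hc ⟨pr L τ x, hx, rfl⟩
    simpa [div_mul_cancel₀ _ (τ_pos (τ := τ)).ne'] using this

theorem pr_quot : IsQuotientMap (pr L τ) :=
  pr_proper.isClosedMap.isQuotientMap pr_cont pr_surj

instance : ProperlyDiscontinuousSMul Γ (Yt L τ) where
  finite_disjoint_inter_image {K K'} hK hK' := by
    refine (L.proper _ (pr_proper (τ := τ).isCompact_preimage (hK.union hK'))).subset ?_
    rintro g ⟨_, ⟨p, hp, rfl⟩, hp'⟩
    obtain ⟨x, rfl⟩ := pr_surj p
    refine ⟨x, Or.inl hp, ?_⟩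
    show pr L τ (g • x) ∈ K ∪ K'
    rw [pr_smul]
    exact Or.inr hp'

/-- the action is free -/
theorem smul_free {g : Γ} {p : Yt L τ} (h : g • p = p) : g = 1 := by
  by_contra hg
  have h1 := ProperlyDiscontinuousSMul.finite_stabilizer' Γ p
  have h2 : ∀ n : ℕ, g ^ n ∈ {γ : Γ | γ • p = p} := by
    intro n
    induction n with
    | zero => simp
    | succ n ih =>
      show g ^ (n + 1) • p = p
      rw [pow_succ, mul_smul, h]
      exact ih
  obtain ⟨m, n, hmn, he⟩ := h1.exists_lt_map_eq_of_forall_mem h2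
  refine pow_ne_one L hg (n := n - m) (by omega) ?_
  have h3 : g ^ m * g ^ (n - m) = g ^ m * 1 := by
    rw [← pow_add, mul_one, he]
    congr 1
    omega
  exact mul_left_cancel h3

theorem exists_cpt : ∃ K : Set (Yt L τ), IsCompact K ∧ ∀ p, ∃ g : Γ, g • p ∈ K := by
  obtain ⟨K, hK, h⟩ := L.cocompact
  refine ⟨pr L τ '' K, hK.image pr_cont, fun p => ?_⟩
  obtain ⟨x, rfl⟩ := pr_surj p
  obtain ⟨g, hg⟩ := h x
  exact ⟨g, g • x, hg, pr_smul g x⟩

variable [MeasurableSpace B] [BorelSpace B]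

instance : MeasurableSpace (Yt L τ) := inferInstanceAs (MeasurableSpace (H824.Tri B))

instance : BorelSpace (Yt L τ) := by
  have := H824.secondCountable L
  exact inferInstanceAs (BorelSpace (H824.Tri B))

variable (L τ) in
/-- a strict fundamental domain in a compact set -/
theorem exists_Z : ∃ Z : Set (Yt L τ), MeasurableSet Z ∧ (∃ K, IsCompact K ∧ Z ⊆ K) ∧
    ∀ p, ∃! g : Γ, g • p ∈ Z := by
  have := countable_Γ L
  obtain ⟨K, hK, h⟩ := exists_cpt (L := L) (τ := τ)
  obtain ⟨Z, h1, h2, h3⟩ := exists_fund hK h fun p => by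
    obtain ⟨U, hU, h4⟩ := ProperlyDiscontinuousSMul.exists_nhds_image_smul_eq_self Γ p
    refine ⟨interior U, isOpen_interior, mem_interior_iff_mem_nhds.2 hU, fun g z hz hz' => ?_⟩
    exact smul_free (h4 g ⟨g • z, ⟨z, interior_subset hz, rfl⟩, interior_subset hz'⟩)
  exact ⟨Z, h1, ⟨K, hK, h2⟩, h3⟩

variable (L τ) in
/-- a measurable equivariant choice of frames -/
theorem exists_fr [MeasurableSpace X] [BorelSpace X] : ∃ s : Yt L τ → X, Measurable s ∧
    (∀ p, pr L τ (s p) = p) ∧ ∀ (g : Γ) p, s (g • p) = g • s p := by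
  have := countable_Γ L
  have := L.nonempty
  obtain ⟨Z, h1, -, h3⟩ := exists_Z L τ
  obtain ⟨s, hs, hs'⟩ := exists_section (pr_proper (L := L) (τ := τ)) pr_surj
  exact exists_equiv_section pr_smul hs hs' h1 h3

end Vale.Agent.P207Z.CS
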