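import Vale.Agent.P207Z.CS.Chart

/-!
# P207, block CS: contraction of the unstable axis in the past
-/

set_option linter.all false

open Set Filter Topology Metric MeasureTheory
open scoped ContDiff

noncomputable section

namespace Vale.Agent.P207Z.CS

open Vale.Agent.P207.N4 Vale.Agent.P207.N3
open Vale.Agent.P207.N4.H709 (NuPos)

namespace Contr

section gen

variable {Z E F G : Type} [TopologicalSpace Z] [NormedAddCommGroup E] [NormedSpace ℝ E]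
  [NormedAddCommGroup F] [NormedSpace ℝ F] [NormedAddCommGroup G] [NormedSpace ℝ G]

theorem exists_le {P : ℕ → ℝ → Prop} (hm : ∀ i a b, a ≤ b → P i a → P i b) (h : ∀ i, ∃ a, P i a)
    (k : ℕ) : ∃ a, 1 ≤ a ∧ ∀ i ≤ k, P i a := by
  choose c hc using h
  obtain ⟨a, ha⟩ := ((finite_le_nat k).image c).bddAbove
  exact ⟨max 1 a, le_max_left _ _, fun i hi =>
    hm i _ _ ((ha (mem_image_of_mem c hi)).trans (le_max_right _ _)) (hc i)⟩

/-- uniform radius and uniform bounds -/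
theorem unif [ProperSpace E] {f : Z → E → F} {U : Set (Z × E)} (hf : JC f U) {K P : Set Z}
    (hK : IsCompact K) (h0 : ∀ z ∈ K, (z, (0 : E)) ∈ U)
    (hi : ∀ z ∈ P, ∃ z' ∈ K, ∀ a, (z', a) ∈ U → (z, a) ∈ U ∧ f z a = f z' a) :
    ∃ ρ > 0, (∀ z ∈ P, ∀ a ∈ ball (0 : E) ρ, (z, a) ∈ U) ∧ ∀ k, ∃ C, 1 ≤ C ∧ ∀ i ≤ k, ∀ z ∈ P,
      ∀ a ∈ ball (0 : E) ρ, ‖iteratedFDeriv ℝ i (f z) a‖ ≤ C := by
  obtain ⟨u, v, -, hv, h1, h2, h3⟩ := generalized_tube_lemma hK (isCompact_singleton (x := (0 : E)))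
    hf.isOpen (by
      rintro ⟨z, a⟩ ⟨hz, rfl⟩
      exact h0 z hz)
  obtain ⟨ρ, ρ0, h4⟩ := nhds_basis_closedBall.mem_iff.1 (hv.mem_nhds (h2 rfl))
  have h5 : K ×ˢ closedBall (0 : E) ρ ⊆ U := (prod_mono h1 h4).trans h3
  refine ⟨ρ, ρ0, fun z hz a ha => ?_, exists_le
    (fun i a b hab h z hz u hu => (h z hz u hu).trans hab) fun k => ?_⟩
  · obtain ⟨z', hz', h6⟩ := hi z hz
    exact (h6 a (h5 ⟨hz', ball_subset_closedBall ha⟩)).1
  · obtain ⟨C, hC⟩ := hf.bound (hK.prod (isCompact_closedBall 0 ρ)) h5 k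
    refine ⟨C, fun z hz a ha => ?_⟩
    obtain ⟨z', hz', h6⟩ := hi z hz
    have h7 : f z =ᶠ[𝓝 a] f z' := by
      filter_upwards [isOpen_ball.mem_nhds ha] with b hb
        using (h6 b (h5 ⟨hz', ball_subset_closedBall hb⟩)).2
    rw [(h7.iteratedFDeriv ℝ k).self_of_nhds]
    exact hC (z', a) ⟨hz', ball_subset_closedBall ha⟩

/-- derivatives of a composition with a small inner map -/
theorem comp_le {g : F → G} {f : E → F} {s : Set E} {t : Set F} (hs : IsOpen s) (ht : IsOpen t)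
    (hg : ContDiffOn ℝ ∞ g t) (hf : ContDiffOn ℝ ∞ f s) (hst : MapsTo f s t) {x : E} (hx : x ∈ s)
    {k : ℕ} (hk : 1 ≤ k) {C M ε : ℝ} (hM : 1 ≤ M) (ε0 : 0 < ε) (ε1 : ε ≤ 1)
    (hC : ∀ i ≤ k, ‖iteratedFDeriv ℝ i g (f x)‖ ≤ C)
    (hD : ∀ i, 1 ≤ i → i ≤ k → ‖iteratedFDeriv ℝ i f x‖ ≤ M * ε) :
    ‖iteratedFDeriv ℝ k (g ∘ f) x‖ ≤ k.factorial * C * M ^ k * ε := by
  obtain ⟨δ, δ0, δ1, hδ⟩ : ∃ δ : ℝ, 0 ≤ δ ∧ δ ≤ 1 ∧ δ ^ k = ε :=
    ⟨ε ^ (k⁻¹ : ℝ), by positivity, Real.rpow_le_one ε0.le ε1 (by positivity),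
      Real.rpow_inv_natCast_pow ε0.le (by omega)⟩
  have h := norm_iteratedFDerivWithin_comp_le (n := k) (C := C) (D := M * δ) hg hf
    (by exact_mod_cast le_top) ht.uniqueDiffOn hs.uniqueDiffOn hst hx
    (fun i hi => by
      rw [iteratedFDerivWithin_of_isOpen i ht (hst hx)]
      exact hC i hi)
    (fun i h1 h2 => by
      rw [iteratedFDerivWithin_of_isOpen i hs hx, mul_pow]
      exact (hD i h1 h2).trans (mul_le_mul (le_self_pow₀ hM (by omega))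
        (hδ ▸ pow_le_pow_of_le_one δ0 δ1 h2) ε0.le (by positivity)))
  rwa [iteratedFDerivWithin_of_isOpen k hs hx, mul_pow, hδ, ← mul_assoc] at h

end gen

variable [Dim]

variable {Γ X B : Type} [Group Γ] [MetricSpace X] [ProperSpace X] [MulAction Γ X]
  [IsIsometricSMul Γ X] [TopologicalSpace B] [CompactSpace B] [T2Space B] [MulAction Γ B]
  [ContinuousConstSMul Γ B] {L : Leaf Γ X B} {T : Tens L} {S : Bus L T} {r : ℝ}

theorem ep_fl (t : ℝ) (x : X) : L.ep (L.φ t x) = L.ep x := by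
  rw [L.ep_flip, L.flip_φ, L.em_φ, L.ep_flip]

theorem cocompact (L : Leaf Γ X B) :
    ∃ Q : Set (Xd X), IsCompact Q ∧ ∀ x : Xd X, ∃ g : Γ, g • x ∈ Q := by
  obtain ⟨Q, h1, h2⟩ := L.cocompact
  exact ⟨Q ×ˢ univ, h1.prod isCompact_univ, fun x => (h2 x.1).imp fun g hg => ⟨hg, mem_univ _⟩⟩

variable (K : Str S r)

theorem tau_smul (hr : Rad S r) (g : Γ) {x y : Xd X} {q : W}
    (h : q ∈ tdom (ch K) (g • x) (g • y)) :
    q ∈ tdom (ch K) x y ∧ ttau (ch K) x y q = ttau (ch K) (g • x) (g • y) q := by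
  obtain ⟨h1, h2⟩ := tau_spec K h
  rw [ch_smul K hr g y h1, ch_smul K hr g x h.1, smul_left_cancel_iff] at h2
  exact ⟨⟨h.1, _, h1, h2⟩, tau_eq K hr h1 h2⟩

/-- bounded times -/
theorem short (hr : Rad S r) (hC : CrossJC S) : ∃ ρ > 0,
    (∀ z ∈ (univ : Set (Xd X)) ×ˢ Icc 0 L.t1, ∀ a ∈ ball (0 : E2) ρ,
      ((0, a) : W) ∈ tdom (ch K) z.1 (φd L (-z.2) z.1)) ∧ ∀ k, ∃ C, 1 ≤ C ∧ ∀ i ≤ k,
      ∀ z ∈ (univ : Set (Xd X)) ×ˢ Icc 0 L.t1, ∀ a ∈ ball (0 : E2) ρ,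
        ‖iteratedFDeriv ℝ i (fun a => ttau (ch K) z.1 (φd L (-z.2) z.1) (0, a)) a‖ ≤ C := by
  obtain ⟨Q, q1, q2⟩ := cocompact L
  have hπ : Continuous fun z : Xd X × ℝ => ((z.1, φd L (-z.2) z.1) : Xd X × Xd X) :=
    continuous_fst.prodMk ((L.φ_cont.comp (continuous_snd.neg.prodMk continuous_fst.fst)).prodMk
      continuous_fst.snd)
  have h1 := ((tau_jc K hr hC).pullback hπ).comp
    ((JC.const isOpen_univ (0 : E2)).prodMk (JC.id isOpen_univ))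
  obtain ⟨ρ, ρ0, h2, h3⟩ := unif h1 (P := univ ×ˢ Icc 0 L.t1) (q1.prod (isCompact_Icc (a := 0)
    (b := L.t1))) (fun z _ => ⟨mem_univ _, mem_ball_self one_pos, 0, mem_ball_self one_pos, by
      change ch K _ 0 = ch K z.1 0
      rw [ch_zero, ch_zero]
      exact Prod.ext (L.em_φ _ _) (ep_fl _ _)⟩) fun z hz => by
    obtain ⟨g, hg⟩ := q2 z.1
    refine ⟨(g • z.1, z.2), ⟨hg, hz.2⟩, fun a ha => ?_⟩
    have e : φd L (-z.2) (g • z.1) = g • φd L (-z.2) z.1 := Prod.ext (L.φ_smul g _ _) rfl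
    have k1 : ((0, a) : W) ∈ tdom (ch K) (g • z.1) (φd L (-z.2) (g • z.1)) := ha.2
    rw [e] at k1
    refine ⟨⟨mem_univ _, (tau_smul K hr g k1).1⟩, ?_⟩
    change _ = ttau (ch K) (g • z.1) (φd L (-z.2) (g • z.1)) (0, a)
    rw [e]
    exact (tau_smul K hr g k1).2
  exact ⟨ρ, ρ0, fun z hz a ha => (h2 z hz a ha).2, h3⟩

/-- the foot point of the unstable axis -/
theorem foot {ε : ℝ} (ε0 : 0 < ε) : ∃ ρ > 0,
    (∀ x : Xd X, ContDiffOn ℝ ∞ (fun a => (K.κ x (0, a)).1) (ball (0 : E2) ρ)) ∧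
    (∀ x : Xd X, ∀ a ∈ ball (0 : E2) ρ, ((0, a) : W) ∈ ball (0 : W) 1 ∧
      (K.κ x (0, a)).1 ∈ ball (0 : E2) ε) ∧ ∀ k, ∃ C, 1 ≤ C ∧ ∀ i ≤ k, ∀ x : Xd X,
      ∀ a ∈ ball (0 : E2) ρ, ‖iteratedFDeriv ℝ i (fun a => (K.κ x (0, a)).1) a‖ ≤ C := by
  obtain ⟨Q, q1, q2⟩ := cocompact L
  have h1 := (K.κ_jc.comp ((JC.const isOpen_univ (0 : E2)).prodMk (JC.id isOpen_univ))).fst
  have h2 := h1.mono (h1.continuousOn.isOpen_inter_preimage h1.isOpen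
    (isOpen_ball (x := (0 : E2)) (ε := ε))) inter_subset_left
  obtain ⟨ρ, ρ0, h3, h4⟩ := unif h2 (P := univ) q1 (fun z _ => ⟨⟨mem_univ _, mem_univ _,
    mem_ball_self one_pos⟩, by
      change (K.κ z 0).1 ∈ ball (0 : E2) ε
      rw [K.κ_zero]
      exact mem_ball_self ε0⟩) fun z _ => by
    obtain ⟨g, hg⟩ := q2 z
    refine ⟨g • z, hg, fun a ha => ?_⟩
    have e : K.κ (g • z) (0, a) = K.κ z (0, a) := K.κ_smul g z _ ha.1.2.2
    have k1 : (K.κ (g • z) (0, a)).1 ∈ ball (0 : E2) ε := ha.2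
    rw [e] at k1
    exact ⟨⟨⟨mem_univ _, mem_univ _, ha.1.2.2⟩, k1⟩, (congrArg Prod.fst e).symm⟩
  exact ⟨ρ, ρ0, fun x => (h2.smooth x).mono fun a ha => h3 x (mem_univ _) a ha,
    fun x a ha => ⟨(h3 x (mem_univ _) a ha).1.2.2, (h3 x (mem_univ _) a ha).2⟩,
    fun k => (h4 k).imp fun C h => ⟨h.1, fun i hi x => h.2 i hi x (mem_univ _)⟩⟩

/-- the unstable axis over the disc -/
theorem axis (hn : NuPos S) : ∃ ρ > 0,
    (∀ y : Xd X, ContDiffOn ℝ ∞ (lfU K y (L.em y.1)) (ball (0 : E2) ρ)) ∧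
    (∀ y : Xd X, ∀ u ∈ ball (0 : E2) ρ, lfU K y (L.em y.1) u ∈ ball (0 : W) 1 ∧
      ch K y (lfU K y (L.em y.1) u) = (L.em y.1, L.e y.1 u)) ∧ ∀ k, ∃ C, 1 ≤ C ∧ ∀ i ≤ k,
      ∀ y : Xd X, ∀ u ∈ ball (0 : E2) ρ, ‖iteratedFDeriv ℝ i (lfU K y (L.em y.1)) u‖ ≤ C := by
  obtain ⟨Q, q1, q2⟩ := cocompact L
  have hπ : Continuous fun y : Xd X => ((y.1, L.em y.1) : X × B) :=
    continuous_fst.prodMk (L.em_cont.comp continuous_fst)
  have h0 := (H709.gradient_jc S.be_jc).pullback hπ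
  have h1 := K.ι_jc.comp ((JC.id h0.isOpen).prodMk h0)
  obtain ⟨ρ, ρ0, h3, h4⟩ := unif h1 (P := univ) q1 (fun z _ => ⟨⟨mem_univ _, H709.zero_mem3⟩, 0,
    mem_ball_self one_pos, by
      change K.κ z 0 = (0, gradient (S.be z.1 (L.em z.1)) 0)
      rw [K.κ_zero, S.be_crit]
      rfl⟩) fun z _ => by
    obtain ⟨g, hg⟩ := q2 z
    refine ⟨g • z, hg, fun a ha => ?_⟩
    obtain ⟨w, hw, e⟩ := ha.2
    have e1 : K.κ z w = (a, gradient (S.be z.1 (L.em z.1)) a) := by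
      rw [← K.κ_smul g z w hw, ← grad_smul g z.1 _ ha.1.2, ← L.em_smul]
      exact e
    refine ⟨⟨⟨mem_univ _, ha.1.2⟩, w, hw, e1⟩, ?_⟩
    exact (e1 ▸ K.ι_κ z w hw :).trans (e ▸ K.ι_κ (g • z) w hw :).symm
  refine ⟨ρ, ρ0, fun x => (h1.smooth x).mono fun a ha => h3 x (mem_univ _) a ha, fun y u hu => ?_,
    fun k => (h4 k).imp fun C h => ⟨h.1, fun i hi x => h.2 i hi x (mem_univ _)⟩⟩
  obtain ⟨⟨-, h5⟩, w, hw, e⟩ := h3 y (mem_univ _) u hu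
  have e1 : K.κ y w = (u, gradient (S.be y.1 (L.em y.1)) u) := e
  rw [lfU, ← e1, K.ι_κ y w hw, ch, e1]
  exact ⟨hw, Rel.dar_eq ⟨h5, hn _ _ h5, rfl, S.en_em _ _ h5⟩⟩

/-- the transition maps of the leaf for long times -/
theorem long (L : Leaf Γ X B) : (∀ y, ∀ t ≥ L.t1, ContDiffOn ℝ ∞ (L.τ (L.φ t y) y) (ball 0 3) ∧
    ∀ u ∈ ball (0 : E2) 3, L.e y (L.τ (L.φ t y) y u) = L.e (L.φ t y) u) ∧
    (∃ C, 0 < C ∧ ∀ y, ∀ t ≥ L.t1, ∀ u ∈ ball (0 : E2) 3, ‖L.τ (L.φ t y) y u‖ ≤ C * ‖u‖) ∧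
    ∀ k, ∃ C, 1 ≤ C ∧ ∀ i ≤ k, ∀ y, ∀ t ≥ L.t1, ∀ u ∈ ball (0 : E2) 3,
      ‖iteratedFDeriv ℝ i (L.τ (L.φ t y) y) u‖ ≤ C * Real.exp (-L.χ * t) := by
  have h1 : ∀ y, ∀ t ≥ L.t1, ∀ u ∈ ball (0 : E2) 3, L.e (L.φ t y) u ∈ L.e y '' ball 0 3 :=
    fun y t ht u hu => image_mono (ball_subset_ball (by norm_num))
      (L.engulf y t ht (mem_image_of_mem _ (ball_subset_closedBall hu)))
  have h2 : ∀ y, ∀ t ≥ L.t1, ContDiffOn ℝ ∞ (L.τ (L.φ t y) y) (ball 0 3) := fun y t ht =>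
    (L.tau_smooth _ _ (L.em_φ t y)).mono fun u hu => ⟨hu, h1 y t ht u hu⟩
  obtain ⟨C, hC⟩ := L.contract 1 le_rfl
  have h3 : ∀ y, ∀ t ≥ L.t1, ∀ u ∈ ball (0 : E2) 3,
      ‖L.τ (L.φ t y) y u‖ ≤ max 1 C * Real.exp (-L.χ * t) * ‖u‖ := fun y t ht u hu => by
    have k1 : L.τ (L.φ t y) y 0 = 0 := by
      rw [Leaf.τ, tau, L.e_zero, ep_fl, ← L.e_zero]
      exact (L.e_inj y).leftInvOn_invFunOn (mem_closedBall_self (by norm_num))
    have k2 := (convex_ball (0 : E2) 3).norm_image_sub_le_of_norm_fderiv_le (𝕜 := ℝ)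
      (f := L.τ (L.φ t y) y) (C := max 1 C * Real.exp (-L.χ * t))
      (fun v hv => ((h2 y t ht).contDiffAt (isOpen_ball.mem_nhds hv)).differentiableAt (by simp))
      (fun v hv => by
        rw [← norm_iteratedFDeriv_one]
        exact (hC y t ht v hv).trans
          (mul_le_mul_of_nonneg_right (le_max_right _ _) (Real.exp_pos _).le))
      H709.zero_mem3 hu
    rwa [k1, sub_zero, sub_zero] at k2
  refine ⟨fun y t ht => ⟨h2 y t ht, fun u hu => ?_⟩, ⟨max 1 C, by positivity,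
    fun y t ht u hu => (h3 y t ht u hu).trans ?_⟩, exists_le (fun i a b hab h y t ht u hu =>
      (h y t ht u hu).trans (mul_le_mul_of_nonneg_right hab (Real.exp_pos _).le)) fun i => ?_⟩
  · obtain ⟨v, hv, e⟩ := h1 y t ht u hu
    exact Function.invFunOn_eq ⟨v, ball_subset_closedBall hv, e⟩
  · refine mul_le_mul_of_nonneg_right (mul_le_of_le_one_right (by positivity)
      (Real.exp_le_one_iff.2 ?_)) (norm_nonneg _)
    nlinarith [L.χ_pos, L.t1_pos]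
  · rcases Nat.eq_zero_or_pos i with rfl | hi
    · refine ⟨max 1 C * 3, fun y t ht u hu => ?_⟩
      rw [norm_iteratedFDeriv_zero, mul_right_comm]
      exact (h3 y t ht u hu).trans
        (mul_le_mul_of_nonneg_left (mem_ball_zero_iff.1 hu).le (by positivity))
    · exact L.contract i hi

end Contr

variable [Dim]

variable {Γ X B : Type} [Group Γ] [MetricSpace X] [ProperSpace X] [MulAction Γ X]
  [IsIsometricSMul Γ X] [TopologicalSpace B] [CompactSpace B] [T2Space B] [MulAction Γ B]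
  [ContinuousConstSMul Γ B] {L : Leaf Γ X B} {T : Tens L} {S : Bus L T} {r : ℝ}

variable (K : Str S r)

theorem exists_contrU (hr : Rad S r) (hn : NuPos S) (hC : CrossJC S) : ∃ ρ : ℝ, 0 < ρ ∧
    (∀ x, ∀ t ≥ (0 : ℝ), ∀ a ∈ ball (0 : E2) ρ, ((0, a) : W) ∈ tdom (ch K) x (φd L (-t) x)) ∧
    ∀ k : ℕ, 1 ≤ k → ∃ C, ∀ x, ∀ t ≥ (0 : ℝ), ∀ a ∈ ball (0 : E2) ρ,
      ‖iteratedFDeriv ℝ k (fun a => ttau (ch K) x (φd L (-t) x) (0, a)) a‖
        ≤ C * Real.exp (-L.χ * t) := by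
  obtain ⟨ρ1, r1, a1, a2⟩ := Contr.short K hr hC
  obtain ⟨ρ2, r2, b1, b2, b3⟩ := Contr.axis K hn
  obtain ⟨c1, ⟨M, M0, c2⟩, c3⟩ := Contr.long L
  obtain ⟨ρ3, r3, d1, d2, d3⟩ := Contr.foot K (lt_min (show (0 : ℝ) < 3 by norm_num) (div_pos r2 M0))
  have e0 : ∀ (x : Xd X) t, L.φ t (φd L (-t) x).1 = x.1 := fun x t => by
    rw [φd, ← L.φ_add, add_neg_cancel, L.φ_zero]
  have e1 : ∀ (x : Xd X), MapsTo (fun a : E2 => (K.κ x (0, a)).1) (ball 0 ρ3) (ball 0 3) :=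
    fun x a ha => ball_subset_ball (min_le_left _ _) (d2 x a ha).2
  have e2 : ∀ (x : Xd X) y, ∀ t ≥ L.t1, MapsTo (L.τ (L.φ t y) y ∘ fun a : E2 => (K.κ x (0, a)).1)
      (ball 0 ρ3) (ball 0 ρ2) := fun x y t ht a ha => by
    refine mem_ball_zero_iff.2 ((c2 y t ht _ (e1 x ha)).trans_lt ?_)
    rw [← lt_div_iff₀' M0]
    exact (mem_ball_zero_iff.1 (d2 x a ha).2).trans_le (min_le_right _ _)
  have e3 : ∀ (x : Xd X), ∀ t ≥ L.t1, ∀ a ∈ ball (0 : E2) ρ3,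
      ((0, a) : W) ∈ tdom (ch K) x (φd L (-t) x) ∧ ttau (ch K) x (φd L (-t) x) (0, a) =
        (lfU K (φd L (-t) x) (L.em (φd L (-t) x).1) ∘ L.τ (L.φ t (φd L (-t) x).1) (φd L (-t) x).1 ∘
          fun a : E2 => (K.κ x (0, a)).1) a := fun x t ht a ha => by
    obtain ⟨k1, k2⟩ := b2 (φd L (-t) x) _ (e2 x _ t ht ha)
    have k3 := (ch_U K hr hn x (d2 x a ha).1).2 rfl
    have k4 := (ch_rel K hr x (d2 x a ha).1).en
    rw [k3, S.en_em _ _ (e1 x ha)] at k4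
    have k6 := (c1 (φd L (-t) x).1 t ht).2 _ (e1 x ha)
    nth_rewrite 2 [e0] at k6
    have k5 := k2.trans (c := ch K x (0, a))
      (Prod.ext ((L.em_φ _ _).trans k3.symm) (k6.trans k4))
    exact ⟨⟨(d2 x a ha).1, _, k1, k5⟩, tau_eq K hr k1 k5⟩
  refine ⟨min ρ1 ρ3, lt_min r1 r3, fun x t ht a ha => ?_, fun k hk => ?_⟩
  · rcases le_total t L.t1 with h | h
    · exact a1 (x, t) ⟨mem_univ _, ht, h⟩ a (ball_subset_ball (min_le_left _ _) ha)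
    · exact (e3 x t h a (ball_subset_ball (min_le_right _ _) ha)).1
  obtain ⟨A1, A10, a3⟩ := a2 k
  obtain ⟨A2, A20, b4⟩ := b3 k
  obtain ⟨A3, A30, c4⟩ := c3 k
  obtain ⟨A4, A40, d4⟩ := d3 k
  have f0 : (1 : ℝ) ≤ k.factorial := Nat.one_le_cast.2 k.factorial_pos
  refine ⟨max (A1 * Real.exp (L.χ * L.t1))
    (k.factorial * A2 * (k.factorial * A3 * A4 ^ k) ^ k), fun x t ht a ha => ?_⟩
  rcases le_total t L.t1 with h | h
  · refine (a3 k le_rfl (x, t) ⟨mem_univ _, ht, h⟩ a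
      (ball_subset_ball (min_le_left _ _) ha)).trans (le_trans ?_
        (mul_le_mul_of_nonneg_right (le_max_left _ _) (Real.exp_pos _).le))
    rw [mul_assoc, ← Real.exp_add]
    exact le_mul_of_one_le_right (by linarith) (Real.one_le_exp (by nlinarith [L.χ_pos]))
  have ha' : a ∈ ball (0 : E2) ρ3 := ball_subset_ball (min_le_right _ _) ha
  have f1 := (show EqOn _ _ (ball (0 : E2) ρ3) from
    fun b hb => (e3 x t h b hb).2).eventuallyEq_of_mem (isOpen_ball.mem_nhds ha')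
  rw [(f1.iteratedFDeriv ℝ k).self_of_nhds]
  refine le_trans ?_ (mul_le_mul_of_nonneg_right (le_max_right _ _) (Real.exp_pos _).le)
  refine Contr.comp_le isOpen_ball isOpen_ball (b1 _) ((c1 _ t h).1.comp (d1 x) (e1 x))
    (e2 x _ t h) ha' hk (one_le_mul_of_one_le_of_one_le (one_le_mul_of_one_le_of_one_le f0 A30)
      (one_le_pow₀ A40)) (Real.exp_pos _) (Real.exp_le_one_iff.2 (by nlinarith [L.χ_pos]))
    (fun i hi => b4 i hi _ _ (e2 x _ t h ha')) fun i h1 h2 => ?_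
  refine (Contr.comp_le isOpen_ball isOpen_ball (c1 _ t h).1 (d1 x) (e1 x) ha' h1 A40 one_pos le_rfl
    (fun j hj => c4 j (hj.trans h2) _ t h _ (e1 x ha'))
    fun j _ hj => (d4 j (hj.trans h2) x a ha').trans_eq (mul_one _).symm).trans ?_
  have f2 : (i.factorial : ℝ) ≤ k.factorial := Nat.cast_le.2 (Nat.factorial_le h2)
  have f3 : A4 ^ i ≤ A4 ^ k := pow_le_pow_right₀ A40 h2
  have f4 := Real.exp_pos (-L.χ * t)
  calc i.factorial * (A3 * Real.exp (-L.χ * t)) * A4 ^ i * 1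
      = i.factorial * A3 * A4 ^ i * Real.exp (-L.χ * t) := by ring
    _ ≤ _ := by gcongr

end Vale.Agent.P207Z.CS
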