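import Vale.Agent.P207Z.CS.Meas
import Vale.Agent.P207.N4.H575.T3.Pack

/-!
# P207, block CS: the argument of Hopf
-/

set_option linter.unusedSectionVars false

open Set Filter Topology Metric MeasureTheory
open scoped ENNReal

noncomputable section

namespace Vale.Agent.P207Z.CS

open Vale.Agent.P207.N4 Vale.Agent.P207.N3

namespace Hopf

/-- exhaustion of a set of finite measure by compact sets -/
theorem exh {Y : Type} [TopologicalSpace Y] [T2Space Y] [MeasurableSpace Y]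
    [OpensMeasurableSpace Y] {m : Measure Y} [m.InnerRegularCompactLTTop] {A : Set Y}
    (hA : NullMeasurableSet A m) (hf : m A ≠ ⊤) : ∃ K : ℕ → Set Y,
      (∀ k, IsCompact (K k) ∧ K k ⊆ A) ∧ Monotone K ∧ ∀ᵐ p ∂m, p ∈ A → ∃ k, p ∈ K k := by
  obtain ⟨A', h1, h2, h3⟩ := hA.exists_measurable_subset_ae_eq
  have hf' : m A' ≠ ⊤ := ((measure_mono h1).trans_lt hf.lt_top).ne
  choose K hK1 hK2 hK3 using fun n : ℕ => h2.exists_isCompact_sdiff_lt hf'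
    (ε := (n : ℝ≥0∞)⁻¹) (ENNReal.inv_ne_zero.2 (ENNReal.natCast_ne_top n))
  refine ⟨accumulate K, fun k => ⟨isCompact_accumulate hK2 k, fun p hp => ?_⟩,
    monotone_accumulate, ?_⟩
  · obtain ⟨j, -, hj⟩ := mem_accumulate.1 hp
    exact h1 (hK1 j hj)
  · have h4 : m (A' \ ⋃ n, K n) = 0 := by
      refine le_antisymm (ge_of_tendsto' ENNReal.tendsto_inv_nat_nhds_zero fun n => ?_) zero_le
      exact (measure_mono (sdiff_subset_sdiff_right (subset_iUnion K n))).trans (hK3 n).le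
    filter_upwards [h3.mem_iff, measure_eq_zero_iff_ae_notMem.1 h4] with p hp hp' hpA
    by_contra hc
    refine hp' ⟨hp.2 hpA, fun hm => ?_⟩
    obtain ⟨n, hn⟩ := mem_iUnion.1 hm
    exact hc ⟨n, subset_accumulate hn⟩

/-- common return times of typical points -/
theorem typ {Γ Y : Type} [Group Γ] [MulAction Γ Y] [MeasurableSpace Y] [Countable Γ]
    [MeasurableConstSMul Γ Y] {m : Measure Y} [SMulInvariantMeasure Γ Y m] {Z : Set Y}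
    {φ : ℝ → Y → Y} (h : MET.GSys Γ m Z φ) {Λ : ℕ → Set Y} (h1 : ∀ k, MeasurableSet (Λ k))
    (h2 : Monotone Λ) (h3 : ∀ k (g : Γ) p, g • p ∈ Λ k ↔ p ∈ Λ k) (h4 : ∀ᵐ p ∂m, ∃ k, p ∈ Λ k) :
    ∃ G : Set Y, (∀ᵐ p ∂m, p ∈ G) ∧ ∀ p ∈ G, ∀ p' ∈ G,
      (∃ k, ∀ n : ℕ, ∃ i : ℕ, n ≤ i ∧ φ i p ∈ Λ k ∧ φ i p' ∈ Λ k) ∧
      ∃ k, ∀ n : ℕ, ∃ i : ℕ, n ≤ i ∧ φ (-i) p ∈ Λ k ∧ φ (-i) p' ∈ Λ k := by
  classical
  have hex : ∀ p, ∃ k, p ∈ Λ k ∨ ∀ j, p ∉ Λ j := fun p => by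
    by_cases hp : ∃ k, p ∈ Λ k
    · exact hp.imp fun _ => Or.inl
    · exact ⟨0, Or.inr fun j hj => hp ⟨j, hj⟩⟩
  have hm : Measurable fun p => Nat.find (hex p) := measurable_find hex fun k => by
    have : {p | p ∈ Λ k ∨ ∀ j, p ∉ Λ j} = Λ k ∪ (⋃ j, Λ j)ᶜ := by
      ext p
      simp
    rw [this]
    exact (h1 k).union (MeasurableSet.iUnion h1).compl
  set r : Y → ℝ := fun p => (Nat.find (hex p) : ℝ) with hr
  have hrm : Measurable r := measurable_from_top.comp hm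
  have hri : ∀ (g : Γ) p, r (g • p) = r p := fun g p => by
    simp only [hr, h3]
  have hle : ∀ (c : ℝ) p, (∃ k, p ∈ Λ k) → r p ≤ c → p ∈ Λ ⌈c⌉₊ := by
    rintro c p ⟨k, hk⟩ hc
    refine h2 ?_ ((Nat.find_spec (hex p)).resolve_right fun hn => hn k hk)
    exact (Nat.cast_le (α := ℝ)).1 (hc.trans (Nat.le_ceil c))
  have key : ∀ u u' : ℕ → Y, (∀ i, ∃ k, u i ∈ Λ k) → (∀ i, ∃ k, u' i ∈ Λ k) →
      (MET.Den fun i => r (u i)) → (MET.Den fun i => r (u' i)) →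
      ∃ k, ∀ n : ℕ, ∃ i : ℕ, n ≤ i ∧ u i ∈ Λ k ∧ u' i ∈ Λ k := fun u u' a a' b b' => by
    obtain ⟨c, hc⟩ := (b.max b').frequently
    exact ⟨⌈c⌉₊, fun n => (hc n).imp fun i hi => ⟨hi.1, hle c _ (a i) (le_of_max_le_left hi.2),
      hle c _ (a' i) (le_of_max_le_right hi.2)⟩⟩
  refine ⟨{p | (∀ n : ℤ, ∃ k, φ n p ∈ Λ k) ∧ (MET.Den fun i => r (φ i p)) ∧
    MET.Den fun i => r (φ (-i) p)}, ?_, fun p hp p' hp' => ⟨?_, ?_⟩⟩
  · filter_upwards [h.ae_orbit h4, h.ae_den hrm.aemeasurable fun g => Eventually.of_forall (hri g)]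
      with p a b
    exact ⟨fun n => by simpa only [one_smul] using a n 1, b⟩
  · exact key _ _ (fun i => by simpa using hp.1 i) (fun i => by simpa using hp'.1 i) hp.2.1 hp'.2.1
  · exact key _ _ (fun i => by simpa using hp.1 (-i)) (fun i => by simpa using hp'.1 (-i))
      hp.2.2 hp'.2.2

variable [Dim]

variable {Γ X B : Type} [Group Γ] [MetricSpace X] [ProperSpace X] [MulAction Γ X]
  [IsIsometricSMul Γ X] [TopologicalSpace B] [CompactSpace B] [T2Space B] [MulAction Γ B]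
  [ContinuousConstSMul Γ B] {L : Leaf Γ X B}

/-- disjoint orbits of compact sets are at a positive distance -/
theorem sep (L : Leaf Γ X B) {C C' : Set X} (hC : IsCompact C) (hC' : IsCompact C')
    (h : ∀ g : Γ, ∀ x ∈ C, g • x ∉ C') :
    ∃ δ > 0, ∀ (g g' : Γ) z z', g • z ∈ C → g' • z' ∈ C' → δ ≤ dist z z' := by
  have hK : IsCompact (C ∪ cthickening 1 C') := hC.union hC'.cthickening
  have hD : IsCompact (⋃ g ∈ {g : Γ | ∃ x ∈ C ∪ cthickening 1 C', g • x ∈ C ∪ cthickening 1 C'},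
      (fun x => g • x) '' C) :=
    (L.proper _ hK).isCompact_biUnion fun g _ => hC.image (continuous_const_smul g)
  obtain ⟨δ, hδ, hd⟩ := Disjoint.exists_thickenings (disjoint_left.2 (by
    intro x hx hx'
    obtain ⟨g, -, y, hy, rfl⟩ := mem_iUnion₂.1 hx
    exact h g y hy hx')) hD hC'.isClosed
  refine ⟨min δ 1, lt_min hδ one_pos, fun g g' z z' hz hz' => not_lt.1 fun hlt => ?_⟩
  rw [← dist_smul g'] at hlt
  have e : (g' * g⁻¹) • g • z = g' • z := by rw [mul_smul, inv_smul_smul]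
  refine disjoint_left.1 hd (self_subset_thickening hδ _ (a := g' • z) (mem_iUnion₂.2
    ⟨g' * g⁻¹, ⟨g • z, Or.inl hz, Or.inr ?_⟩, g • z, hz, e⟩))
    (mem_thickening_iff.2 ⟨_, hz', hlt.trans_le (min_le_left _ _)⟩)
  rw [e]
  exact mem_cthickening_of_dist_le _ _ _ _ hz' (hlt.le.trans (min_le_right _ _))

local instance : Fact ((0 : ℝ) < 1) := ⟨one_pos⟩

theorem pr_fl (s : ℝ) (x : X) : pr L 1 (L.φ s x) = fl L 1 s (pr L 1 x) := by
  rw [pr_φ', div_one]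

/-- asymptotic sequences -/
def Asym (L : Leaf Γ X B) (u u' : ℕ → Yt L 1) : Prop :=
  ∀ ε > 0, ∃ n : ℕ, ∀ i ≥ n, ∃ z z' : X, dist z z' < ε ∧ pr L 1 z = u i ∧ pr L 1 z' = u' i

theorem asym_fwd {p p' : Yt L 1} (h : p.eta = p'.eta) :
    ∃ s : ℝ, Asym L (fun i => fl L 1 i p) fun i => fl L 1 s (fl L 1 i p') := by
  obtain ⟨x, rfl⟩ := pr_surj p
  have hne : p'.xi ≠ L.ep x := fun hc => p'.ne (hc.trans h)
  obtain ⟨C, hC⟩ := L.hol_asym {(p'.xi, x)} isCompact_singleton (by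
    rintro _ rfl
    exact hne)
  refine ⟨L.lv (L.hol p'.xi x) - p'.tm, fun ε hε => ?_⟩
  have hlim : Tendsto (fun i : ℕ => C * Real.exp (-L.χ * i)) atTop (𝓝 (C * 0)) := by
    refine Tendsto.const_mul C (Real.tendsto_exp_atBot.comp ?_)
    exact tendsto_natCast_atTop_atTop.const_mul_atTop_of_neg (neg_lt_zero.2 L.χ_pos)
  rw [mul_zero] at hlim
  obtain ⟨n, hn⟩ := eventually_atTop.1 (hlim.eventually (gt_mem_nhds hε))
  refine ⟨n, fun i hi => ⟨L.φ i x, L.φ i (L.hol p'.xi x),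
    (hC _ rfl i (Nat.cast_nonneg i)).trans_lt (hn i hi), pr_fl _ _, ?_⟩⟩
  rw [pr_fl]
  refine Yt.ext' (L.hol_em _ _ hne) ((L.hol_ep _ _ hne).trans h) ?_
  simp only [tm_fl, tm_pr, div_one]
  ring

theorem asym_bwd {p p' : Yt L 1} (h : p.xi = p'.xi) :
    ∃ s : ℝ, Asym L (fun i => fl L 1 (-i) p) fun i => fl L 1 s (fl L 1 (-i) p') := by
  obtain ⟨x, rfl⟩ := pr_surj p
  obtain ⟨y, h1, h2, h3⟩ := L.exists_frame _ _ p'.ne (L.lv x)
  refine ⟨L.lv x - p'.tm, fun ε hε => ?_⟩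
  obtain ⟨c, hc⟩ := L.past_close (dist x y) hε
  refine ⟨⌈c⌉₊, fun i hi => ?_⟩
  obtain ⟨a, ha⟩ := hc x y (h.trans h1.symm) h3.symm le_rfl i
    ((Nat.le_ceil c).trans (Nat.cast_le.2 hi))
  refine ⟨_, _, ha, pr_fl _ _, ?_⟩
  rw [pr_fl, pr_rot]
  refine Yt.ext' h1 h2 ?_
  simp only [tm_fl, tm_pr, div_one, h3]
  ring

section Inv

variable {E : Set (Yt L 1)} (h1 : ∀ (g : Γ) y, g • y ∈ E ↔ y ∈ E)
  (h2 : ∀ t y, fl L 1 t y ∈ E ↔ y ∈ E)

include h1 h2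

theorem not_both {K K' : Set (Yt L 1)} (hK : IsCompact K) (hK' : IsCompact K') (hE : K ⊆ E)
    (hE' : K' ⊆ Eᶜ) {u u' : ℕ → Yt L 1} {s : ℝ} (ha : Asym L u fun i => fl L 1 s (u' i))
    (hr : ∀ n : ℕ, ∃ i : ℕ, n ≤ i ∧ (∃ g : Γ, g • u i ∈ K ∪ K') ∧ ∃ g : Γ, g • u' i ∈ K ∪ K')
    {a b : Prop} (hu : ∀ i, u i ∈ E ↔ a) (hu' : ∀ i, u' i ∈ E ↔ b) : a ↔ b := by
  have key : ∀ {K K' : Set (Yt L 1)}, IsCompact K → IsCompact K' →
      (∀ p ∈ K, ∀ p' ∈ K', ¬ (p ∈ E ↔ p' ∈ E)) → ¬ ∀ n : ℕ, ∃ i : ℕ, n ≤ i ∧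
        (∃ g : Γ, g • u i ∈ K) ∧ ∃ g : Γ, g • u' i ∈ K' := by
    intro K K' hK hK' hne hr
    obtain ⟨δ, hδ, hd⟩ := sep L (pr_proper (τ := 1).isCompact_preimage hK)
      (pr_proper (τ := 1).isCompact_preimage (hK'.image (fl_cont' s))) (by
        rintro g x hx ⟨p', hp', he⟩
        refine hne _ hx _ hp' ?_
        rw [← h2 s p', he, pr_smul, h1])
    obtain ⟨n, hn⟩ := ha δ hδ
    obtain ⟨i, hi, ⟨g, hg⟩, g', hg'⟩ := hr n
    obtain ⟨z, z', hz, e, e'⟩ := hn i hi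
    refine not_lt.2 (hd g g' z z' ?_ ⟨_, hg', ?_⟩) hz
    · rwa [mem_preimage, pr_smul, e]
    · rw [pr_smul, e', fl_smul]
  by_contra hab
  by_cases ha' : a
  · have hb : ¬ b := fun hb => hab ⟨fun _ => hb, fun _ => ha'⟩
    refine key hK hK' (fun p hp p' hp' h => hE' hp' (h.1 (hE hp))) fun n => ?_
    obtain ⟨i, hi, ⟨g, hg⟩, g', hg'⟩ := hr n
    exact ⟨i, hi, ⟨g, hg.resolve_right fun h => hE' h ((h1 _ _).2 ((hu i).2 ha'))⟩,
      g', hg'.resolve_left fun h => hb ((hu' i).1 ((h1 _ _).1 (hE h)))⟩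
  · have hb : b := by_contra fun hb => hab ⟨fun h => absurd h ha', fun h => absurd h hb⟩
    refine key hK' hK (fun p hp p' hp' h => hE' hp (h.2 (hE hp'))) fun n => ?_
    obtain ⟨i, hi, ⟨g, hg⟩, g', hg'⟩ := hr n
    exact ⟨i, hi, ⟨g, hg.resolve_left fun h => ha' ((hu i).1 ((h1 _ _).1 (hE h)))⟩,
      g', hg'.resolve_right fun h => hE' h ((h1 _ _).2 ((hu' i).2 hb))⟩

variable [MeasurableSpace B] [BorelSpace B]

/-- typical points on one leaf are of the same kind -/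
theorem exists_good (A : Area L) (hE : NullMeasurableSet E (mY A 1)) :
    ∃ G : Set (Yt L 1), (∀ᵐ p ∂(mY A 1), p ∈ G) ∧ ∀ p ∈ G, ∀ p' ∈ G,
      p.xi = p'.xi ∨ p.eta = p'.eta → (p ∈ E ↔ p' ∈ E) := by
  have := countable_Γ L
  obtain ⟨Z, hZ1, hZ2, hZ3⟩ := exists_Z L 1
  have hS := gsys A hZ1 hZ2 hZ3
  obtain ⟨K, hK1, hK2, hK3⟩ := exh (hE.inter hZ1.nullMeasurableSet)
    ((measure_mono inter_subset_right).trans_lt hS.fin.lt_top).ne
  obtain ⟨K', hK1', hK2', hK3'⟩ := exh (hE.compl.inter hZ1.nullMeasurableSet)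
    ((measure_mono inter_subset_right).trans_lt hS.fin.lt_top).ne
  obtain ⟨G, hG, hG'⟩ := typ hS (Λ := fun k => {p | ∃ g : Γ, g • p ∈ K k ∪ K' k})
    (fun k => by
      have : {p : Yt L 1 | ∃ g : Γ, g • p ∈ K k ∪ K' k} =
          ⋃ g : Γ, (fun p => g • p) ⁻¹' (K k ∪ K' k) := by
        ext p
        simp only [mem_ofPred_eq, mem_iUnion, mem_preimage]
      rw [this]
      exact MeasurableSet.iUnion fun g => measurable_const_smul g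
        ((hK1 k).1.union (hK1' k).1).measurableSet)
    (fun a b hab p hp => hp.imp fun g hg => hg.imp (fun h => hK2 hab h) fun h => hK2' hab h)
    (fun k g p => ⟨fun ⟨g', hg'⟩ => ⟨g' * g, by rwa [mul_smul]⟩,
      fun ⟨g', hg'⟩ => ⟨g' * g⁻¹, by rwa [mul_smul, inv_smul_smul]⟩⟩)
    (by
      filter_upwards [MET.ae_smul_all (Γ := Γ) hK3, MET.ae_smul_all (Γ := Γ) hK3'] with p a b
      obtain ⟨g, hg, -⟩ := hZ3 p
      by_cases hp : g • p ∈ E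
      · exact (a g ⟨hp, hg⟩).imp fun k hk => ⟨g, Or.inl hk⟩
      · exact (b g ⟨hp, hg⟩).imp fun k hk => ⟨g, Or.inr hk⟩)
  refine ⟨G, hG, fun p hp p' hp' h => ?_⟩
  obtain ⟨⟨k, hk⟩, k', hk'⟩ := hG' p hp p' hp'
  rcases h with h | h
  · obtain ⟨s, hs⟩ := asym_bwd h
    exact not_both h1 h2 (hK1 k').1 (hK1' k').1 ((hK1 k').2.trans inter_subset_left)
      ((hK1' k').2.trans inter_subset_left) hs hk' (fun i => h2 _ _) fun i => h2 _ _
  · obtain ⟨s, hs⟩ := asym_fwd h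
    exact not_both h1 h2 (hK1 k).1 (hK1' k).1 ((hK1 k).2.trans inter_subset_left)
      ((hK1' k).2.trans inter_subset_left) hs hk (fun i => h2 _ _) fun i => h2 _ _

end Inv

end Hopf

variable [Dim]

variable {Γ X B : Type} [Group Γ] [MetricSpace X] [ProperSpace X] [MulAction Γ X]
  [IsIsometricSMul Γ X] [TopologicalSpace B] [CompactSpace B] [T2Space B] [MulAction Γ B]
  [ContinuousConstSMul Γ B] {L : Leaf Γ X B} [MeasurableSpace B] [BorelSpace B]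

/-- **ergodicity** -/
theorem erg_Y (A : Area L) (E : Set (Yt L 1)) (hE : NullMeasurableSet E (mY A 1))
    (h1 : ∀ (g : Γ) y, g • y ∈ E ↔ y ∈ E) (h2 : ∀ t y, fl L 1 t y ∈ E ↔ y ∈ E) :
    mY A 1 E = 0 ∨ mY A 1 Eᶜ = 0 := by
  obtain ⟨G, hG, hG'⟩ := Hopf.exists_good h1 h2 A hE
  set P : B × B → Prop := fun q => ∃ p ∈ G, (p.xi, p.eta) = q with hP
  set F : B × B → Prop := fun q => ∃ p ∈ E, (p.xi, p.eta) = q with hF
  have hFE : ∀ p : Yt L 1, F (p.xi, p.eta) ↔ p ∈ E := fun p => by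
    refine ⟨fun ⟨p', hp', e⟩ => ?_, fun hp => ⟨p, hp, rfl⟩⟩
    have : p = fl L 1 (p.tm - p'.tm) p' := Yt.ext' (congrArg Prod.fst e).symm
      (congrArg Prod.snd e).symm (by rw [tm_fl]; ring)
    rw [this, h2]
    exact hp'
  have hPF : ∀ q q', P q → P q' → q.1 = q'.1 ∨ q.2 = q'.2 → (F q ↔ F q') := by
    rintro _ _ ⟨p, hp, rfl⟩ ⟨p', hp', rfl⟩ h
    rw [hFE, hFE]
    exact hG' p hp p' hp' h
  have hPa : ∀ᵐ q ∂(A.ν.prod A.ν), P q :=
    (ae_pair (τ := 1) A).1 (hG.mono fun p hp => ⟨p, hp, rfl⟩)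
  have hT : ∀ᵐ q ∂(A.ν.prod A.ν), P q ∧ ∀ᵐ η ∂A.ν, P (q.1, η) :=
    hPa.and (Measure.quasiMeasurePreserving_fst.ae (Measure.ae_ae_of_ae_prod hPa))
  have hν : (ae A.ν).NeBot := ae_neBot.2 A.ν_ne
  have hc : ∀ q q', (P q ∧ ∀ᵐ η ∂A.ν, P (q.1, η)) → (P q' ∧ ∀ᵐ η ∂A.ν, P (q'.1, η)) →
      (F q ↔ F q') := fun q q' h h' => by
    obtain ⟨η, a, b⟩ := (h.2.and h'.2).exists
    exact (hPF _ _ h.1 a (Or.inl rfl)).trans
      ((hPF _ _ a b (Or.inr rfl)).trans (hPF _ _ b h'.1 (Or.inl rfl)))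
  by_cases hex : ∃ q, (P q ∧ ∀ᵐ η ∂A.ν, P (q.1, η)) ∧ F q
  · obtain ⟨q, hq, hq'⟩ := hex
    have := (ae_pair (τ := 1) A (P := F)).2 (hT.mono fun q' h => (hc q q' hq h).1 hq')
    exact Or.inr (mem_ae_iff.1 (this.mono fun p hp => (hFE p).1 hp))
  · have := (ae_pair (τ := 1) A (P := fun q => ¬ F q)).2 (hT.mono fun q h hq => hex ⟨q, h, hq⟩)
    exact Or.inl (measure_eq_zero_iff_ae_notMem.2 (this.mono fun p hp h => hp ((hFE p).2 h)))

end Vale.Agent.P207Z.CS
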