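import Vale.Agent.P207Z.CS.Rel
import Vale.Agent.P207Z.CS.Hopf

/-!
# P207, block CS: the structure `Prob`
-/

set_option linter.all false

open Set Filter Topology Metric MeasureTheory
open scoped ENNReal

noncomputable section

namespace Vale.Agent.P207Z.CS

open Vale.Agent.P207.N4 Vale.Agent.P207.N3

variable [Dim]

variable {Γ X B : Type} [Group Γ] [MetricSpace X] [ProperSpace X] [MulAction Γ X]
  [IsIsometricSMul Γ X] [TopologicalSpace B] [CompactSpace B] [T2Space B] [MulAction Γ B]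
  [ContinuousConstSMul Γ B] {L : Leaf Γ X B} {T : Tens L} {S : Bus L T} {r : ℝ}
  [MeasurableSpace B] [BorelSpace B]

theorem ae_trip (A : Area L) {τ : ℝ} {Q : Yt L τ → Prop} (h : ∀ᵐ y ∂(mY A τ), Q y) :
    ∃ N : Set ((B × B) × ℝ), MeasurableSet N ∧ (∀ᵐ p ∂(A.ν.prod A.ν), ∀ᵐ t : ℝ, (p, t) ∈ N) ∧
      ∀ y : Yt L τ, y.1 ∈ N → Q y := by
  obtain ⟨N, h1, h2, h3⟩ := exists_measurable_superset_of_null (ae_iff.1 h)
  rw [mY, val_emb.comap_apply] at h3
  refine ⟨((fun p : Yt L τ => (p.1 : (B × B) × ℝ)) '' N)ᶜ, (val_emb.measurableSet_image.2 h2).compl,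
    ?_, fun y hy => ?_⟩
  · rw [← ae_mu2]
    exact Measure.ae_ae_of_ae_prod (p := fun q => q ∈ ((fun p : Yt L τ => (p.1 : (B × B) × ℝ)) '' N)ᶜ)
      (compl_mem_ae_iff.2 h3)
  · by_contra hQ
    exact hy ⟨y, h1 hQ, rfl⟩

theorem ae_aff {P : ℝ → Prop} (h : ∀ᵐ t : ℝ, P t) (c : ℝ) : ∀ᵐ t : ℝ, P ((t + c) / 2) := by
  have h1 : ∀ᵐ t : ℝ, P (t / 2) := by
    have h2 := (Measure.quasiMeasurePreserving_smul (volume : Measure ℝ)
      (r := (2⁻¹ : ℝ)) (by norm_num)).ae h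
    refine h2.mono fun t ht => ?_
    rwa [smul_eq_mul, mul_comm, ← div_eq_mul_inv] at ht
  exact (measurePreserving_add_right volume c).quasiMeasurePreserving.ae h1

variable [Countable Γ] [MeasurableSpace X] [BorelSpace X] [SecondCountableTopology B]

theorem exists_prob (K : Str S r) {A : Area L} {Z : Sys Γ (Xd X) B E2 W} (hZ : Over K A Z) :
    Nonempty (Prob Z (Yt L 1)) := by
  haveI : Fact (0 < (1 : ℝ)) := ⟨one_pos⟩
  obtain ⟨F, f1, ⟨C, hC, f2⟩, f3⟩ := exists_Z L 1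
  obtain ⟨s, s1, s2, s3⟩ := exists_fr L 1
  have hG := gsys A f1 ⟨C, hC, f2⟩ f3
  have h0 : mY A 1 F ≠ 0 := hG.fund.measure_ne_zero (mY_ne A)
  have hc0 : (mY A 1 F)⁻¹ ≠ 0 := ENNReal.inv_ne_zero.2 hG.fin
  have hae : ae ((mY A 1 F)⁻¹ • mY A 1) = ae (mY A 1) :=
    le_antisymm (Measure.ae_smul_measure_le _) (Measure.absolutelyContinuous_smul hc0).ae_le
  have hpt : ∀ x, Z.pt x = (L.em x.1, L.ep x.1) := fun x => Prod.ext (hZ.em x) (hZ.ep x)
  refine ⟨{
    m := (mY A 1 F)⁻¹ • mY A 1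
    inv := inferInstance
    smul_meas := fun g => measurable_const_smul g
    Z := F
    Z_meas := f1
    fund := IsFundamentalDomain.mk' f1.nullMeasurableSet f3
    Z_strict := f3
    Z_one := by rw [Measure.smul_apply, smul_eq_mul, ENNReal.inv_mul_cancel h0 hG.fin]
    ψ := fl L 1
    ψ_zero := fl_zero
    ψ_add := fl_add
    ψ_meas := fl_cont.measurable
    ψ_pres := fun t => (fl_mp A t).smul_measure _
    ψ_smul := fl_smul
    erg := fun E hE h1 h2 => ?_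
    π := fun x => pr L 1 x.1
    π_meas := pr_cont.measurable.comp measurable_fst
    π_smul := fun g x => pr_smul g x.1
    π_φ := fun t x => by rw [hZ.φ, φd, pr_φ', div_one]
    π_eq := fun x x' => ?_
    fr := fun y => (s y, Two.o)
    fr_meas := s1.prodMk measurable_const
    fr_smul := fun g y => Prod.ext (s3 g y) rfl
    π_fr := s2
    fr_Z := ⟨(pr L 1 ⁻¹' C) ×ˢ univ, (pr_proper.isCompact_preimage hC).prod isCompact_univ,
      fun y hy => ⟨by rw [mem_preimage, s2]; exact f2 hy, mem_univ _⟩⟩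
    ae_fr := fun Q hQ => ?_
    ae_ψ := fun Q hQ => ?_
    ae_lv := fun Q hQ => ?_ }⟩
  · have h3 := erg_Y A E (hE.mono_ac (Measure.absolutelyContinuous_smul hc0)) h1 h2
    refine h3.imp (fun h => ?_) fun h => ?_ <;> rw [Measure.smul_apply, h, smul_zero]
  · rw [hpt, hpt, hZ.lv, hZ.lv]
    refine ⟨fun h => ⟨Prod.ext (congrArg Yt.xi h) (congrArg Yt.eta h), ?_⟩, fun h =>
      Yt.ext' (congrArg Prod.fst h.1) (congrArg Prod.snd h.1) (by rw [tm_pr, tm_pr, h.2])⟩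
    simpa using congrArg Yt.tm h
  · rw [Z.ae_iff, hZ.ν, ← ae_pair (τ := 1)] at hQ
    rw [hae]
    refine hQ.mono fun y hy => hy _ ?_
    rw [hpt]
    exact Prod.ext (congrArg Yt.xi (s2 y)) (congrArg Yt.eta (s2 y))
  · rw [hae] at hQ
    obtain ⟨N, -, n2, n3⟩ := ae_trip A hQ
    rw [Z.ae_iff, hZ.ν]
    refine n2.mono fun p hp x hx => ?_
    refine ((measurePreserving_add_left volume (L.lv x.1 / 1)).quasiMeasurePreserving.ae hp).mono
      fun t ht => n3 _ ?_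
    rw [← hx, hpt] at ht
    exact ht
  · rw [hae] at hQ
    obtain ⟨N, n1, n2, n3⟩ := ae_trip A hQ
    have h1 : ∀ᵐ p ∂(A.ν.prod A.ν), ∀ᵐ t : ℝ, (p, (t + Dm L p) / 2) ∈ N :=
      n2.mono fun p hp => ae_aff hp _
    have h2 : MeasurableSet {q : (B × B) × ℝ | (q.1, (q.2 + Dm L q.1) / 2) ∈ N} :=
      (measurable_fst.prodMk ((measurable_snd.add (Dm_meas.comp measurable_fst)).div_const 2)) n1
    refine ((Measure.ae_ae_comm (p := fun p t => (p, (t + Dm L p) / 2) ∈ N) h2).1 h1).mono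
      fun t ht => ?_
    rw [Z.ae_iff, hZ.ν]
    refine ht.mono fun p hp x hx hl => n3 _ ?_
    rw [← hx, hpt, Dm_eq (L.em_ne_ep x.1), H824.D_eq, ← hl, hZ.lv, hZ.lp] at hp
    have h3 : (L.lv x.1 - L.lp x.1 + (L.lv x.1 + L.lp x.1)) / 2 = L.lv x.1 / 1 := by ring
    rw [h3] at hp
    exact hp

end Vale.Agent.P207Z.CS
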