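import Vale.Agent.P207Z.CS.Symp
import Vale.Agent.P207Z.CS.Contr
import Vale.Agent.P207Z.CS.Prob

/-!
# P207, block CS: the structures `Sys` and `Flip`
-/

set_option linter.all false

open Set Filter Topology Metric MeasureTheory
open scoped ContDiff

noncomputable section

namespace Vale.Agent.P207Z.CS

open Vale.Agent.P207.N4 Vale.Agent.P207.N3
open Vale.Agent.P207.N4.H709 (NuPos)

variable [Dim]

variable {Γ X B : Type} [Group Γ] [MetricSpace X] [ProperSpace X] [MulAction Γ X]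
  [IsIsometricSMul Γ X] [TopologicalSpace B] [CompactSpace B] [T2Space B] [MulAction Γ B]
  [ContinuousConstSMul Γ B] {L : Leaf Γ X B} {T : Tens L} {S : Bus L T} {r : ℝ}

theorem fd_fd (x : Xd X) : fd L (fd L x) = x := Prod.ext (L.flip_flip x.1) x.2.op_op

theorem fd_φd (t : ℝ) (x : Xd X) : fd L (φd L t x) = φd L (-t) (fd L x) :=
  Prod.ext (L.flip_φ t x.1) rfl

theorem dist_xd (x y : X) (i : Two) : dist ((x, i) : Xd X) (y, i) = dist x y := by
  rw [Prod.dist_eq, dist_self, max_eq_left dist_nonneg]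

theorem hopf_d {K : Set (B × B)} (hK : IsCompact K) (h : ∀ p ∈ K, p.1 ≠ p.2) (c : ℝ) :
    IsCompact {x : Xd X | (L.em x.1, L.ep x.1) ∈ K ∧ |L.lv x.1 - L.lp x.1| ≤ c} := by
  obtain ⟨M, hM⟩ := hK.exists_bound_of_continuousOn ((H824.D_cont L).mono h)
  have c1 : Continuous fun x : Xd X => (L.em x.1, L.ep x.1) :=
    (L.em_cont.prodMk (H824.ep_cont L)).comp continuous_fst
  have c2 : Continuous fun x : Xd X => |L.lv x.1 - L.lp x.1| :=
    ((L.lv_cont.sub (H824.lp_cont L)).comp continuous_fst).abs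
  refine ((L.hopf_proper K hK h (c + M)).prod isCompact_univ).of_isClosed_subset
    ((hK.isClosed.preimage c1).inter (isClosed_le c2 continuous_const)) fun x hx =>
    ⟨⟨hx.1, ?_⟩, mem_univ _⟩
  have h1 := hM _ hx.1
  rw [H824.D_eq, Real.norm_eq_abs] at h1
  have h2 := abs_le.1 h1
  have h3 := abs_le.1 hx.2
  rw [abs_le]
  constructor <;> linarith [h2.1, h2.2, h3.1, h3.2]

theorem asymS_d {K : Set (B × Xd X)} (hK : IsCompact K) (h : ∀ p ∈ K, p.1 ≠ L.ep p.2.1) :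
    ∃ C, ∀ p ∈ K, ∃ y : Xd X, L.em y.1 = p.1 ∧ L.ep y.1 = L.ep p.2.1 ∧ L.lp y.1 = L.lp p.2.1 ∧
      ∀ t ≥ (0 : ℝ), dist (φd L t p.2) (φd L t y) ≤ C * Real.exp (-L.χ * t) := by
  obtain ⟨C, hC⟩ := L.hol_asym ((fun p : B × Xd X => (p.1, p.2.1)) '' K) (hK.image (by fun_prop))
    (by rintro _ ⟨p, hp, rfl⟩; exact h p hp)
  refine ⟨C, fun p hp => ⟨(L.hol p.1 p.2.1, p.2.2), L.hol_em _ _ (h p hp), L.hol_ep _ _ (h p hp),
    L.hol_lp _ _ (h p hp), fun t ht => ?_⟩⟩
  exact (dist_xd _ _ _).trans_le (hC _ ⟨p, hp, rfl⟩ t ht)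

theorem asymU_d (hfl : ∃ C, ∀ x y, dist (L.flip x) (L.flip y) ≤ C * dist x y)
    {K : Set (B × Xd X)} (hK : IsCompact K) (h : ∀ p ∈ K, p.1 ≠ L.em p.2.1) :
    ∃ C, ∀ p ∈ K, ∃ y : Xd X, L.ep y.1 = p.1 ∧ L.em y.1 = L.em p.2.1 ∧ L.lv y.1 = L.lv p.2.1 ∧
      ∀ t ≥ (0 : ℝ), dist (φd L (-t) p.2) (φd L (-t) y) ≤ C * Real.exp (-L.χ * t) := by
  obtain ⟨C₀, h₀⟩ := hfl
  have e1 : ∀ x, L.ep (L.flip x) = L.em x := fun x => by rw [L.ep_flip, L.flip_flip]
  have c1 : Continuous fun p : B × Xd X => (p.1, L.flip p.2.1) :=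
    continuous_fst.prodMk (L.flip_cont.comp continuous_snd.fst)
  have h' : ∀ p ∈ K, p.1 ≠ L.ep (L.flip p.2.1) := fun p hp => by rw [e1]; exact h p hp
  obtain ⟨C, hC⟩ := L.hol_asym _ (hK.image c1) (by rintro _ ⟨p, hp, rfl⟩; exact h' p hp)
  refine ⟨|C₀| * C, fun p hp => ⟨(L.flip (L.hol p.1 (L.flip p.2.1)), p.2.2), ?_, ?_, ?_,
    fun t ht => (dist_xd _ _ _).trans_le ?_⟩⟩
  · rw [e1, L.hol_em _ _ (h' p hp)]
  · rw [← L.ep_flip, L.hol_ep _ _ (h' p hp), e1]
  · rw [L.hol_lp _ _ (h' p hp), L.flip_flip]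
  · have h1 := h₀ (L.φ t (L.flip p.2.1)) (L.φ t (L.hol p.1 (L.flip p.2.1)))
    rw [L.flip_φ, L.flip_φ, L.flip_flip] at h1
    refine h1.trans ((mul_le_mul_of_nonneg_right (le_abs_self _) dist_nonneg).trans ?_)
    rw [mul_assoc]
    exact mul_le_mul_of_nonneg_left (hC _ ⟨p, hp, rfl⟩ t ht) (abs_nonneg _)

variable (K : Str S r)

theorem tau_flip (hr : Rad S r) {x y : Xd X} {q : W}
    (hq : ((q.2, q.1) : W) ∈ tdom (ch K) (fd L x) (fd L y)) : q ∈ tdom (ch K) x y ∧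
    ttau (ch K) x y q = (ttau (ch K) (fd L x) (fd L y) (q.2, q.1)).swap := by
  obtain ⟨h1, h2⟩ := tau_spec K hq
  generalize ttau (ch K) (fd L x) (fd L y) (q.2, q.1) = u at h1 h2 ⊢
  have h3 : q ∈ ball (0 : W) 1 := swap_mem (z := (q.2, q.1)) hq.1
  have h4 := ch_flip K hr (fd L y) h1
  rw [fd_fd, h2, ch_flip K hr x h3, Prod.swap_swap] at h4
  exact ⟨⟨h3, (u.2, u.1), swap_mem h1, h4⟩, tau_eq K hr (q' := (u.2, u.1)) (swap_mem h1) h4⟩

variable [MeasurableSpace B] [BorelSpace B]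

theorem nu_open (A : Area L) {O : Set B} (hO : IsOpen O) (hne : O.Nonempty) : A.ν O ≠ 0 := by
  intro h
  have := countable_Γ L
  refine A.ν_ne (Measure.measure_univ_eq_zero.1 (measure_mono_null
    (t := ⋃ g : Γ, (fun η : B => g • η) ⁻¹' O) (fun η _ => ?_)
    (measure_iUnion_null fun g => (qmp_nu A g).preimage_null h)))
  obtain ⟨_, ⟨g, rfl⟩, hg⟩ := (L.dense_orbit η).exists_mem_open hO hne
  exact mem_iUnion.2 ⟨g, hg⟩

variable [Countable Γ] [MeasurableSpace X] [BorelSpace X] [SecondCountableTopology B]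

theorem exists_over (hr : Rad S r) (hn : NuPos S) (hC : CrossJC S) (A : Area L)
    (hfl : ∃ C, ∀ x y, dist (L.flip x) (L.flip y) ≤ C * dist x y) :
    ∃ Z : Sys Γ (Xd X) B E2 W, Over K A Z := by
  obtain ⟨ρ, hρ, d1, d2⟩ := exists_contrU K hr hn hC
  have d3 : ∀ x, ∀ t ≥ (0 : ℝ), ∀ w ∈ ball (0 : E2) ρ, ((w, 0) : W) ∈ tdom (ch K) x (φd L t x) ∧
      ttau (ch K) x (φd L t x) (w, 0) =
        (ttau (ch K) (fd L x) (φd L (-t) (fd L x)) (0, w)).swap := fun x t ht w hw => by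
    rw [← fd_φd]
    exact tau_flip K hr (q := (w, 0)) (by rw [fd_φd]; exact d1 _ t ht w hw)
  refine ⟨{
    nonempty := L.nonempty.map fun x => (x, Two.o)
    φ := φd L
    φ_zero := fun x => Prod.ext (L.φ_zero x.1) rfl
    φ_add := fun s t x => Prod.ext (L.φ_add s t x.1) rfl
    φ_cont := (L.φ_cont.comp (continuous_fst.prodMk continuous_snd.fst)).prodMk continuous_snd.snd
    φ_smul := fun g t x => Prod.ext (L.φ_smul g t x.1) rfl
    em := fun x => L.em x.1
    ep := fun x => L.ep x.1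
    em_cont := L.em_cont.comp continuous_fst
    ep_cont := (H824.ep_cont L).comp continuous_fst
    em_smul := fun g x => L.em_smul g x.1
    ep_smul := fun g x => H824.ep_smul L g x.1
    em_φ := fun t x => L.em_φ t x.1
    ep_φ := fun t x => H824.ep_φ L t x.1
    em_ne_ep := fun x => L.em_ne_ep x.1
    lv := fun x => L.lv x.1
    lp := fun x => L.lp x.1
    lv_cont := L.lv_cont.comp continuous_fst
    lp_cont := (H824.lp_cont L).comp continuous_fst
    lv_φ := fun t x => L.lv_φ t x.1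
    lp_φ := fun t x => H824.lp_φ L t x.1
    lv_smul := fun g x y h => L.lv_smul g x.1 y.1 h
    lp_smul := fun g x y h => ?_
    lv_add := fun x y h1 h2 => lv_add_lp h1 h2
    exists_frame := fun ξ η h => (L.exists_frame ξ η h 0).elim fun x hx =>
      ⟨(x, Two.o), hx.1, hx.2.1⟩
    hopf_proper := fun C h1 h2 c => hopf_d h1 h2 c
    cocompact := L.cocompact.elim fun C h => ⟨C ×ˢ univ, h.1.prod isCompact_univ,
      fun x => (h.2 x.1).imp fun g hg => ⟨hg, mem_univ _⟩⟩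
    proper := fun C h => (L.proper _ (h.image continuous_fst)).subset
      fun g ⟨x, h1, h2⟩ => ⟨x.1, ⟨x, h1, rfl⟩, g • x, h2, rfl⟩
    iS := ContinuousLinearMap.inl ℝ E2 E2
    iU := ContinuousLinearMap.inr ℝ E2 E2
    pS := ContinuousLinearMap.fst ℝ E2 E2
    pU := ContinuousLinearMap.snd ℝ E2 E2
    pS_iS := fun _ => rfl
    pU_iU := fun _ => rfl
    pS_iU := fun _ => rfl
    pU_iS := fun _ => rfl
    iS_add := fun z => Prod.ext (add_zero _) (zero_add _)
    norm_eq := fun z => Prod.norm_def z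
    c := ch K
    c_zero := ch_zero K
    c_inj := ch_inj K hr
    c_ne := fun x z hz => (ch_rel K hr x hz).ne
    c_cont := ch_cont K hr
    c_open := fun O h1 h2 => ch_open K hr h1 h2
    c_smul := fun g x z hz => ch_smul K hr g x hz
    c_U := fun x z hz => ch_U K hr hn x hz
    c_S := fun x z hz => ch_S K hr hn x hz
    τ_jc := tau_jc K hr hC
    τ_symp := fun x y q hq v w => tau_symp K hr hC hq v w
    lam := L.χ
    lam_pos := L.χ_pos
    ρ := ρ
    ρ_pos := hρ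
    domS := fun x t ht w hw => (d3 x t ht w hw).1
    domU := d1
    contrS := fun k hk => (d2 k hk).imp fun C hC x t ht w hw => ?_
    contrU := d2
    asymS := fun C h1 h2 => asymS_d h1 h2
    asymU := fun C h1 h2 => asymU_d hfl h1 h2
    ν := A.ν
    ν_finite := A.ν_finite
    ν_pos := fun O h1 h2 => nu_open A h1 h2
    ν_point := A.ν_point
    ν_smul := fun g E h => (qmp_nu A g).preimage_null h },
    rfl, fun _ => rfl, fun _ => rfl, fun _ => rfl, fun _ => rfl, rfl, rfl, rfl, rfl, rfl, rfl⟩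
  · have h1 := L.lv_smul g (L.flip x.1) (L.flip y.1) (by rw [← L.ep_flip, ← L.ep_flip]; exact h)
    rw [← L.flip_smul, ← L.flip_smul] at h1
    exact h1
  · have h1 : (fun w => ttau (ch K) x (φd L t x) (ContinuousLinearMap.inl ℝ E2 E2 w)) =ᶠ[𝓝 w]
        LinearIsometryEquiv.prodComm ℝ E2 E2 ∘
          fun w => ttau (ch K) (fd L x) (φd L (-t) (fd L x)) (0, w) := by
      filter_upwards [isOpen_ball.mem_nhds hw] with u hu using (d3 x t ht u hu).2
    rw [(h1.iteratedFDeriv ℝ k).self_of_nhds, LinearIsometryEquiv.norm_iteratedFDeriv_comp_left]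
    exact hC _ t ht w hw

theorem exists_flip (hr : Rad S r) {A : Area L} {Z : Sys Γ (Xd X) B E2 W} (hZ : Over K A Z) :
    Nonempty (Flip Z) :=
  ⟨{ f := fd L
     f_f := fd_fd
     f_cont := (L.flip_cont.comp continuous_fst).prodMk
       ((continuous_of_discreteTopology (f := Two.op)).comp continuous_snd)
     f_smul := fun g x => Prod.ext (L.flip_smul g x.1) rfl
     f_φ := fun t x => by rw [hZ.φ, fd_φd]
     em_f := fun x => by rw [hZ.em, hZ.ep, L.ep_flip]; rfl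
     lv_f := fun x => by rw [hZ.lv, hZ.lp]; rfl
     c_f := fun x z hz => by
       rw [hZ.c, hZ.iS, hZ.iU, hZ.pS, hZ.pU, ← ch_flip K hr x hz]
       congr 1
       exact Prod.ext (add_zero _) (zero_add _) }⟩

end Vale.Agent.P207Z.CS
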