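import Vale.Agent.P207Z.CS.Defs

/-!
# P207, block CS: the relation `Rel`
-/

set_option linter.all false

open Set Filter Topology Metric MeasureTheory
open scoped ContDiff

noncomputable section

namespace Vale.Agent.P207Z.CS

open Vale.Agent.P207.N4 Vale.Agent.P207.N3

variable [Dim]

variable {Γ X B : Type} [Group Γ] [MetricSpace X] [ProperSpace X] [MulAction Γ X]
  [IsIsometricSMul Γ X] [TopologicalSpace B] [CompactSpace B] [T2Space B] [MulAction Γ B]
  [ContinuousConstSMul Γ B] {L : Leaf Γ X B} {T : Tens L} {S : Bus L T}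

theorem Rel.unique {x : X} {z : W} {p p' : B × B} (h : Rel S x z p) (h' : Rel S x z p') :
    p = p' := by
  have h1 : p.1 = p'.1 := S.cov_inj x _ _ _ h.mem h.nu.le h'.nu.le (h.grad.trans h'.grad.symm)
  exact Prod.ext h1 (by rw [← h.en, ← h'.en, h1])

theorem Rel.dar_eq {x : X} {z : W} {p : B × B} (h : Rel S x z p) : dar S x z = p := by
  have h1 : ∃ p, Rel S x z p := ⟨p, h⟩
  rw [dar, dif_pos h1]
  exact h1.choose_spec.unique h

theorem dar_rel (x : X) {z : W} (h1 : z.1 ∈ ball (0 : E2) 3) (h2 : ‖z.2‖ < S.δ) :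
    Rel S x z (dar S x z) := by
  obtain ⟨ξ, h3, h4⟩ := S.cov_surj x z.1 h1 z.2 h2
  have h5 : Rel S x z (ξ, S.en x ξ z.1) := ⟨h1, h3, h4, rfl⟩
  rwa [h5.dar_eq]

theorem grad_smul (g : Γ) (x : X) (ξ : B) {q : E2} (hq : q ∈ ball (0 : E2) 3) :
    gradient (S.be (g • x) (g • ξ)) q = gradient (S.be x ξ) q := by
  refine H709.gradient_congr ?_
  filter_upwards [isOpen_ball.mem_nhds hq] with t ht using S.be_smul g x ξ t ht

theorem grad_flip (x : X) (ξ : B) {q : E2} (hq : q ∈ ball (0 : E2) 3) :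
    gradient (S.be (L.flip x) ξ) q = gradient (S.be x ξ) q := by
  refine H709.gradient_congr ?_
  filter_upwards [isOpen_ball.mem_nhds hq] with t ht using S.be_flip x ξ t ht

theorem Rel.smul {x : X} {z : W} {p : B × B} (h : Rel S x z p) (g : Γ) :
    Rel S (g • x) z (g • p) where
  mem := h.mem
  nu := by
    rw [Prod.smul_fst, S.nu_smul g x _ _ h.mem]
    exact h.nu
  grad := by rw [Prod.smul_fst, grad_smul g x _ h.mem, h.grad]
  en := by rw [Prod.smul_fst, S.en_smul g x _ _ h.mem, h.en, Prod.smul_snd]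

theorem Rel.nu2 {x : X} {z : W} {p : B × B} (h : Rel S x z p) : S.nu x p.2 z.1 < 0 := by
  rw [← h.en, S.nu_en x _ _ h.mem]
  exact neg_neg_of_pos h.nu

theorem Rel.ne {x : X} {z : W} {p : B × B} (h : Rel S x z p) : p.1 ≠ p.2 := fun hc =>
  lt_asymm h.nu (hc ▸ h.nu2)

theorem Rel.grad2 {x : X} {z : W} {p : B × B} (h : Rel S x z p) :
    gradient (S.be x p.2) z.1 = -z.2 := by
  rw [← h.en, H709.gradient_en S x _ h.mem, h.grad]

theorem Rel.en2 {x : X} {z : W} {p : B × B} (h : Rel S x z p) : S.en x p.2 z.1 = p.1 := by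
  rw [← h.en, S.en_en x _ _ h.mem]

theorem Rel.flip {x : X} {z : W} {p : B × B} (h : Rel S x z p) :
    Rel S (L.flip x) (z.1, -z.2) p.swap where
  mem := h.mem
  nu := by
    show 0 < S.nu (L.flip x) p.2 z.1
    rw [S.nu_flip x _ _ h.mem]
    exact neg_pos.2 h.nu2
  grad := (grad_flip x _ h.mem).trans h.grad2
  en := (S.en_flip x _ _ h.mem).trans h.en2

/-- a frame over the crossing point -/
theorem Rel.exists_fr {x : X} {z : W} {p : B × B} (h : Rel S x z p) :
    ∃ w, L.em w = p.1 ∧ L.ep w = p.2 ∧ L.lv w = tm S x p.1 z.1 ∧ L.lp w = tm S x p.2 z.1 := by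
  obtain ⟨w, h1, h2, h3⟩ := S.exists_fr x p.1 z.1 h.mem
  rw [h.en] at h2
  exact ⟨w, h1, h2, by rw [tm, ← h3, ← h1, S.b_em], by rw [tm, ← h3, ← h2, S.b_ep]⟩

theorem lv_add_lp {x y : X} (h1 : L.em x = L.em y) (h2 : L.ep x = L.ep y) :
    L.lv x + L.lp x = L.lv y + L.lp y := by
  have h3 : L.ep (L.φ (L.lv y - L.lv x) x) = L.ep x := by
    rw [L.ep_flip, L.flip_φ, L.em_φ, ← L.ep_flip]
  obtain ⟨a, ha⟩ := L.frame_unique (L.φ (L.lv y - L.lv x) x) y (by rw [L.em_φ, h1])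
    (h3.trans h2) (by rw [L.lv_φ]; ring)
  have h4 : L.lp y = L.lp x - (L.lv y - L.lv x) := by
    conv_lhs => rw [ha]
    unfold Leaf.lp
    rw [L.flip_rot, L.lv_rot, L.flip_φ, L.lv_φ]
    ring
  linarith

/-- the sum of the two levels is a function of the geodesic -/
theorem Rel.tm_add {x y : X} {z z' : W} {p : B × B} (h : Rel S x z p) (h' : Rel S y z' p) :
    tm S x p.1 z.1 + tm S x p.2 z.1 = tm S y p.1 z'.1 + tm S y p.2 z'.1 := by
  obtain ⟨w, a1, a2, a3, a4⟩ := h.exists_fr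
  obtain ⟨w', b1, b2, b3, b4⟩ := h'.exists_fr
  rw [← a3, ← a4, ← b3, ← b4]
  exact lv_add_lp (a1.trans b1.symm) (a2.trans b2.symm)

theorem rel_zero (x : X) : Rel S x 0 (L.em x, L.ep x) where
  mem := H709.zero_mem3
  nu := S.nu_em x
  grad := S.be_crit x
  en := (S.en_em x 0 H709.zero_mem3).trans (L.e_zero x)

end Vale.Agent.P207Z.CS
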