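import Vale.Agent.P207Z.CS.Dar
import Vale.Agent.P207Z.CS.Rel

/-!
# P207, block CS: the straight charts and their transition maps
-/

set_option linter.all false

open Set Filter Topology Metric MeasureTheory
open scoped ContDiff

noncomputable section

namespace Vale.Agent.P207Z.CS

open Vale.Agent.P207.N4 Vale.Agent.P207.N3
open Vale.Agent.P207.N4.H709 (NuPos)

variable [Dim]

variable {Γ X B : Type} [Group Γ] [MetricSpace X] [ProperSpace X] [MulAction Γ X]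
  [IsIsometricSMul Γ X] [TopologicalSpace B] [CompactSpace B] [T2Space B] [MulAction Γ B]
  [ContinuousConstSMul Γ B] {L : Leaf Γ X B} {T : Tens L} {S : Bus L T} {r : ℝ}

theorem Rad.mem (hr : Rad S r) {z : W} (hz : z ∈ ball (0 : W) r) :
    z.1 ∈ ball (0 : E2) 3 ∧ ‖z.2‖ < S.δ := by
  rw [mem_ball_zero_iff] at hz ⊢
  exact ⟨by linarith [norm_fst_le z, hr.le_one], by linarith [norm_snd_le z, hr.le_δ]⟩

theorem swap_mem {z : W} (hz : z ∈ ball (0 : W) 1) : ((z.2, z.1) : W) ∈ ball (0 : W) 1 := by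
  rw [mem_ball_zero_iff, Prod.norm_def] at hz ⊢
  rwa [max_comm]

variable (K : Str S r)

theorem ch_rel (hr : Rad S r) (x : Xd X) {z : W} (hz : z ∈ ball (0 : W) 1) :
    Rel S x.1 (K.κ x z) (ch K x z) :=
  dar_rel x.1 (hr.mem (K.κ_mem x z hz)).1 (hr.mem (K.κ_mem x z hz)).2

theorem ch_zero (x : Xd X) : ch K x 0 = (L.em x.1, L.ep x.1) := by
  rw [ch, K.κ_zero, (rel_zero x.1).dar_eq]

theorem κ_inj (x : Xd X) : InjOn (K.κ x) (ball 0 1) := fun z hz z' hz' h => by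
  rw [← K.ι_κ x z hz, h, K.ι_κ x z' hz']

theorem ch_inj (hr : Rad S r) (x : Xd X) : InjOn (ch K x) (ball 0 1) := fun z hz z' hz' h =>
  κ_inj K x hz hz' (hr.inj x.1 _ _ (K.κ_mem x z hz) _ (K.κ_mem x z' hz') (ch_rel K hr x hz)
    (h ▸ ch_rel K hr x hz'))

theorem ch_cont (hr : Rad S r) :
    ContinuousOn (fun p : Xd X × W => ch K p.1 p.2) (univ ×ˢ ball 0 1) :=
  dar_cont.comp (f := fun p : Xd X × W => ((p.1.1, K.κ p.1 p.2) : X × W))
    ((continuous_fst.fst.continuousOn).prodMk K.κ_jc.continuousOn)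
    fun p hp => hr.mem (K.κ_mem p.1 p.2 hp.2)

theorem κ_open {O : Set W} (hO : IsOpen O) (h1 : O ⊆ ball 0 1) :
    IsOpen {a : Xd X × W | a.2 ∈ K.κ a.1 '' O} := by
  have h2 := K.ι_jc.continuousOn.isOpen_inter_preimage K.ι_jc.isOpen hO
  convert h2 using 1
  ext a
  constructor
  · rintro ⟨z, hz, he⟩
    refine ⟨⟨z, h1 hz, he⟩, ?_⟩
    show K.ι a.1 a.2 ∈ O
    rwa [← he, K.ι_κ _ _ (h1 hz)]
  · rintro ⟨⟨z, hz, he⟩, h3⟩
    refine ⟨z, ?_, he⟩
    have h4 : K.ι a.1 a.2 ∈ O := h3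
    rwa [← he, K.ι_κ _ _ hz] at h4

theorem ch_open (hr : Rad S r) {O : Set W} (hO : IsOpen O) (h1 : O ⊆ ball 0 1) :
    IsOpen {p : Xd X × (B × B) | p.2 ∈ ch K p.1 '' O} := by
  have h2 := rel_open (S := S) (π := fun x : Xd X => x.1) continuous_fst (κ_open K hO h1)
  convert h2 using 1
  ext a
  constructor
  · rintro ⟨z, hz, he⟩
    exact ⟨K.κ a.1 z, ⟨z, hz, rfl⟩, he ▸ ch_rel K hr a.1 (h1 hz)⟩
  · rintro ⟨w, ⟨z, hz, he⟩, h3⟩
    have h4 : K.κ a.1 z = w := he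
    exact ⟨z, hz, (h4 ▸ h3 : Rel S a.1.1 (K.κ a.1 z) a.2).dar_eq⟩

theorem ch_smul (hr : Rad S r) (g : Γ) (x : Xd X) {z : W} (hz : z ∈ ball (0 : W) 1) :
    ch K (g • x) z = g • ch K x z := by
  rw [ch, K.κ_smul g x z hz]
  exact ((ch_rel K hr x hz).smul g).dar_eq

theorem ch_U (hr : Rad S r) (hn : NuPos S) (x : Xd X) {z : W} (hz : z ∈ ball (0 : W) 1) :
    (ch K x z).1 = L.em x.1 ↔ z.1 = 0 := by
  have h := ch_rel K hr x hz
  rw [← K.axU x z hz]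
  refine ⟨fun h1 => by rw [← h1, h.grad], fun h1 => ?_⟩
  exact S.cov_inj x.1 _ _ _ h.mem h.nu.le (hn x.1 _ h.mem).le (h.grad.trans h1)

theorem ch_flip (hr : Rad S r) (x : Xd X) {z : W} (hz : z ∈ ball (0 : W) 1) :
    ch K (fd L x) (z.2, z.1) = (ch K x z).swap := by
  rw [ch, K.flip x z hz]
  exact (ch_rel K hr x hz).flip.dar_eq

theorem ch_S (hr : Rad S r) (hn : NuPos S) (x : Xd X) {z : W} (hz : z ∈ ball (0 : W) 1) :
    (ch K x z).2 = L.ep x.1 ↔ z.2 = 0 := by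
  have h := ch_U K hr hn (fd L x) (swap_mem hz)
  rw [ch_flip K hr x hz] at h
  rw [L.ep_flip]
  exact h

theorem tau_spec {x y : Xd X} {q : W} (hq : q ∈ tdom (ch K) x y) :
    ttau (ch K) x y q ∈ ball (0 : W) 1 ∧ ch K y (ttau (ch K) x y q) = ch K x q :=
  ⟨Function.invFunOn_mem hq.2, Function.invFunOn_eq hq.2⟩

theorem tau_eq (hr : Rad S r) {x y : Xd X} {q q' : W} (hq' : q' ∈ ball (0 : W) 1)
    (h : ch K y q' = ch K x q) : ttau (ch K) x y q = q' := by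
  rw [ttau, ← h]
  exact (ch_inj K hr y).leftInvOn_invFunOn hq'

theorem chD_open (hr : Rad S r) : IsOpen (chD K) := by
  have h1 : ContinuousOn (fun p : (Xd X × Xd X) × W => ((p.1.2, ch K p.1.1 p.2) : Xd X × (B × B)))
      (univ ×ˢ ball 0 1) :=
    continuous_fst.snd.continuousOn.prodMk ((ch_cont K hr).comp
      (f := fun p : (Xd X × Xd X) × W => ((p.1.1, p.2) : Xd X × W)) (by fun_prop)
      fun p hp => ⟨mem_univ _, hp.2⟩)
  have h2 := h1.isOpen_inter_preimage (isOpen_univ.prod isOpen_ball)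
    (ch_open K hr isOpen_ball subset_rfl)
  convert h2 using 1
  ext p
  exact ⟨fun h => ⟨⟨mem_univ _, h.1⟩, h.2⟩, fun h => ⟨h.1.2, h.2⟩⟩

/-- the local form of the transition maps -/
theorem tau_local (hr : Rad S r) (hC : CrossJC S) {p₀ : (Xd X × Xd X) × W} (h₀ : p₀ ∈ chD K) :
    ∃ U, p₀ ∈ U ∧ JC (fun (p : Xd X × Xd X) q => ttau (ch K) p.1 p.2 q) U ∧
      JC (fun (p : Xd X × Xd X) q => shift K p.1 p.2 q) U := by
  obtain ⟨⟨x₀, y₀⟩, q₀⟩ := p₀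
  obtain ⟨a1, a2⟩ := tau_spec K h₀
  obtain ⟨U, th, sh, h1, h2, h3, h4, h5⟩ := hC x₀.1 y₀.1 _ _ _ (ch_rel K hr x₀ h₀.1)
    (a2 ▸ ch_rel K hr y₀ a1)
  have hπ : Continuous fun p : Xd X × Xd X => ((p.1.1, p.2.1) : X × X) := by fun_prop
  have k1 : JC (fun (p : Xd X × Xd X) q => K.κ p.1 q) _ := K.κ_jc.pullback continuous_fst
  have k2 := (h1.pullback hπ).comp k1
  have k3 := (h2.pullback hπ).comp k1
  have k4 := (K.ι_jc.pullback (c := fun p : Xd X × Xd X => p.2) continuous_snd).comp k2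
  have key : ∀ (x y : Xd X) (q : W), q ∈ ball (0 : W) 1 → ((x.1, y.1), K.κ x q) ∈ U →
      th (x.1, y.1) (K.κ x q) ∈ K.κ y '' ball 0 1 →
      ttau (ch K) x y q = K.ι y (th (x.1, y.1) (K.κ x q)) ∧
      shift K x y q = sh (x.1, y.1) (K.κ x q) := by
    rintro x y q hq hU ⟨z, hz, he⟩
    obtain ⟨p, b1, b2, b3⟩ := h5 _ hU
    have e1 : ch K x q = p := b1.dar_eq
    have e2 : ch K y z = p := by
      rw [ch, he]
      exact b2.dar_eq
    have e3 : ttau (ch K) x y q = z := tau_eq K hr hz (e2.trans e1.symm)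
    refine ⟨by rw [e3, ← he, K.ι_κ y z hz], ?_⟩
    rw [shift, e3, e1, he]
    exact b3.symm
  refine ⟨_, ?_, k4.congr fun p hp => (key _ _ _ hp.1.1.2 hp.1.2 hp.2).1,
    (k3.mono k4.isOpen fun p hp => hp.1).congr fun p hp => (key _ _ _ hp.1.1.2 hp.1.2 hp.2).2⟩
  exact ⟨⟨⟨mem_univ _, h₀.1⟩, h3⟩, _, a1, h4.symm⟩

theorem tau_jc (hr : Rad S r) (hC : CrossJC S) :
    JC (fun (p : Xd X × Xd X) q => ttau (ch K) p.1 p.2 q) (chD K) :=
  JC.of_local (chD_open K hr) fun _ hp =>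
    (tau_local K hr hC hp).imp fun _ h => ⟨h.1, h.2.1⟩

theorem shift_jc (hr : Rad S r) (hC : CrossJC S) :
    JC (fun (p : Xd X × Xd X) q => shift K p.1 p.2 q) (chD K) :=
  JC.of_local (chD_open K hr) fun _ hp =>
    (tau_local K hr hC hp).imp fun _ h => ⟨h.1, h.2.2⟩

end Vale.Agent.P207Z.CS
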