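import Vale.Agent.P207.N4.H709.DarC
import Vale.Agent.P207.N4.H229.Dens
import Vale.Agent.P207Z.Sys

/-!
# P207, block CS: Darboux coordinates of the space of geodesics, and the straight charts

`Rel S x (q, π) (ξ, η)` : the geodesic `(ξ, η)` crosses the disc of `x` at `q` (upwards), with the
covector `π`. `Str` : the straightening maps, indexed by the doubled frames `Xd X = X × Two`.
`ch K x = dar x.1 ∘ κ x` are the charts of `Sys`.
-/

set_option linter.all false

open Set Filter Topology Metric MeasureTheory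
open scoped ContDiff

noncomputable section

namespace Vale.Agent.P207Z.CS

open Vale.Agent.P207.N4 Vale.Agent.P207.N3

/-! ### the doubled frames -/

/-- two points -/
def Two : Type := Bool

instance : Finite Two := inferInstanceAs (Finite Bool)

/-- the first point -/
def Two.o : Two := false

/-- the second point -/
def Two.i : Two := true

/-- the other point -/
def Two.op (a : Two) : Two := not a

theorem Two.cases (a : Two) : a = Two.o ∨ a = Two.i := by
  cases a
  · exact Or.inl rfl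
  · exact Or.inr rfl

theorem Two.op_op (a : Two) : a.op.op = a := Bool.not_not a

theorem Two.op_o : Two.o.op = Two.i := rfl

theorem Two.op_i : Two.i.op = Two.o := rfl

theorem Two.o_ne_i : Two.o ≠ Two.i := Bool.false_ne_true

instance : MetricSpace Two :=
  MetricSpace.induced (fun a : Two => cond a (1 : ℝ) 0) (by
    intro a b h
    cases a <;> cases b <;> first | rfl | simp at h) inferInstance

instance : DiscreteTopology Two := Finite.instDiscreteTopology

instance : CompactSpace Two := Finite.compactSpace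

instance : MeasurableSpace Two := borel Two

instance : BorelSpace Two := ⟨rfl⟩

instance (Γ : Type) [Group Γ] : MulAction Γ Two where
  smul _ a := a
  one_smul _ := rfl
  mul_smul _ _ _ := rfl

instance (Γ : Type) [Group Γ] : IsIsometricSMul Γ Two := ⟨fun _ => isometry_id⟩

theorem Two.smul_eq {Γ : Type} [Group Γ] (g : Γ) (a : Two) : g • a = a := rfl

/-- the doubled frames -/
abbrev Xd (X : Type) : Type := X × Two

variable [Dim]

variable {Γ X B : Type} [Group Γ] [MetricSpace X] [ProperSpace X] [MulAction Γ X]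
  [IsIsometricSMul Γ X] [TopologicalSpace B] [CompactSpace B] [T2Space B] [MulAction Γ B]
  [ContinuousConstSMul Γ B] {L : Leaf Γ X B} {T : Tens L}

/-- the model space -/
abbrev W : Type := E2 × E2

/-- the symplectic form -/
def om (v w : W) : ℝ := inner ℝ v.1 w.2 - inner ℝ v.2 w.1

/-- the flow on the doubled frames -/
def φd (L : Leaf Γ X B) (t : ℝ) (x : Xd X) : Xd X := (L.φ t x.1, x.2)

/-- the flip on the doubled frames -/
def fd (L : Leaf Γ X B) (x : Xd X) : Xd X := (L.flip x.1, x.2.op)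

variable (S : Bus L T)

/-! ### Darboux coordinates -/

/-- the geodesic `p` crosses the disc of `x` at `z.1`, upwards, with the covector `z.2` -/
structure Rel (x : X) (z : W) (p : B × B) : Prop where
  mem : z.1 ∈ ball (0 : E2) 3
  nu : 0 < S.nu x p.1 z.1
  grad : gradient (S.be x p.1) z.1 = z.2
  en : S.en x p.1 z.1 = p.2

open Classical in
/-- the geodesic with the Darboux coordinates `z` -/
def dar (x : X) (z : W) : B × B :=
  if h : ∃ p, Rel S x z p then h.choose else (L.em x, L.ep x)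

/-- the level of the point `q` of the disc of `x` -/
def tm (x : X) (ξ : B) (q : E2) : ℝ := S.b ξ x + S.be x ξ q

/-- the passage from one disc to another disc is locally jointly smooth, and so is the time -/
def CrossJC : Prop := ∀ x₀ y₀ z₀ z₀' p₀, Rel S x₀ z₀ p₀ → Rel S y₀ z₀' p₀ →
  ∃ (U : Set ((X × X) × W)) (th : X × X → W → W) (sh : X × X → W → ℝ), JC th U ∧ JC sh U ∧
    ((x₀, y₀), z₀) ∈ U ∧ th (x₀, y₀) z₀ = z₀' ∧ ∀ a ∈ U, ∃ p, Rel S a.1.1 a.2 p ∧
      Rel S a.1.2 (th a.1 a.2) p ∧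
      sh a.1 a.2 = tm S a.1.2 p.1 (th a.1 a.2).1 - tm S a.1.1 p.1 a.2.1

/-- on the ball of radius `r` the Darboux coordinates are a chart -/
structure Rad (r : ℝ) : Prop where
  pos : 0 < r
  le_one : r ≤ 1
  le_δ : r ≤ S.δ
  inj : ∀ x p, ∀ z ∈ ball (0 : W) r, ∀ z' ∈ ball (0 : W) r, Rel S x z p → Rel S x z' p → z = z'

/-- The straightening maps `κ x : ball 0 1 → ball 0 r`, with the inverses `ι x`. -/
structure Str (r : ℝ) where
  κ : Xd X → W → W
  ι : Xd X → W → W
  κ_jc : JC κ (univ ×ˢ ball 0 1)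
  κ_mem : ∀ x, ∀ z ∈ ball (0 : W) 1, κ x z ∈ ball (0 : W) r
  κ_zero : ∀ x, κ x 0 = 0
  ι_jc : JC ι {a | a.2 ∈ κ a.1 '' ball 0 1}
  ι_κ : ∀ x, ∀ z ∈ ball (0 : W) 1, ι x (κ x z) = z
  κ_smul : ∀ (g : Γ) x, ∀ z ∈ ball (0 : W) 1, κ (g • x) z = κ x z
  c : ℝ
  c_ne : c ≠ 0
  symp : ∀ x, ∀ z ∈ ball (0 : W) 1, ∀ v w,
    om (fderiv ℝ (κ x) z v) (fderiv ℝ (κ x) z w) = c * om v w
  axU : ∀ x, ∀ z ∈ ball (0 : W) 1,
    (κ x z).2 = gradient (S.be x.1 (L.em x.1)) (κ x z).1 ↔ z.1 = 0
  axS : ∀ x, ∀ z ∈ ball (0 : W) 1,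
    (κ x z).2 = -gradient (S.be x.1 (L.ep x.1)) (κ x z).1 ↔ z.2 = 0
  flip : ∀ x, ∀ z ∈ ball (0 : W) 1, κ (fd L x) (z.2, z.1) = ((κ x z).1, -(κ x z).2)

variable {S} {r : ℝ} (K : Str S r)

/-- the straight charts -/
def ch (x : Xd X) (z : W) : B × B := dar S x.1 (K.κ x z)

/-- the time from the disc of `x` to the disc of `y` along the geodesic `ch x z` -/
def shift (x y : Xd X) (z : W) : ℝ :=
  tm S y.1 (ch K x z).1 (K.κ y (ttau (ch K) x y z)).1 - tm S x.1 (ch K x z).1 (K.κ x z).1

/-- the domain of the transition maps -/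
def chD : Set ((Xd X × Xd X) × W) := {p | p.2 ∈ tdom (ch K) p.1.1 p.1.2}

/-- the Hessian of the Busemann function of the end in the past -/
def Hp (x : Xd X) (z : W) : E2 →L[ℝ] E2 := hess (S.be x.1 (ch K x z).1) (K.κ x z).1

/-- the Hessian of the Busemann function of the end in the future -/
def Hm (x : Xd X) (z : W) : E2 →L[ℝ] E2 := hess (S.be x.1 (ch K x z).2) (K.κ x z).1

/-- `v` is tangent to the unstable leaf at the point `z` of the chart of `x` -/
def InU (x : Xd X) (z v : W) : Prop :=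
  (fderiv ℝ (K.κ x) z v).2 = Hp K x z (fderiv ℝ (K.κ x) z v).1

/-- `v` is tangent to the stable leaf at the point `z` of the chart of `x` -/
def InS (x : Xd X) (z v : W) : Prop :=
  (fderiv ℝ (K.κ x) z v).2 = -Hm K x z (fderiv ℝ (K.κ x) z v).1

/-- the unstable leaf of `ξ` in the chart of `x`, over the disc -/
def lfU (x : Xd X) (ξ : B) (q : E2) : W := K.ι x (q, gradient (S.be x.1 ξ) q)

/-- the stable leaf of `η` in the chart of `x`, over the disc -/
def lfS (x : Xd X) (η : B) (q : E2) : W := K.ι x (q, -gradient (S.be x.1 η) q)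

/-- `Z` is the system of the charts `ch K` -/
structure Over [MeasurableSpace B] [BorelSpace B] (A : Area L) (Z : Sys Γ (Xd X) B E2 W) :
    Prop where
  φ : Z.φ = φd L
  em : ∀ x, Z.em x = L.em x.1
  ep : ∀ x, Z.ep x = L.ep x.1
  lv : ∀ x, Z.lv x = L.lv x.1
  lp : ∀ x, Z.lp x = L.lp x.1
  iS : Z.iS = ContinuousLinearMap.inl ℝ E2 E2
  iU : Z.iU = ContinuousLinearMap.inr ℝ E2 E2
  pS : Z.pS = ContinuousLinearMap.fst ℝ E2 E2
  pU : Z.pU = ContinuousLinearMap.snd ℝ E2 E2
  c : Z.c = ch K
  ν : Z.ν = A.ν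

end Vale.Agent.P207Z.CS
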