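import Vale.Agent.P207Z.CS.Cross0
import Vale.Agent.P207Z.CS.Defs

/-!
# P207, block CS: `CrossJC` for the discs of the geometry
-/

set_option linter.all false

noncomputable section

namespace Vale.Agent.P207Z.CS

open Vale.Agent.P207.N4 Vale.Agent.P207.N3

variable [Dim]

variable {Γ X B : Type} [Group Γ] [MetricSpace X] [ProperSpace X] [MulAction Γ X]
  [IsIsometricSMul Γ X] [TopologicalSpace B] [CompactSpace B] [T2Space B] [MulAction Γ B]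
  [ContinuousConstSMul Γ B] {L : Leaf Γ X B} {T : Tens L}

theorem crossJC_of {S : Bus L T} (h : Cr.CrossJC0 S) : CrossJC S := by
  intro x₀ y₀ z₀ z₁ p₀ r0 r1
  obtain ⟨U, θ, s, h1, h2, h3, h4, h5⟩ := h x₀ y₀ p₀.1 z₀ z₁ ⟨r0.mem, r0.nu, r0.grad⟩
    ⟨r1.mem, r1.nu, r1.grad⟩ (r0.en.trans r1.en.symm)
  refine ⟨U, θ, s, h1, h2, h3, h4, fun a ha => ?_⟩
  obtain ⟨ξ, t0, t1, e, f⟩ := h5 a ha
  exact ⟨(ξ, S.en a.1.1 ξ a.2.1), ⟨t0.mem, t0.nu, t0.gr, rfl⟩, ⟨t1.mem, t1.nu, t1.gr, e.symm⟩, f⟩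

/-- **the crossing maps are smooth** -/
theorem crossJC {V : Type} [NormedAddCommGroup V] [NormedSpace ℝ V] [FiniteDimensional ℝ V]
    {I : H722.GeoIn L V} (hX : GeoX I) {M : Metr L} (H : H722.HessIn I M) :
    CrossJC (H709.busA hX H) := crossJC_of (Cr.crossJC0 hX H)

end Vale.Agent.P207Z.CS
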