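import Vale.Agent.P207.N4.H709.BusA
import Vale.Agent.P207.N4.H709.DarA

/-!
# P207, block CS: the crossing maps between the discs are smooth
-/

set_option linter.all false

open Set Filter Topology Metric
open scoped ContDiff

noncomputable section

namespace Vale.Agent.P207Z.CS

open Vale.Agent.P207.N4 Vale.Agent.P207.N3

variable [Dim]

variable {Γ X B : Type} [Group Γ] [MetricSpace X] [ProperSpace X] [MulAction Γ X]
  [IsIsometricSMul Γ X] [TopologicalSpace B] [CompactSpace B] [T2Space B] [MulAction Γ B]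
  [ContinuousConstSMul Γ B] {L : Leaf Γ X B} {T : Tens L}

namespace Cr

/-- the geodesic from `ξ` through the point `z.1` of the disc of `x` has the covector `z.2` -/
structure Thr (S : Bus L T) (x : X) (ξ : B) (z : E2 × E2) : Prop where
  mem : z.1 ∈ ball (0 : E2) 3
  nu : 0 < S.nu x ξ z.1
  gr : gradient (S.be x ξ) z.1 = z.2

/-- the crossing maps and the time shifts are smooth -/
def CrossJC0 (S : Bus L T) : Prop :=
  ∀ (x₀ y₀ : X) (ξ₀ : B) (z₀ z₁ : E2 × E2), Thr S x₀ ξ₀ z₀ → Thr S y₀ ξ₀ z₁ →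
    S.en x₀ ξ₀ z₀.1 = S.en y₀ ξ₀ z₁.1 →
    ∃ (U : Set ((X × X) × (E2 × E2))) (θ : X × X → E2 × E2 → E2 × E2) (s : X × X → E2 × E2 → ℝ),
      JC θ U ∧ JC s U ∧ ((x₀, y₀), z₀) ∈ U ∧ θ (x₀, y₀) z₀ = z₁ ∧
      ∀ p ∈ U, ∃ ξ, Thr S p.1.1 ξ p.2 ∧ Thr S p.1.2 ξ (θ p.1 p.2) ∧
        S.en p.1.1 ξ p.2.1 = S.en p.1.2 ξ (θ p.1 p.2).1 ∧
        s p.1 p.2 = S.b ξ p.1.2 + S.be p.1.2 ξ (θ p.1 p.2).1 - (S.b ξ p.1.1 + S.be p.1.1 ξ p.2.1)

open H722 H862 H709
open H76 (e0)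

variable {V : Type} [NormedAddCommGroup V] [NormedSpace ℝ V] [FiniteDimensional ℝ V]
  (I : GeoIn L V)

/-- the momentum -/
def mm (x : X) (q : E2) : V →L[ℝ] E2 :=
  rz ∘L ((ContinuousLinearMap.compL ℝ E2 V ℝ).flip (tg I x q)) ∘L I.G (disc I x q)

theorem inner_mm (x : X) (q : E2) (v : V) (a : E2) :
    inner ℝ (mm I x q v) a = I.G (disc I x q) v (tg I x q a) := inner_rz _ _

theorem grad_mm (x : X) (ξ : B) {q : E2} (hq : q ∈ ball (0 : E2) 3) :
    gradient (H265.be I x ξ) q = mm I x q (I.vel ξ (disc I x q)) :=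
  ext_inner_right ℝ fun a => by
    rw [inner_mm]
    exact H862.gradient_be I x ξ (mem3 I hq) a

theorem tg_jc : JC (tg I) (univ ×ˢ ball 0 I.S.R) :=
  (DA_jc I).clm_comp (JC.const (isOpen_univ.prod isOpen_ball) _)

theorem mm_jc : JC (mm I) (univ ×ˢ ball 0 I.S.R) :=
  (JC.const (isOpen_univ.prod isOpen_ball) _).clm_comp
    (((tg_jc I).clm (ContinuousLinearMap.compL ℝ E2 V ℝ).flip).clm_comp
      ((disc_jc I).comp_contDiff I.G_smooth))

/-- the side of a vector -/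
def sd (x : X) (q : E2) : V →L[ℝ] ℝ := al I x q - al I (L.flip x) q

theorem sd_jc : JC (sd I) (univ ×ˢ ball 0 I.S.R) :=
  (al_jc I).sub (((al_jc I).pullback L.flip_cont).mono (isOpen_univ.prod isOpen_ball)
    fun _ hp => ⟨mem_univ _, hp.2⟩)

theorem sd_vel (x : X) (ξ : B) (q : E2) : sd I x q (I.vel ξ (disc I x q)) = nu I x ξ q := rfl

theorem gf_psi (ξ : B) (P : V) (s : ℝ) : I.gf (P, I.vel ξ P, s) = I.S.psi ξ s P := by
  obtain ⟨z, h1, h2, -⟩ := I.exists_frame ξ P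
  rw [← h1, ← h2, I.vel_eq H459.invThm, ← I.gf_ft, I.ft_φ]

theorem b_psi (ξ : B) (P : V) (s : ℝ) : I.b ξ (I.S.psi ξ s P) = I.b ξ P + s := by
  obtain ⟨z, h1, h2, -⟩ := I.exists_frame ξ P
  have h3 := I.b_lv (L.φ s z)
  rw [L.em_φ, I.ft_φ, L.lv_φ, ← I.b_lv] at h3
  rw [← h1, ← h2, h3]

theorem gf_der (ξ : B) (P : V) (s : ℝ) :
    fderiv ℝ I.gf (P, I.vel ξ P, s) (0, 0, 1) = I.vel ξ (I.S.psi ξ s P) := by
  have h1 : HasDerivAt (fun t : ℝ => ((P, I.vel ξ P, t) : V × V × ℝ)) (0, 0, 1) s :=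
    (hasDerivAt_const s P).prodMk ((hasDerivAt_const s _).prodMk (hasDerivAt_id s))
  have h2 := (I.gf_smooth.differentiable (by simp) (P, I.vel ξ P, s)).hasFDerivAt.comp_hasDerivAt
    s h1
  have h3 := I.S.hasDerivAt_psi H459.invThm ξ s P
  refine h2.unique (h3.congr_of_eventuallyEq (Eventually.of_forall fun t => gf_psi I ξ P t))

/-- a family on the discs, composed with a projection -/
theorem lift {Z E F : Type} [TopologicalSpace Z] [NormedAddCommGroup E] [NormedSpace ℝ E]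
    [NormedAddCommGroup F] [NormedSpace ℝ F] {f : X → E2 → F} (hf : JC f (univ ×ˢ ball 0 I.S.R))
    {c : Z → X} (hc : Continuous c) {g : Z → E → E2} {S : Set (Z × E)} (hg : JC g S)
    (h : ∀ p ∈ S, g p.1 p.2 ∈ ball (0 : E2) 3) : JC (fun z u => f (c z) (g z u)) S :=
  (hf.pullback hc).comp' hg fun p hp => ⟨mem_univ _, mem3 I (h p hp)⟩

/-- the equations of a crossing -/
def eqn (p : X × X) (u : (E2 × E2) × (V × ℝ × E2)) : (E2 × ℝ) × V :=
  ((mm I p.1 u.1.1 u.2.1 - u.1.2, I.G (disc I p.1 u.1.1) u.2.1 u.2.1),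
    I.gf (disc I p.1 u.1.1, u.2.1, u.2.2.1) - disc I p.2 u.2.2.2)

/-- their domain -/
def eqD (X V : Type) : Set ((X × X) × ((E2 × E2) × (V × ℝ × E2))) :=
  {p | p.2.1.1 ∈ ball (0 : E2) 3 ∧ p.2.2.2.2 ∈ ball (0 : E2) 3}

theorem eqn_jc : JC (eqn I) (eqD X V) := by
  have hO : IsOpen (eqD X V) :=
    (isOpen_ball.preimage (by fun_prop)).inter (isOpen_ball.preimage (by fun_prop))
  have i := JC.id hO
  have hD := lift I (disc_jc I) continuous_fst i.fst.fst fun p hp => hp.1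
  refine JC.prodMk (JC.prodMk ?_ ?_) (JC.sub ?_ ?_)
  · exact ((lift I (mm_jc I) continuous_fst i.fst.fst fun p hp => hp.1).clm_apply
      i.snd.fst).sub i.fst.snd
  · exact ((hD.comp_contDiff I.G_smooth).clm_apply i.snd.fst).clm_apply i.snd.fst
  · exact (hD.prodMk (i.snd.fst.prodMk i.snd.snd.fst)).comp_contDiff I.gf_smooth
  · exact lift I (disc_jc I) continuous_snd i.snd.snd.snd fun p hp => hp.2

theorem eqn_inv {x y : X} {ξ : B} {z : E2 × E2} {q : E2} {s : ℝ} (h1 : z.1 ∈ ball (0 : E2) 3)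
    (h2 : q ∈ ball (0 : E2) 3) (n1 : nu I x ξ z.1 ≠ 0) (n2 : nu I y ξ q ≠ 0)
    (hs : disc I y q = I.S.psi ξ s (disc I x z.1)) :
    (fderiv ℝ (fun u => eqn I (x, y) (z, u)) (I.vel ξ (disc I x z.1), s, q)).IsInvertible := by
  set P := disc I x z.1 with hP
  set v := I.vel ξ P with hv
  have f1 : HasFDerivAt (fun u : V × ℝ × E2 => u.1) (ContinuousLinearMap.fst ℝ V (ℝ × E2))
      (v, s, q) := hasFDerivAt_fst
  have a1 := ((mm I x z.1).hasFDerivAt.comp (v, s, q) f1).sub_const z.2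
  have a2 := ((I.G P).hasFDerivAt.comp (v, s, q) f1).clm_apply f1
  have f0 : HasFDerivAt (fun u : V × ℝ × E2 => u.2) (ContinuousLinearMap.snd ℝ V (ℝ × E2))
      (v, s, q) := hasFDerivAt_snd
  have f2 : HasFDerivAt (fun u : V × ℝ × E2 => ((P, u.1, u.2.1) : V × V × ℝ)) _ (v, s, q) :=
    (hasFDerivAt_const P _).prodMk (f1.prodMk f0.fst)
  have a3 := (I.gf_smooth.differentiable (by simp) (P, v, s)).hasFDerivAt.comp (v, s, q) f2
  have f3 : HasFDerivAt (fun u : V × ℝ × E2 => u.2.2) _ (v, s, q) := f0.snd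
  have a4 := (hasFDerivAt_disc I y (mem3 I h2)).comp (v, s, q) f3
  have a := (a1.prodMk a2).prodMk (a3.sub a4)
  have e : fderiv ℝ (fun u => eqn I (x, y) (z, u)) (v, s, q) = _ := a.fderiv
  rw [e]
  refine H722.isInvertible_of_bijective (H722.bijective_of_injective ?_ ?_)
  · simp only [Module.finrank_prod, Module.finrank_self]
    ring
  rintro ⟨dv, ds, dq⟩ h
  have b1 : mm I x z.1 dv = 0 := congrArg (fun w => w.1.1) h
  have b2 : I.G P v dv + I.G P dv v = 0 := congrArg (fun w => w.1.2) h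
  have b3 : fderiv ℝ I.gf (P, v, s) (0, dv, ds) - tg I y q dq = 0 := congrArg (fun w => w.2) h
  have c1 : dv = 0 := by
    by_contra hne
    refine (I.G_pos P dv hne).ne' ?_
    have n : al I x z.1 v ≠ 0 := (nu_ne_iff I x ξ (mem3 I h1)).1 n1
    obtain ⟨a, ha⟩ := exists_tg I x (mem3 I h1) (w := dv - (al I x z.1 dv / al I x z.1 v) • v) (by
      rw [map_sub, map_smul, smul_eq_mul, div_mul_cancel₀ _ n, sub_self])
    have d1 := inner_mm I x z.1 dv a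
    rw [b1, inner_zero_left, ha, map_sub, map_smul, ← hP] at d1
    rw [I.G_symm P v dv] at b2
    have d2 : I.G P dv v = 0 := by linarith
    rw [d2, smul_zero, sub_zero] at d1
    exact d1.symm
  subst c1
  have c2 : fderiv ℝ I.gf (P, v, s) (0, 0, ds) = ds • I.vel ξ (disc I y q) := by
    rw [hs, ← gf_der, ← map_smul]
    congr 1
    simp
  rw [c2, sub_eq_zero] at b3
  have c3 : ds = 0 := by
    have d1 := congrArg (al I y q) b3
    rw [al_tg I y (mem3 I h2), map_smul, smul_eq_mul] at d1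
    exact (mul_eq_zero.1 d1).resolve_right ((nu_ne_iff I y ξ (mem3 I h2)).1 n2)
  subst c3
  rw [zero_smul] at b3
  rw [tg_inj I y (mem3 I h2) b3.symm]
  rfl

/-- **the crossing maps are smooth** -/
theorem crossJC0 {I : GeoIn L V} {M : Metr L} (hX : GeoX I) (H : HessIn I M) :
    CrossJC0 (busA hX H) := by
  intro x₀ y₀ ξ₀ z₀ z₁ t0 t1 hen
  obtain ⟨s₀, hs₀⟩ := (I.S.line_iff ξ₀ _ _).1 hen
  have hs : disc I y₀ z₁.1 = I.S.psi ξ₀ s₀ (disc I x₀ z₀.1) := hs₀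
  have g0 : mm I x₀ z₀.1 (I.vel ξ₀ (disc I x₀ z₀.1)) = z₀.2 := by
    rw [← grad_mm I x₀ ξ₀ t0.mem]; exact t0.gr
  have g1 : mm I y₀ z₁.1 (I.vel ξ₀ (disc I y₀ z₁.1)) = z₁.2 := by
    rw [← grad_mm I y₀ ξ₀ t1.mem]; exact t1.gr
  obtain ⟨U, φ, hφ, h0, e0, hU, -⟩ := (eqn_jc I).implicit (z₀ := (x₀, y₀)) (x₀ := z₀)
    (y₀ := (I.vel ξ₀ (disc I x₀ z₀.1), s₀, z₁.1)) ⟨t0.mem, t1.mem⟩
    (eqn_inv I t0.mem t1.mem t0.nu.ne' t1.nu.ne' hs)
  have hval : eqn I (x₀, y₀) (z₀, (I.vel ξ₀ (disc I x₀ z₀.1), s₀, z₁.1)) = ((0, 1), 0) := by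
    unfold eqn
    simp only
    rw [g0, sub_self, I.G_vel H459.invThm, gf_psi, hs, sub_self]
  rw [hval] at hU
  have i := JC.id hφ.isOpen
  have hD := lift I (disc_jc I) continuous_fst i.fst fun p hp => (hU p hp).1.1
  have hw : JC (fun (p : X × X) (z : E2 × E2) =>
      fderiv ℝ I.gf (disc I p.1 z.1, (φ p z).1, (φ p z).2.1) (0, 0, 1)) U :=
    ((hD.prodMk (hφ.fst.prodMk hφ.snd.fst)).comp_contDiff
      (I.gf_smooth.fderiv_right (m := ∞) (by simp))).clm_apply (JC.const hφ.isOpen _)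
  have hθ := hφ.snd.snd.prodMk
    ((lift I (mm_jc I) continuous_snd hφ.snd.snd fun p hp => (hU p hp).1.2).clm_apply hw)
  have s1 := (lift I (sd_jc I) continuous_fst i.fst fun p hp => (hU p hp).1.1).clm_apply hφ.fst
  have s2 := (lift I (sd_jc I) continuous_snd hφ.snd.snd fun p hp => (hU p hp).1.2).clm_apply hw
  have o1 := s1.continuousOn.isOpen_inter_preimage hφ.isOpen (isOpen_Ioi (a := (0 : ℝ)))
  have o2 := s2.continuousOn.isOpen_inter_preimage hφ.isOpen (isOpen_Ioi (a := (0 : ℝ)))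
  refine ⟨_, _, fun p z => (φ p z).2.1, hθ.mono (o1.inter o2) fun p hp => hp.1.1,
    hφ.snd.fst.mono (o1.inter o2) fun p hp => hp.1.1, ⟨⟨h0, ?_⟩, h0, ?_⟩, ?_, ?_⟩
  · simp only [mem_preimage, mem_Ioi, e0]
    exact t0.nu
  · simp only [mem_preimage, mem_Ioi, e0]
    rw [gf_der, ← hs]
    exact t1.nu
  · simp only [e0]
    rw [gf_der, ← hs, g1]
  · rintro ⟨⟨x, y⟩, z⟩ ⟨⟨hp, n1⟩, -, n2⟩
    obtain ⟨⟨m1, m2⟩, he⟩ := hU _ hp
    simp only [mem_preimage, mem_Ioi] at n1 n2 m1 m2 he ⊢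
    generalize φ (x, y) z = u at n1 n2 m2 he ⊢
    obtain ⟨v, s, q⟩ := u
    have b1 : mm I x z.1 v - z.2 = 0 := congrArg (fun w => w.1.1) he
    have b2 : I.G (disc I x z.1) v v = 1 := congrArg (fun w => w.1.2) he
    have b3 : I.gf (disc I x z.1, v, s) - disc I y q = 0 := congrArg (fun w => w.2) he
    obtain ⟨ξ, rfl⟩ := I.exists_vel H459.invThm b2
    rw [gf_psi, sub_eq_zero] at b3
    simp only at n1 n2 m2 ⊢
    rw [gf_der, b3] at n2 ⊢
    refine ⟨ξ, ⟨m1, n1, ?_⟩, ⟨m2, n2, grad_mm I y ξ m2⟩, (I.S.line_iff ξ _ _).2 ⟨s, b3.symm⟩, ?_⟩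
    · exact (grad_mm I x ξ m1).trans (sub_eq_zero.1 b1)
    · have b4 := b_psi I ξ (disc I x z.1) s
      rw [b3] at b4
      show s = I.b ξ (I.S.ft y) + (I.b ξ (disc I y q) - I.b ξ (I.S.ft y)) -
        (I.b ξ (I.S.ft x) + (I.b ξ (disc I x z.1) - I.b ξ (I.S.ft x)))
      linarith

end Cr

end Vale.Agent.P207Z.CS
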