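import Vale.Agent.P207Z.CS.Defs

/-!
# P207, block CS: the Darboux coordinates are a chart
-/

set_option linter.all false

open Set Filter Topology Metric MeasureTheory
open scoped ContDiff

noncomputable section

namespace Vale.Agent.P207Z.CS

open Vale.Agent.P207.N4 Vale.Agent.P207.N3
open Vale.Agent.P207.N4.H709 (NuPos)

variable [Dim]

variable {Γ X B : Type} [Group Γ] [MetricSpace X] [ProperSpace X] [MulAction Γ X]
  [IsIsometricSMul Γ X] [TopologicalSpace B] [CompactSpace B] [T2Space B] [MulAction Γ B]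
  [ContinuousConstSMul Γ B] {L : Leaf Γ X B} {T : Tens L} {S : Bus L T} {r : ℝ}

namespace DarA

theorem dar_eq {x : X} {z : W} {p : B × B} (h : Rel S x z p) : dar S x z = p := by
  have h0 : ∃ p, Rel S x z p := ⟨p, h⟩
  have h' := h0.choose_spec
  rw [dar, dif_pos h0]
  have h1 : h0.choose.1 = p.1 :=
    S.cov_inj x _ _ z.1 h.mem h'.nu.le h.nu.le (h'.grad.trans h.grad.symm)
  exact Prod.ext h1 (by rw [← h'.en, ← h.en, h1])

theorem dar_rel (x : X) {z : W} (h1 : z.1 ∈ ball (0 : E2) 3) (h2 : ‖z.2‖ < S.δ) :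
    Rel S x z (dar S x z) := by
  obtain ⟨ξ, h3, h4⟩ := S.cov_surj x z.1 h1 z.2 h2
  have h5 : Rel S x z (ξ, S.en x ξ z.1) := ⟨h1, h3, h4, rfl⟩
  rwa [dar_eq h5]

theorem rel_smul {x : X} {z : W} {p : B × B} (h : Rel S x z p) (g : Γ) :
    Rel S (g • x) z (g • p) := by
  refine ⟨h.mem, ?_, ?_, ?_⟩
  · change 0 < S.nu (g • x) (g • p.1) z.1
    rw [S.nu_smul g x _ _ h.mem]
    exact h.nu
  · change gradient (S.be (g • x) (g • p.1)) z.1 = z.2
    refine (H709.gradient_congr ?_).trans h.grad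
    filter_upwards [isOpen_ball.mem_nhds h.mem] with t ht using S.be_smul g x _ t ht
  · change S.en (g • x) (g • p.1) z.1 = g • p.2
    rw [S.en_smul g x _ _ h.mem, h.en]

theorem rel_zero (x : X) : Rel S x 0 (L.em x, L.ep x) :=
  ⟨H709.zero_mem3, S.nu_em x, S.be_crit x, by
    change S.en x (L.em x) 0 = L.ep x
    rw [S.en_em x 0 H709.zero_mem3, L.e_zero]⟩

/-- the gradient of the sum of the two Busemann functions -/
def gs (S : Bus L T) (x : X) (p : B × B) (q : E2) : E2 :=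
  gradient (S.be x p.1) q + gradient (S.be x p.2) q

theorem gs_zero {x : X} {z : W} {p : B × B} (h : Rel S x z p) : gs S x p z.1 = 0 := by
  rw [gs, ← h.en, H709.gradient_en S x _ h.mem, add_neg_cancel]

theorem isInvertible_of_pos {A : E2 →L[ℝ] E2} (h : ∀ v ≠ 0, 0 < inner ℝ (A v) v) :
    A.IsInvertible := by
  have hinj : Function.Injective A := by
    rw [injective_iff_map_eq_zero]
    intro v hv
    by_contra h0
    have h1 := h v h0
    rw [hv, inner_zero_left] at h1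
    exact lt_irrefl _ h1
  have hsurj := (LinearMap.injective_iff_surjective (f := A.toLinearMap)).1 hinj
  exact ⟨(LinearEquiv.ofBijective A.toLinearMap ⟨hinj, hsurj⟩).toContinuousLinearEquiv, rfl⟩

theorem gs_inv {x : X} {z : W} {p : B × B} (h : Rel S x z p) :
    (fderiv ℝ (gs S x p) z.1).IsInvertible := by
  have d : ∀ ζ, DifferentiableAt ℝ (gradient (S.be x ζ)) z.1 := fun ζ =>
    (H709.gradient_jc S.be_jc).differentiableAt (p := ((x, ζ), z.1)) ⟨mem_univ _, h.mem⟩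
  have e : fderiv ℝ (gs S x p) z.1 = hess (S.be x p.1) z.1 + hess (S.be x p.2) z.1 :=
    fderiv_fun_add (d _) (d _)
  rw [e, ← h.en]
  exact isInvertible_of_pos (S.pos x p.1 z.1 h.mem h.nu.ne')

variable {Z : Type} [TopologicalSpace Z] {π : Z → X}

theorem grad_jc (hπ : Continuous π) {ξ : Z → B} (hξ : Continuous ξ) :
    JC (fun a q => gradient (S.be (π a) (ξ a)) q) (univ ×ˢ ball 0 3) :=
  ((H709.gradient_jc S.be_jc).pullback (hπ.prodMk hξ)).mono (isOpen_univ.prod isOpen_ball)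
    fun _ hp => ⟨mem_univ _, hp.2⟩

theorem gs_jc (hπ : Continuous π) :
    JC (fun (a : Z × (B × B)) q => gs S (π a.1) a.2 q) (univ ×ˢ ball 0 3) :=
  (grad_jc (hπ.comp continuous_fst) (continuous_fst.comp continuous_snd)).add
    (grad_jc (hπ.comp continuous_fst) (continuous_snd.comp continuous_snd))

theorem contAt_of {F : Type} [TopologicalSpace F] {f : (X × B) × E2 → F}
    (hf : ContinuousOn f (univ ×ˢ ball 0 3)) {x : Z → X} {ξ : Z → B} {q : Z → E2} {a : Z}
    (hx : ContinuousAt x a) (hξ : ContinuousAt ξ a) (hq : ContinuousAt q a)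
    (h : q a ∈ ball (0 : E2) 3) : ContinuousAt (fun a => f ((x a, ξ a), q a)) a :=
  ContinuousAt.comp (g := f) (f := fun a => (((x a, ξ a), q a) : (X × B) × E2))
    (hf.continuousAt ((isOpen_univ.prod isOpen_ball).mem_nhds ⟨mem_univ _, h⟩))
    ((hx.prodMk hξ).prodMk hq)

/-- the crossing point moves continuously with the frame and the geodesic -/
theorem exists_cr (hπ : Continuous π) {a₀ : Z × (B × B)} {z₀ : W} (h : Rel S (π a₀.1) z₀ a₀.2) :
    ∃ c : Z × (B × B) → W, ContinuousAt c a₀ ∧ c a₀ = z₀ ∧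
      (∀ᶠ a in 𝓝 a₀, Rel S (π a.1) (c a) a.2) ∧
      ∀ᶠ b in 𝓝 (a₀, z₀.1), gs S (π b.1.1) b.1.2 b.2 = 0 → b.2 = (c b.1).1 := by
  obtain ⟨U, g, h1, h2, h3, h4, -, O, hO, h5, h6⟩ := (gs_jc (S := S) hπ).inverse_local
    (z₀ := a₀) (u₀ := z₀.1) ⟨mem_univ _, h.mem⟩ (gs_inv h)
  simp only [gs_zero h] at h2 h3
  have hc : Continuous fun a : Z × (B × B) => ((a, 0) : (Z × (B × B)) × E2) := by fun_prop
  have hq : ContinuousAt (fun a => g a 0) a₀ :=
    ContinuousAt.comp (g := fun p : (Z × (B × B)) × E2 => g p.1 p.2)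
      (f := fun a : Z × (B × B) => ((a, 0) : (Z × (B × B)) × E2))
      (h1.continuousOn.continuousAt (h1.isOpen.mem_nhds h2)) hc.continuousAt
  have hm : g a₀ 0 ∈ ball (0 : E2) 3 := by rw [h3]; exact h.mem
  have hx : ContinuousAt (fun a : Z × (B × B) => π a.1) a₀ := (hπ.comp continuous_fst).continuousAt
  have c1 : ContinuousAt (fun a : Z × (B × B) => a.2.1) a₀ := by fun_prop
  have c2 : ContinuousAt (fun a : Z × (B × B) => a.2.2) a₀ := by fun_prop
  have e1 := contAt_of (H709.gradient_jc S.be_jc).continuousOn hx c1 hq hm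
  have e2 := contAt_of S.nu_cont hx c1 hq hm
  have e3 := contAt_of S.nu_cont hx c2 hq hm
  refine ⟨fun a => (g a 0, gradient (S.be (π a.1) a.2.1) (g a 0)), hq.prodMk e1,
    Prod.ext h3 (by simp only [h3]; exact h.grad), ?_, ?_⟩
  · have n1 : 0 < S.nu (π a₀.1) a₀.2.1 (g a₀ 0) := by rw [h3]; exact h.nu
    have n2 : S.nu (π a₀.1) a₀.2.2 (g a₀ 0) < 0 := by
      rw [h3, ← h.en, S.nu_en _ _ _ h.mem]
      exact neg_neg_of_pos h.nu
    filter_upwards [hc.continuousAt.eventually (h1.isOpen.mem_nhds h2),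
      continuousAt_const.eventually_lt e2 n1, e3.eventually_lt continuousAt_const n2]
      with a k1 k2 k3
    obtain ⟨k4, k5⟩ := h4 _ k1
    exact ⟨k4.2, k2, rfl, H709.en_of_gradient S _ _ _ k4.2 k2.le k3.le k5⟩
  · filter_upwards [hO.mem_nhds h5] with b hb h0
    have k := (h6 b hb).2
    simp only [h0] at k
    exact k.symm

end DarA

theorem dar_cont : ContinuousOn (fun a : X × W => dar S a.1 a.2)
    {a | a.2.1 ∈ ball (0 : E2) 3 ∧ ‖a.2.2‖ < S.δ} := by
  set D : Set (X × W) := {a | a.2.1 ∈ ball (0 : E2) 3 ∧ ‖a.2.2‖ < S.δ} with hD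
  have hc : ∀ {F : Type} [TopologicalSpace F] {f : (X × B) × E2 → F},
      ContinuousOn f (univ ×ˢ ball 0 3) →
      Continuous fun z : D × B => f ((z.1.1.1, z.2), z.1.1.2.1) := fun hf =>
    hf.comp_continuous (by fun_prop) fun z => ⟨mem_univ _, z.1.2.1⟩
  have h1 : Continuous fun a : D => (dar S a.1.1 a.1.2).1 := by
    rw [continuous_iff_isClosed]
    intro C hC
    have e : (fun a : D => (dar S a.1.1 a.1.2).1) ⁻¹' C = Prod.fst '' {z : D × B | z.2 ∈ C ∧
        0 ≤ S.nu z.1.1.1 z.2 z.1.1.2.1 ∧ gradient (S.be z.1.1.1 z.2) z.1.1.2.1 = z.1.1.2.2} := by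
      ext a
      have hr := DarA.dar_rel (S := S) a.1.1 a.2.1 a.2.2
      constructor
      · intro ha
        exact ⟨(a, _), ⟨ha, hr.nu.le, hr.grad⟩, rfl⟩
      · rintro ⟨⟨a', ξ⟩, ⟨k1, k2, k3⟩, rfl⟩
        change (dar S a'.1.1 a'.1.2).1 ∈ C
        rw [S.cov_inj _ _ _ _ a'.2.1 hr.nu.le k2 (hr.grad.trans k3.symm)]
        exact k1
    rw [e]
    refine isClosedMap_fst_of_compactSpace _ (IsClosed.inter (hC.preimage continuous_snd)
      (IsClosed.inter (isClosed_le continuous_const (hc S.nu_cont)) ?_))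
    exact isClosed_eq (hc (H709.gradient_jc S.be_jc).continuousOn) (by fun_prop)
  have h2 : Continuous fun a : D => S.en a.1.1 (dar S a.1.1 a.1.2).1 a.1.2.1 :=
    (hc S.en_cont).comp (continuous_id.prodMk h1)
  rw [continuousOn_iff_continuous_domRestrict]
  refine (h1.prodMk h2).congr fun a => ?_
  exact Prod.ext rfl (DarA.dar_rel (S := S) a.1.1 a.2.1 a.2.2).en

theorem rel_open {Z : Type} [TopologicalSpace Z] {π : Z → X} (hπ : Continuous π)
    {O : Set (Z × W)} (hO : IsOpen O) :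
    IsOpen {a : Z × (B × B) | ∃ z, (a.1, z) ∈ O ∧ Rel S (π a.1) z a.2} := by
  rw [isOpen_iff_mem_nhds]
  rintro a₀ ⟨z₀, h1, h2⟩
  obtain ⟨c, k1, k2, k3, -⟩ := DarA.exists_cr hπ h2
  have k4 : ContinuousAt (fun a : Z × (B × B) => ((a.1, c a) : Z × W)) a₀ :=
    continuousAt_fst.prodMk k1
  filter_upwards [k3, k4.eventually (hO.mem_nhds (by simpa only [k2] using h1))] with a ha hb
  exact ⟨c a, hb, ha⟩

theorem exists_rad (S : Bus L T) (hn : NuPos S) : ∃ r, Rad S r := by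
  obtain ⟨K, hK, hK'⟩ := L.cocompact
  have h1 : ∀ᶠ w : W × W in 𝓝 0, ∀ x ∈ K, ∀ p, Rel S x w.1 p → Rel S x w.2 p → w.1 = w.2 := by
    refine hK.eventually_forall_of_forall_eventually fun x₀ _ => ?_
    have h0 := DarA.rel_zero (S := S) x₀
    obtain ⟨c, -, -, -, k⟩ := DarA.exists_cr (π := id) continuous_id
      (a₀ := (x₀, (L.em x₀, L.ep x₀))) h0
    have hD : IsOpen {a : X × W | a.2.1 ∈ ball (0 : E2) 3 ∧ ‖a.2.2‖ < S.δ} :=
      (isOpen_ball.preimage (by fun_prop : Continuous fun a : X × W => a.2.1)).inter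
        (isOpen_lt (by fun_prop : Continuous fun a : X × W => ‖a.2.2‖) continuous_const)
    have hd : ContinuousAt (fun a : X × W => dar S a.1 a.2) (x₀, 0) :=
      dar_cont.continuousAt (hD.mem_nhds ⟨H709.zero_mem3, by simpa using S.δ_pos⟩)
    have hd2 : ContinuousAt (fun b : (W × W) × X => dar S b.2 b.1.1) (0, x₀) :=
      ContinuousAt.comp (g := fun a : X × W => dar S a.1 a.2)
        (f := fun b : (W × W) × X => ((b.2, b.1.1) : X × W)) (x := (0, x₀)) hd (by fun_prop)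
    have t : ∀ q : (W × W) × X → E2, ContinuousAt q (0, x₀) → q (0, x₀) = 0 →
        ∀ᶠ b : (W × W) × X in 𝓝 (0, x₀), DarA.gs S b.2 (dar S b.2 b.1.1) (q b) = 0 →
          q b = (c (b.2, dar S b.2 b.1.1)).1 := by
      intro q hq hq0
      have t1 : ContinuousAt (fun b : (W × W) × X =>
          (((b.2, dar S b.2 b.1.1), q b) : (X × (B × B)) × E2)) (0, x₀) :=
        (continuousAt_snd.prodMk hd2).prodMk hq
      refine t1.eventually (p := fun b => DarA.gs S b.1.1 b.1.2 b.2 = 0 → b.2 = (c b.1).1) ?_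
      have e : dar S x₀ 0 = (L.em x₀, L.ep x₀) := DarA.dar_eq h0
      simp only [hq0, Prod.fst_zero, e]
      exact k
    filter_upwards [t (fun b => b.1.1.1) (by fun_prop) rfl, t (fun b => b.1.2.1) (by fun_prop) rfl]
      with b b1 b2 p r1 r2
    rw [DarA.dar_eq r1] at b1 b2
    have e := (b1 (DarA.gs_zero r1)).trans (b2 (DarA.gs_zero r2)).symm
    exact Prod.ext e (by rw [← r1.grad, ← r2.grad, e])
  obtain ⟨ε, hε, h2⟩ := Metric.eventually_nhds_iff_ball.1 h1
  refine ⟨min ε (min 1 S.δ), lt_min hε (lt_min one_pos S.δ_pos),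
    (min_le_right _ _).trans (min_le_left _ _), (min_le_right _ _).trans (min_le_right _ _), ?_⟩
  intro x p z hz z' hz' r1 r2
  obtain ⟨g, hg⟩ := hK' x
  refine h2 (z, z') ?_ _ hg _ (DarA.rel_smul r1 g) (DarA.rel_smul r2 g)
  rw [mem_ball_zero_iff] at hz hz' ⊢
  rw [Prod.norm_def]
  exact max_lt (hz.trans_le (min_le_left _ _)) (hz'.trans_le (min_le_left _ _))

end Vale.Agent.P207Z.CS
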