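import Vale.Agent.P207Z.CS.Asm
import Vale.Agent.P207Z.Leb

/-!
# P207, block CS: the structure `Leb`
-/

set_option linter.all false

open Set Filter Topology Metric MeasureTheory
open scoped ContDiff ENNReal

noncomputable section

namespace Vale.Agent.P207Z.CS

open Vale.Agent.P207.N4 Vale.Agent.P207.N3
open Vale.Agent.P207.N4.H709 (NuPos)

theorem null_of_lint {α : Type*} [MeasurableSpace α] {μ : Measure α} {f : α → ℝ≥0∞}
    (hf : AEMeasurable f μ) (h0 : ∀ᵐ a ∂μ, f a ≠ 0) : ∫⁻ a, f a ∂μ = 0 ↔ μ = 0 := by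
  refine ⟨fun h => ae_eq_bot.1 (eventually_false_iff_eq_bot.1 ?_), fun h => by
    rw [h, lintegral_zero_measure]⟩
  filter_upwards [(lintegral_eq_zero_iff' hf).1 h, h0] with a h1 h2 using h2 h1

variable [Dim]

variable {Γ X B : Type} [Group Γ] [MetricSpace X] [ProperSpace X] [MulAction Γ X]
  [IsIsometricSMul Γ X] [TopologicalSpace B] [CompactSpace B] [T2Space B] [MulAction Γ B]
  [ContinuousConstSMul Γ B] {L : Leaf Γ X B} {T : Tens L} {S : Bus L T} {r : ℝ}
  [MeasurableSpace B] [BorelSpace B]

theorem nu_pre (A : Area L) (x : X) {C : Set B} (hC : MeasurableSet C)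
    (h3 : C ⊆ L.e x '' ball 0 3) : A.ν C = 0 ↔ volume (ball (0 : E2) 3 ∩ L.e x ⁻¹' C) = 0 := by
  have h1 : AEMeasurable (fun u => ENNReal.ofReal (Real.exp (-A.h * L.lv x) * A.s x u))
      (volume.restrict (ball (0 : E2) 3)) :=
    ((continuousOn_const.mul (A.s_smooth x).continuousOn).aemeasurable
      measurableSet_ball).ennreal_ofReal
  have h2 : ∀ᵐ u ∂(volume.restrict (ball (0 : E2) 3)),
      ENNReal.ofReal (Real.exp (-A.h * L.lv x) * A.s x u) ≠ 0 :=
    (ae_restrict_mem measurableSet_ball).mono fun u hu =>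
      (ENNReal.ofReal_pos.2 (mul_pos (Real.exp_pos _) (A.s_pos x u hu))).ne'
  have h4 : Measurable fun η => ex (-A.h * Dm L (L.em x, η)) :=
    (dens_meas A).comp (measurable_const.prodMk measurable_id)
  rw [← Measure.restrict_eq_zero, ← Measure.restrict_eq_zero,
    ← null_of_lint h4.aemeasurable (Eventually.of_forall fun _ => ex_ne_zero _),
    ← null_of_lint (h1.mono_set inter_subset_left)
      (ae_restrict_of_ae_restrict_of_subset inter_subset_left h2), chart A x hC h3]

theorem nu_disc (A : Area L) (x : X) {C : Set E2} (h3 : C ⊆ ball 0 3) :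
    A.ν (L.e x '' C) = 0 ↔ volume C = 0 := by
  have hO : MeasurableSet (L.e x '' ball (0 : E2) 3) := (H824.open_disc' L x le_rfl).measurableSet
  constructor
  · intro h
    obtain ⟨N, h1, h2, h4⟩ := exists_measurable_superset_of_null h
    refine measure_mono_null (fun u hu => ?_)
      ((nu_pre A x (h2.inter hO) inter_subset_right).1 (measure_mono_null inter_subset_left h4))
    exact ⟨h3 hu, h1 ⟨u, hu, rfl⟩, u, h3 hu, rfl⟩
  · intro h
    obtain ⟨N, h1, h2, h4⟩ := exists_measurable_superset_of_null h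
    refine measure_mono_null (image_mono (subset_inter h1 h3)) ((nu_pre A x
      (H824.meas_image x (h2.inter measurableSet_ball)
        (inter_subset_right.trans ball_subset_closedBall)) (image_mono inter_subset_right)).2
      (measure_mono_null ?_ h4))
    rintro u ⟨hu, v, hv, he⟩
    rw [← L.e_inj x (ball_subset_closedBall hv.2) (ball_subset_closedBall hu) he]
    exact hv.1

variable (K : Str S r)

theorem nu_axis (hr : Rad S r) (hn : NuPos S) (A : Area L) (x : Xd X) {C : Set E2}
    (hC : C ⊆ ball 0 1) : A.ν ((fun a => (ch K x (0, a)).2) '' C) = 0 ↔ volume C = 0 := by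
  have hm : ∀ a ∈ C, ((0, a) : W) ∈ ball (0 : W) 1 := fun a ha => by
    have := hC ha
    rw [mem_ball_zero_iff] at this ⊢
    simpa using this
  have hU : ∀ a ∈ C, (ch K x (0, a)).1 = L.em x.1 := fun a ha => (ch_U K hr hn x (hm a ha)).2 rfl
  have h1 : (fun a => (ch K x (0, a)).2) '' C = L.e x.1 '' ((fun a => (K.κ x (0, a)).1) '' C) := by
    rw [image_image]
    refine image_congr fun a ha => ?_
    have h := ch_rel K hr x (hm a ha)
    rw [← h.en, hU a ha, S.en_em _ _ h.mem]
  rw [h1, nu_disc A x.1 (by rintro _ ⟨a, ha, rfl⟩; exact (ch_rel K hr x (hm a ha)).mem)]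
  constructor
  · intro h
    refine measure_mono_null (fun a ha => ?_)
      (addHaar_image_eq_zero_of_differentiableOn_of_addHaar_eq_zero volume
        (f := fun q => (lfU K x (L.em x.1) q).2) ?_ h)
    · exact ⟨_, ⟨a, ha, rfl⟩, by
        rw [← hU a ha]
        exact congrArg Prod.snd (lfU_self K hr x (hm a ha))⟩
    · rintro _ ⟨a, ha, rfl⟩
      have h2 := (lfU_ev K hr x (hm a ha)).self_of_nhds.1
      rw [hU a ha] at h2
      exact (h2.differentiableAt (by simp)).snd.differentiableWithinAt
  · refine addHaar_image_eq_zero_of_differentiableOn_of_addHaar_eq_zero volume fun a ha => ?_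
    exact ((κ_diff K x (hm a ha)).comp a (f := fun a : E2 => ((0, a) : W))
      (by fun_prop)).fst.differentiableWithinAt

variable [Countable Γ] [MeasurableSpace X] [BorelSpace X] [SecondCountableTopology B]

theorem leb_of_over (hr : Rad S r) (hn : NuPos S) {A : Area L} {Z : Sys Γ (Xd X) B E2 W}
    (hZ : Over K A Z) : Leb Z := by
  refine ⟨fun x C hC => ?_, fun x C hC => ?_⟩
  · rw [hZ.ν, hZ.c, hZ.iU]
    exact nu_axis K hr hn A x hC
  · rw [hZ.ν, hZ.c, hZ.iS, ← nu_axis K hr hn A (fd L x) hC]
    refine Eq.congr_left (congrArg _ (image_congr fun a ha => ?_))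
    have h1 : ((a, 0) : W) ∈ ball (0 : W) 1 := by
      have := hC ha
      rw [mem_ball_zero_iff] at this ⊢
      simpa using this
    exact (congrArg Prod.snd (ch_flip K hr x h1)).symm

end Vale.Agent.P207Z.CS
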