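import Vale.Agent.P207Z.CS.Tan
import Vale.Agent.P207Z.Calc
import Vale.Agent.P207.N4.H469.Sm

/-!
# P207, block CS: if the stable bundle is of class S, the smooth alternative holds
-/

set_option linter.all false

open Set Filter Topology Metric MeasureTheory
open scoped ContDiff

noncomputable section

namespace Vale.Agent.P207Z.CS

open Vale.Agent.P207.N4 Vale.Agent.P207.N3
open Vale.Agent.P207.N4.H709 (NuPos)

variable [Dim]

variable {Γ X B : Type} [Group Γ] [MetricSpace X] [ProperSpace X] [MulAction Γ X]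
  [IsIsometricSMul Γ X] [TopologicalSpace B] [CompactSpace B] [T2Space B] [MulAction Γ B]
  [ContinuousConstSMul Γ B] {L : Leaf Γ X B} {T : Tens L} {S : Bus L T} {r : ℝ}

variable (K : Str S r)

namespace Link

theorem kap_surj (x : Xd X) {z : W} (hz : z ∈ ball (0 : W) 1) :
    Function.Surjective (fderiv ℝ (K.κ x) z) := by
  refine (LinearMap.injective_iff_surjective (f := (fderiv ℝ (K.κ x) z).toLinearMap)).1 ?_
  rw [← LinearMap.ker_eq_bot, LinearMap.ker_eq_bot']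
  intro v hv
  have hv' : fderiv ℝ (K.κ x) z v = 0 := hv
  have h := K.symp x z hz v (-v.2, v.1)
  rw [hv'] at h
  simp only [om, Prod.fst_zero, Prod.snd_zero, inner_zero_left, sub_self, inner_neg_right,
    real_inner_self_eq_norm_sq] at h
  have h1 := (mul_eq_zero.1 h.symm).resolve_left K.c_ne
  have h2 : ‖v.1‖ ^ 2 = 0 := by nlinarith [sq_nonneg ‖v.1‖, sq_nonneg ‖v.2‖]
  have h3 : ‖v.2‖ ^ 2 = 0 := by nlinarith [sq_nonneg ‖v.1‖, sq_nonneg ‖v.2‖]
  exact Prod.ext (by simpa using h2) (by simpa using h3)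

theorem hm_cont (hr : Rad S r) (x : Xd X) : ContinuousOn (Hm K x) (ball 0 1) := by
  have h0 : Continuous fun z : W => ((x, z) : Xd X × W) := by fun_prop
  have h1 : ContinuousOn (fun z => ch K x z) (ball 0 1) :=
    (ch_cont K hr).comp h0.continuousOn fun z hz => ⟨mem_univ _, hz⟩
  have h2 : ContinuousOn (fun z => K.κ x z) (ball 0 1) :=
    K.κ_jc.continuousOn.comp h0.continuousOn fun z hz => ⟨mem_univ _, hz⟩
  exact (H709.hess_jc S.be_jc).continuousOn.comp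
    (f := fun z => (((x.1, (ch K x z).2), (K.κ x z).1) : (X × B) × E2))
    ((continuousOn_const.prodMk h1.snd).prodMk h2.fst)
    fun z hz => ⟨mem_univ _, (ch_rel K hr x hz).mem⟩

theorem mem_ax {ρ : ℝ} {a : E2} (ha : a ∈ ball (0 : E2) ρ) : ((0, a) : W) ∈ ball (0 : W) ρ := by
  rw [mem_ball_zero_iff] at ha ⊢
  rw [Prod.norm_mk, norm_zero]
  exact max_lt ((norm_nonneg a).trans_lt ha) ha

/-- the formula for the tensor on the disc -/
theorem N_eq (hn : NuPos S) (x : X) {q : E2} (hq : q ∈ ball (0 : E2) 3) :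
    T.N x q = S.c₀ • Ring.inverse (hess (S.be x (L.em x)) q
      + hess (S.be x (S.en x (L.em x) q)) q) + S.Rb x x q := by
  have e : ∀ q ∈ ball (0 : E2) 3, sgm L S.en x x q = q := fun q hq => by
    unfold sgm
    rw [S.en_em x q hq]
    exact (L.e_inj x).leftInvOn_invFunOn (ball_subset_closedBall hq)
  have d : fderiv ℝ (sgm L S.en x x) q = ContinuousLinearMap.id ℝ E2 := by
    have h1 : sgm L S.en x x =ᶠ[𝓝 q] id := by
      filter_upwards [isOpen_ball.mem_nhds hq] with t ht using e t ht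
    rw [h1.fderiv_eq, fderiv_id]
  have h := S.link x x q ⟨hq, q, hq, (S.en_em x q hq).symm⟩ (hn x q hq).ne'
  rw [e q hq, d, ContinuousLinearMap.adjoint_id, ContinuousLinearMap.comp_id,
    ContinuousLinearMap.id_comp] at h
  exact h

theorem N_smooth (hn : NuPos S) (x : X) {q : E2} (hq : q ∈ ball (0 : E2) 3) {k : ℕ}
    (h : ContDiffAt ℝ k (fun q => hess (S.be x (S.en x (L.em x) q)) q) q) :
    ContDiffAt ℝ k (T.N x) q := by
  have kk : (k : WithTop ℕ∞) ≤ ∞ := by exact_mod_cast le_top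
  have h1 : ContDiffAt ℝ k (hess (S.be x (L.em x))) q :=
    ((H709.hess_jc S.be_jc).contDiffAt (p := ((x, L.em x), q)) ⟨mem_univ _, hq⟩).of_le kk
  have hu : IsUnit (hess (S.be x (L.em x)) q + hess (S.be x (S.en x (L.em x) q)) q) := by
    set Hs := hess (S.be x (L.em x)) q + hess (S.be x (S.en x (L.em x) q)) q with hHs
    suffices hi : Function.Injective Hs from ContinuousLinearMap.isUnit_iff_bijective.2
      ⟨hi, (LinearMap.injective_iff_surjective (f := Hs.toLinearMap)).1 hi⟩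
    refine (injective_iff_map_eq_zero Hs).2 fun v hv => ?_
    by_contra hne
    have h2 := S.pos x (L.em x) q hq (hn x q hq).ne' v hne
    rw [← hHs, hv, inner_zero_left] at h2
    exact lt_irrefl _ h2
  obtain ⟨u, hu⟩ := hu
  have h2 : ContDiffAt ℝ k (Ring.inverse : (E2 →L[ℝ] E2) → E2 →L[ℝ] E2)
      (hess (S.be x (L.em x)) q + hess (S.be x (S.en x (L.em x) q)) q) := by
    rw [← hu]
    exact contDiffAt_ringInverse ℝ u
  have h3 := h2.comp q (h1.add h)
  have h4 : ContDiffAt ℝ k (S.Rb x x) q :=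
    (S.Rb_jc.contDiffAt (p := ((x, x), q))
      ⟨⟨hq, q, hq, (S.en_em x q hq).symm⟩, (hn x q hq).ne'⟩).of_le kk
  refine ((h3.const_smul S.c₀).add h4).congr_of_eventuallyEq ?_
  filter_upwards [isOpen_ball.mem_nhds hq] with t ht using N_eq hn x ht

/-- a field of projections on the stable spaces, at a dense set of points of the axis -/
theorem smooth_of_proj (hr : Rad S r) (hn : NuPos S) (x : Xd X) {k : ℕ} {ρ : ℝ} (hρ : 0 < ρ)
    (hρ1 : ρ ≤ 1) {P : W → W →L[ℝ] W} (hP : ContDiffOn ℝ k P (ball 0 ρ))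
    (hi : ∀ q ∈ ball (0 : W) ρ, P q * P q = P q)
    (hd : ∀ O : Set E2, IsOpen O → O.Nonempty → O ⊆ ball 0 ρ →
      ∃ a ∈ O, ∀ u, P (0, a) u = u ↔ InS K x (0, a) u) :
    ∃ q ∈ ball (0 : E2) 3, ContDiffAt ℝ k (T.N x.1) q := by
  have kk : (k : WithTop ℕ∞) ≤ ∞ := by exact_mod_cast le_top
  have sub : ball (0 : W) ρ ⊆ ball 0 1 := ball_subset_ball hρ1
  have hD : ∀ z ∈ ball (0 : W) 1, ContDiffAt ℝ ∞ (fderiv ℝ (K.κ x)) z := fun z hz =>
    K.κ_jc.fderiv.contDiffAt (p := (x, z)) ⟨mem_univ _, hz⟩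
  have C : ∀ a ∈ ball (0 : E2) ρ, ∀ u, InS K x (0, a) (P (0, a) u) := by
    intro a ha u
    by_contra hne
    have c0 : Continuous fun a : E2 => ((0, a) : W) := by fun_prop
    have c1 : ContinuousOn (fun a : E2 => fderiv ℝ (K.κ x) (0, a) (P (0, a) u)) (ball 0 ρ) := by
      refine ContinuousOn.clm_apply (fun a ha => ?_)
        ((hP.continuousOn.comp c0.continuousOn fun a ha => mem_ax ha).clm_apply continuousOn_const)
      exact ((hD _ (sub (mem_ax ha))).continuousAt.comp c0.continuousAt).continuousWithinAt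
    have c2 : ContinuousOn (fun a : E2 => (fderiv ℝ (K.κ x) (0, a) (P (0, a) u)).2 +
        Hm K x (0, a) (fderiv ℝ (K.κ x) (0, a) (P (0, a) u)).1) (ball 0 ρ) :=
      c1.snd.add (((hm_cont K hr x).comp c0.continuousOn
        fun a ha => sub (mem_ax ha)).clm_apply c1.fst)
    obtain ⟨b, hb, h⟩ := hd _ (c2.isOpen_inter_preimage isOpen_ball (isOpen_ne (x := 0)))
      ⟨a, ha, fun h => hne (eq_neg_of_add_eq_zero_left h)⟩ inter_subset_left
    have h1 : InS K x (0, b) (P (0, b) u) :=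
      (h _).1 (congrArg (fun A : W →L[ℝ] W => A u) (hi _ (mem_ax hb.1)))
    exact hb.2 (add_eq_zero_iff_eq_neg.2 h1)
  obtain ⟨a₀, ha₀, h0⟩ := hd _ isOpen_ball ⟨0, mem_ball_self hρ⟩ subset_rfl
  have hz₀ := mem_ax ha₀
  have e0 : (ch K x (0, a₀)).1 = L.em x.1 := (ch_U K hr hn x (sub hz₀)).2 rfl
  have ev := lfU_ev K hr x (sub hz₀)
  have z0 := lfU_self K hr x (sub hz₀)
  rw [e0] at ev z0
  have hq₀ := (ch_rel K hr x (sub hz₀)).mem
  set q₀ := (K.κ x (0, a₀)).1 with hq0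
  set ζ := lfU K x (L.em x.1) with hζ
  have hζs : ContDiffAt ℝ k ζ q₀ := ev.self_of_nhds.1.of_le kk
  have hA : ContDiffAt ℝ k (fun q => fderiv ℝ (K.κ x) (ζ q) ∘L P (ζ q)) q₀ := by
    refine ContDiffAt.clm_comp (ContDiffAt.comp q₀ ?_ hζs) (ContDiffAt.comp q₀ ?_ hζs)
    · rw [z0]; exact (hD _ (sub hz₀)).of_le kk
    · rw [z0]; exact hP.contDiffAt (isOpen_ball.mem_nhds hz₀)
  obtain ⟨j, hj⟩ : ∃ j : E2 →L[ℝ] W, (ContinuousLinearMap.fst ℝ E2 E2 ∘L
      (fderiv ℝ (K.κ x) (ζ q₀) ∘L P (ζ q₀))) ∘L j = ContinuousLinearMap.id ℝ E2 := by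
    refine ContinuousLinearMap.exists_right_inverse_of_surjective _ ?_
    rw [LinearMap.range_eq_top]
    intro e
    obtain ⟨u, hu⟩ := kap_surj K x (sub hz₀) (e, -Hm K x (0, a₀) e)
    have h1 : P (0, a₀) u = u := (h0 u).2 (by unfold InS; rw [hu])
    refine ⟨u, ?_⟩
    show (fderiv ℝ (K.κ x) (ζ q₀) (P (ζ q₀) u)).1 = e
    rw [z0, h1, hu]
  set M : E2 → E2 →L[ℝ] E2 := fun q => (ContinuousLinearMap.fst ℝ E2 E2 ∘L
      (fderiv ℝ (K.κ x) (ζ q) ∘L P (ζ q))) ∘L j with hM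
  set R : E2 → E2 →L[ℝ] E2 := fun q => (ContinuousLinearMap.snd ℝ E2 E2 ∘L
      (fderiv ℝ (K.κ x) (ζ q) ∘L P (ζ q))) ∘L j with hR
  have sM : ContDiffAt ℝ k M q₀ := (contDiffAt_const.clm_comp hA).clm_comp contDiffAt_const
  have sR : ContDiffAt ℝ k R q₀ := (contDiffAt_const.clm_comp hA).clm_comp contDiffAt_const
  have M0 : M q₀ = ((1 : (E2 →L[ℝ] E2)ˣ) : E2 →L[ℝ] E2) := hj
  have sI : ContDiffAt ℝ k (fun q => Ring.inverse (M q)) q₀ := by
    refine ContDiffAt.comp (g := (Ring.inverse : (E2 →L[ℝ] E2) → E2 →L[ℝ] E2)) q₀ ?_ sM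
    rw [M0]
    exact contDiffAt_ringInverse ℝ _
  have eu : ∀ᶠ q in 𝓝 q₀, IsUnit (M q) :=
    sM.continuousAt.eventually (Units.isOpen.mem_nhds (by
      show IsUnit (M q₀)
      rw [M0]; exact Units.isUnit _))
  have eρ : ∀ᶠ q in 𝓝 q₀, ζ q ∈ ball (0 : W) ρ :=
    hζs.continuousAt.eventually (isOpen_ball.mem_nhds (by rw [z0]; exact hz₀))
  refine ⟨q₀, hq₀, N_smooth hn x.1 hq₀ ((sR.mul sI).neg.congr_of_eventuallyEq ?_)⟩
  filter_upwards [ev, eu, eρ] with q h1 h2 h3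
  obtain ⟨-, h4, h5, h6⟩ := h1
  have h7 : (ζ q).1 = 0 := (ch_U K hr hn x h4).1 h6
  have h8 : ζ q = (0, (ζ q).2) := Prod.ext h7 rfl
  have h9 : (ζ q).2 ∈ ball (0 : E2) ρ := by
    rw [mem_ball_zero_iff] at h3 ⊢
    exact (norm_snd_le _).trans_lt h3
  have h10 : Hm K x (ζ q) = hess (S.be x.1 (S.en x.1 (L.em x.1) q)) q := by
    have h11 := (ch_rel K hr x h4).en
    rw [h5, h6] at h11
    unfold Hm
    rw [h5, ← h11]
  rw [← h10]
  refine ContinuousLinearMap.ext fun e => ?_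
  have h12 := C _ h9 (j (Ring.inverse (M q) e))
  rw [← h8] at h12
  have h13 : R q (Ring.inverse (M q) e) = -Hm K x (ζ q) (M q (Ring.inverse (M q) e)) := h12
  have h14 : M q (Ring.inverse (M q) e) = e :=
    congrArg (fun A : E2 →L[ℝ] E2 => A e) (Ring.mul_inverse_cancel _ h2)
  show Hm K x (ζ q) e = -R q (Ring.inverse (M q) e)
  rw [h13, h14, neg_neg]

end Link

variable [MeasurableSpace B] [BorelSpace B] [Countable Γ] [MeasurableSpace X] [BorelSpace X]
  [SecondCountableTopology B]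

open Link in
theorem link (hr : Rad S r) (hn : NuPos S) (hC : CrossJC S) {A : Area L}
    {Z : Sys Γ (Xd X) B E2 W} (hZ : Over K A Z) (TV : Bun Z W)
    (hTV : ∀ x y, ∀ q ∈ Z.dom x y, TV.A x y q = fderiv ℝ (Z.τ x y) q)
    (h : IsS TV fun _ => Z.Es) : SmoothAlt T := by
  refine (H469.dichotomy T).resolve_right ?_
  rintro ⟨k, hk⟩
  obtain ⟨J, hJ⟩ := h
  obtain ⟨n, -, hn'⟩ := J.extU k
  have g1 := Measure.ae_ae_of_ae_prod (Z.ae_iff.1 ((J.reg k).and hJ))
  have g2 := Measure.ae_ae_of_ae_prod (Z.ae_iff.1 hn')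
  have ne : Z.ν ≠ 0 := fun h0 => by
    obtain ⟨x⟩ := Z.nonempty
    exact Z.ν_pos univ isOpen_univ ⟨Z.em x, mem_univ _⟩ (by rw [h0]; rfl)
  have : (ae Z.ν).NeBot := ae_neBot.2 ne
  obtain ⟨ξ, k1, k2⟩ := (g1.and g2).exists
  have k3 : ∀ᵐ η ∂Z.ν, η ≠ ξ := by
    rw [ae_iff]
    simpa using Z.ν_point ξ
  obtain ⟨η, k4, k5⟩ := (k2.and k3).exists
  obtain ⟨x, hx1, hx2⟩ := Z.exists_frame ξ η k5.symm
  obtain ⟨P, hP, -, hU⟩ := k4 x (Prod.ext hx1 hx2)
  have sub : ball (0 : W) (rad (n x)) ⊆ ball 0 1 := ball_subset_ball (rad_le_one _)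
  obtain ⟨q, hq, hs⟩ := smooth_of_proj K hr hn x (rad_pos _) (rad_le_one _) hP.ckb.smooth
    hP.idem (fun O hO hne hOρ => by
      have hO' : IsOpen (ball (0 : E2) (rad (n x)) ×ˢ O : Set W) := isOpen_ball.prod hO
      have hs : (ball (0 : E2) (rad (n x)) ×ˢ O : Set W) ⊆ ball 0 (rad (n x)) := fun z hz => by
        rw [← ball_prod_same]
        exact ⟨hz.1, hOρ hz.2⟩
      have h1 := (ch_open K hr hO' (hs.trans sub)).preimage
        (f := fun η : B => ((x, (ξ, η)) : Xd X × (B × B))) (by fun_prop)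
      have hξ : L.em x.1 = ξ := (hZ.em x).symm.trans hx1
      obtain ⟨a₀, ha₀⟩ := hne
      have h2 := Z.ν_pos _ h1 ⟨(ch K x (0, a₀)).2, (0, a₀), ⟨mem_ball_self (rad_pos _), ha₀⟩,
        Prod.ext (((ch_U K hr hn x (sub (mem_ax (hOρ ha₀)))).2 rfl).trans hξ) rfl⟩
      obtain ⟨η', ⟨z, hz, hz'⟩, k6, k7⟩ :=
        ((frequently_ae_mem_iff.2 h2).and_eventually (k1.and hU)).exists
      have hz1 : z ∈ ball (0 : W) 1 := sub (hs hz)
      have hz'' : ch K x z = (ξ, η') := hz'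
      have e1 : z.1 = 0 := (ch_U K hr hn x hz1).1 (by rw [hz'', hξ])
      obtain ⟨y, hy1, hy2⟩ := Z.exists_frame ξ η' (by
        have h3 := (ch_rel K hr x hz1).ne
        rwa [hz''] at h3)
      have hy : Z.pt y = (ξ, η') := Prod.ext hy1 hy2
      have c0 : ch K y 0 = ch K x z := by
        rw [hz'', ← hy, ← hZ.c]
        exact Z.c_zero y
      obtain ⟨⟨⟨m, hm⟩, r1⟩, r2⟩ := k6 y hy
      have k8 := (k7 y (by rw [hy, hx1]) ⟨z, hs hz, by rw [hZ.c, hy]; exact hz''⟩).ker_eq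
      rw [ker_cmp (hm.idem 0 (mem_ball_self (rad_pos _))), r1, r2] at k8
      have z1 : (0 : W) ∈ ball (0 : W) 1 := mem_ball_self one_pos
      have d1 : z ∈ tdom (ch K) x y := ⟨hz1, 0, z1, c0⟩
      have d2 : z ∈ Z.dom x y := by unfold Sys.dom; rw [hZ.c]; exact d1
      have d3 : z ∈ Z.dom x x := ⟨hz1, z, hz1, rfl⟩
      have t1 : ttau (ch K) x y z = 0 := tau_eq K hr z1 c0
      have t2 : Z.τ x y = ttau (ch K) x y := by unfold Sys.τ; rw [hZ.c]
      have t3 : Z.τ y x 0 = z := by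
        unfold Sys.τ
        rw [hZ.c]
        exact tau_eq K hr hz1 c0.symm
      have t4 := TV.coc x y x z d2 d3
      rw [TV.self x z hz1, t2, t1, hTV x y z d2, t2] at t4
      refine ⟨z.2, hz.2, fun u => ?_⟩
      rw [show ((0, z.2) : W) = z from Prod.ext e1.symm rfl, ← tau_inS K hr hC d1 u, t1,
        inS_zero K hr]
      set v := fderiv ℝ (ttau (ch K) x y) z u with hv
      have t5 : TV.A y x 0 v = u := congrArg (fun A : W →L[ℝ] W => A u) t4
      have t6 : v ∈ (TV.pull y x (cmp P) 0).ker ↔ P z u = u := by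
        show TV.A y x 0 v - P (Z.τ y x 0) (TV.A y x 0 v) = 0 ↔ _
        rw [t5, t3, sub_eq_zero, eq_comm]
      rw [← t6, k8]
      constructor
      · rintro ⟨w, hw⟩
        rw [← hw]
        show (Z.iS w).2 = 0
        rw [hZ.iS]
        rfl
      · intro h3
        refine ⟨v.1, ?_⟩
        show Z.iS v.1 = v
        rw [hZ.iS]
        exact Prod.ext rfl h3.symm)
  obtain ⟨O, hO, hO'⟩ := hs.contDiffOn le_rfl (by simp)
  exact hk x.1 (interior O ∩ ball 0 3) (isOpen_interior.inter isOpen_ball) inter_subset_right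
    ⟨q, mem_interior_iff_mem_nhds.2 hO, hq⟩
    (hO'.mono (inter_subset_left.trans interior_subset))

end Vale.Agent.P207Z.CS
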