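import Vale.Agent.P207Z.CS.Tan

/-!
# P207, block CS: the Margulis forms
-/

set_option linter.all false

open Set Filter Topology Metric MeasureTheory
open scoped ContDiff

noncomputable section

namespace Vale.Agent.P207Z.CS

open Vale.Agent.P207.N4 Vale.Agent.P207.N3
open Vale.Agent.P207.N4.H709 (NuPos)
open Vale.Agent.P207.H229 (det_comp' contDiff_det' det_ne_zero_iff')

namespace Mg

section alg


variable {E V : Type} [NormedAddCommGroup E] [NormedSpace ℝ E] [FiniteDimensional ℝ E]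
  [NormedAddCommGroup V] [NormedSpace ℝ V] [FiniteDimensional ℝ V] {m : ℕ}

/-- the determinant of a basis, as a continuous form -/
def bdet (b : Module.Basis (Fin m) ℝ E) : E [⋀^Fin m]→L[ℝ] ℝ :=
  { b.det with
    cont := by
      show Continuous fun v : Fin m → E => b.det v
      simp only [Module.Basis.det_apply]
      refine Continuous.matrix_det (continuous_matrix fun i j => ?_)
      simp only [Module.Basis.toMatrix_apply]
      exact (b.coord i).continuous_of_finiteDimensional.comp (continuous_apply j) }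

/-- the pull back of the determinant -/
def pb (b : Module.Basis (Fin m) ℝ E) (A : V →L[ℝ] E) : V [⋀^Fin m]→L[ℝ] ℝ :=
  (bdet b).compContinuousLinearMap A

theorem pb_apply (b : Module.Basis (Fin m) ℝ E) (A : V →L[ℝ] E) (v : Fin m → V) :
    pb b A v = b.det fun i => A (v i) := rfl

theorem det_map (b : Module.Basis (Fin m) ℝ E) (N : E →L[ℝ] E) (v : Fin m → E) :
    (b.det fun i => N (v i)) = N.det * b.det v := b.det_comp (N : E →ₗ[ℝ] E) v

theorem contDiff_pb (b : Module.Basis (Fin m) ℝ E) :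
    ContDiff ℝ ∞ (pb b : (V →L[ℝ] E) → V [⋀^Fin m]→L[ℝ] ℝ) := by
  obtain ⟨P, hP⟩ := LinearMap.exists_leftInverse_of_injective
    (ContinuousAlternatingMap.toContinuousMultilinearMapLinear (R := ℝ) (A := ℝ) (M := V) (N := ℝ)
      (ι := Fin m)) (LinearMap.ker_eq_bot.2 fun _ _ h =>
        ContinuousAlternatingMap.toContinuousMultilinearMap_injective h)
  have h1 : ContDiff ℝ ∞ fun A : V →L[ℝ] E =>
      (bdet b).toContinuousMultilinearMap.compContinuousLinearMap fun _ : Fin m => A := by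
    have h2 : ContDiff ℝ ∞ fun p : (Fin m → V →L[ℝ] E) ×
        ContinuousMultilinearMap ℝ (fun _ : Fin m => E) ℝ => p.2.compContinuousLinearMap p.1 :=
      contDiff_iff_contDiffAt.2 fun p =>
        ContinuousMultilinearMap.analyticAt_uncurry_compContinuousLinearMap.contDiffAt
    exact h2.comp ((contDiff_pi.2 fun _ => contDiff_id).prodMk contDiff_const)
  have h3 := (LinearMap.toContinuousLinearMap P).contDiff.comp h1
  convert h3 using 1
  funext A
  exact (LinearMap.congr_fun hP (pb b A)).symm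

/-- a map which kills the kernel of a map with a right inverse factors through it -/
theorem factor {A A' : V →L[ℝ] E} {R : E →L[ℝ] V} (hR : ∀ a, A (R a) = a)
    (h : ∀ v, A v = 0 → A' v = 0) (v : V) : A' v = (A' ∘L R) (A v) := by
  have h1 := h (v - R (A v)) (by rw [map_sub, hR, sub_self])
  rw [map_sub, sub_eq_zero] at h1
  exact h1

end alg

variable [Dim]

variable {Γ X B : Type} [Group Γ] [MetricSpace X] [ProperSpace X] [MulAction Γ X]
  [IsIsometricSMul Γ X] [TopologicalSpace B] [CompactSpace B] [T2Space B] [MulAction Γ B]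
  [ContinuousConstSMul Γ B] {L : Leaf Γ X B} {T : Tens L} {S : Bus L T} {r : ℝ}

variable (K : Str S r)

/-- the equations of the stable space -/
def Lam (x : Xd X) (z : W) : W →L[ℝ] E2 :=
  ContinuousLinearMap.snd ℝ E2 E2 ∘L fderiv ℝ (K.κ x) z
    + Hm K x z ∘L (ContinuousLinearMap.fst ℝ E2 E2 ∘L fderiv ℝ (K.κ x) z)

/-- a right inverse of `Lam` -/
def Rt (x : Xd X) (z : W) : E2 →L[ℝ] W :=
  fderiv ℝ (K.ι x) (K.κ x z) ∘L ContinuousLinearMap.inr ℝ E2 E2

/-- the comparison of the equations in two charts -/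
def Nn (x y : Xd X) (q : W) : E2 →L[ℝ] E2 :=
  (Lam K x q ∘L fderiv ℝ (ttau (ch K) y x) (ttau (ch K) x y q)) ∘L Rt K y (ttau (ch K) x y q)

theorem Lam_apply (x : Xd X) (z v : W) :
    Lam K x z v = (fderiv ℝ (K.κ x) z v).2 + Hm K x z (fderiv ℝ (K.κ x) z v).1 := rfl

theorem Lam_eq_zero (x : Xd X) (z v : W) : Lam K x z v = 0 ↔ InS K x z v := by
  rw [Lam_apply, add_eq_zero_iff_eq_neg]
  rfl

theorem κ_has (x : Xd X) {z : W} (hz : z ∈ ball (0 : W) 1) :
    HasFDerivAt (K.κ x) (fderiv ℝ (K.κ x) z) z :=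
  K.κ_jc.hasFDerivAt (p := (x, z)) ⟨mem_univ _, hz⟩

theorem Lam_Rt (x : Xd X) {z : W} (hz : z ∈ ball (0 : W) 1) (a : E2) :
    Lam K x z (Rt K x z a) = a := by
  have h1 : HasFDerivAt (K.ι x) (fderiv ℝ (K.ι x) (K.κ x z)) (K.κ x z) :=
    K.ι_jc.hasFDerivAt (p := (x, K.κ x z)) ⟨z, hz, rfl⟩
  have h2 := κ_has K x hz
  rw [← K.ι_κ x z hz] at h2
  have h3 : (K.κ x ∘ K.ι x) =ᶠ[𝓝 (K.κ x z)] id := by
    filter_upwards [(isOpen_slice K.ι_jc.isOpen x).mem_nhds (show K.κ x z ∈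
      {u | (x, u) ∈ {a : Xd X × W | a.2 ∈ K.κ a.1 '' ball 0 1}} from ⟨z, hz, rfl⟩)] with u hu
    obtain ⟨w, hw, rfl⟩ := hu
    show K.κ x (K.ι x (K.κ x w)) = K.κ x w
    rw [K.ι_κ x w hw]
  have h4 := ((h2.comp _ h1).congr_of_eventuallyEq h3.symm).unique (hasFDerivAt_id _)
  rw [K.ι_κ x z hz] at h4
  have h5 : fderiv ℝ (K.κ x) z (Rt K x z a) = (0, a) := congrArg (fun M => M ((0 : E2), a)) h4
  rw [Lam_apply, h5, map_zero, add_zero]

theorem tau_back (hr : Rad S r) {x y : Xd X} {q : W} (hq : q ∈ tdom (ch K) x y) :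
    ttau (ch K) x y q ∈ tdom (ch K) y x ∧ ttau (ch K) y x (ttau (ch K) x y q) = q :=
  ⟨⟨(tau_spec K hq).1, q, hq.1, (tau_spec K hq).2.symm⟩,
    tau_eq K hr hq.1 (tau_spec K hq).2.symm⟩

theorem Lam_tau (hr : Rad S r) (hC : CrossJC S) {x y : Xd X} {q : W} (hq : q ∈ tdom (ch K) x y)
    (v : W) : Lam K x q (fderiv ℝ (ttau (ch K) y x) (ttau (ch K) x y q) v)
      = Nn K x y q (Lam K y (ttau (ch K) x y q) v) := by
  refine factor (A' := Lam K x q ∘L fderiv ℝ (ttau (ch K) y x) (ttau (ch K) x y q))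
    (Lam_Rt K y (tau_spec K hq).1) (fun v hv => ?_) v
  have h := (tau_inS K hr hC (tau_back K hr hq).1 v).2 ((Lam_eq_zero K _ _ _).1 hv)
  rw [(tau_back K hr hq).2] at h
  exact (Lam_eq_zero K _ _ _).2 h

theorem grad_has (x : X) (ξ : B) {q : E2} (hq : q ∈ ball (0 : E2) 3) :
    HasFDerivAt (gradient (S.be x ξ)) (hess (S.be x ξ) q) q :=
  (H709.gradient_jc S.be_jc).hasFDerivAt (p := ((x, ξ), q)) ⟨mem_univ _, hq⟩

/-- the holonomy along the unstable leaf, from the disc of `y` to the disc of `x` -/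
theorem exists_hol (hr : Rad S r) (hC : CrossJC S) {x y : Xd X} {q : W}
    (hq : q ∈ tdom (ch K) x y) : ∃ (θ : E2 → E2) (Θ : E2 →L[ℝ] E2),
      HasFDerivAt θ Θ (K.κ y (ttau (ch K) x y q)).1 ∧
      θ (K.κ y (ttau (ch K) x y q)).1 = (K.κ x q).1 ∧
      (∀ᶠ Q in 𝓝 (K.κ y (ttau (ch K) x y q)).1,
        S.en x.1 (ch K x q).1 (θ Q) = S.en y.1 (ch K x q).1 Q) ∧
      Nn K x y q ∘L (Hp K y (ttau (ch K) x y q) + Hm K y (ttau (ch K) x y q))
        = (Hp K x q + Hm K x q) ∘L Θ := by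
  obtain ⟨h1, h2⟩ := tau_spec K hq
  obtain ⟨h3, h4⟩ := tau_back K hr hq
  have hN := Lam_tau K hr hC hq
  set q₁ := ttau (ch K) x y q with hq₁
  have E1 := lfU_ev K hr y h1
  have E0 := lfU_self K hr y h1
  set l := lfU K y (ch K y q₁).1
  have a1 : HasFDerivAt l (fderiv ℝ l (K.κ y q₁).1) (K.κ y q₁).1 :=
    (E1.self_of_nhds.1.differentiableAt (by simp)).hasFDerivAt
  have a2 : HasFDerivAt (K.κ y) (fderiv ℝ (K.κ y) q₁) (l (K.κ y q₁).1) := E0.symm ▸ κ_has K y h1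
  have a3 := ((a2.comp _ a1).congr_of_eventuallyEq
    (E1.mono fun Q hQ => hQ.2.2.1.symm)).unique ((hasFDerivAt_id _).prodMk
      (grad_has (S := S) y.1 (ch K y q₁).1 (ch_rel K hr y h1).mem))
  have a4 : ∀ a, fderiv ℝ (K.κ y) q₁ (fderiv ℝ l (K.κ y q₁).1 a) = (a, Hp K y q₁ a) := fun a =>
    congrArg (fun M => M a) a3
  have b1 : HasFDerivAt (ttau (ch K) y x) (fderiv ℝ (ttau (ch K) y x) q₁) (l (K.κ y q₁).1) :=
    E0.symm ▸ (tau_jc K hr hC).hasFDerivAt (p := ((y, x), q₁)) h3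
  have b0 : ttau (ch K) y x (l (K.κ y q₁).1) = q := by rw [E0, h4]
  have b2 : HasFDerivAt (K.κ x) (fderiv ℝ (K.κ x) q) (ttau (ch K) y x (l (K.κ y q₁).1)) :=
    b0.symm ▸ κ_has K x hq.1
  have b3 := HasFDerivAt.comp (f := ttau (ch K) y x ∘ l) (K.κ y q₁).1 b2 (b1.comp _ a1)
  have E2' : ∀ᶠ Q in 𝓝 (K.κ y q₁).1, l Q ∈ tdom (ch K) y x :=
    a1.continuousAt.eventually ((isOpen_slice (chD_open K hr) (y, x)).mem_nhds
      (show l (K.κ y q₁).1 ∈ {u | ((y, x), u) ∈ chD K} from E0.symm ▸ h3))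
  have E3 : ∀ᶠ Q in 𝓝 (K.κ y q₁).1,
      (K.κ x (ttau (ch K) y x (l Q))).2
        = gradient (S.be x.1 (ch K x q).1) (K.κ x (ttau (ch K) y x (l Q))).1 ∧
      S.en x.1 (ch K x q).1 (K.κ x (ttau (ch K) y x (l Q))).1 = S.en y.1 (ch K x q).1 Q := by
    filter_upwards [E1, E2'] with Q hQ hQ'
    obtain ⟨c1, c2⟩ := tau_spec K hQ'
    have c3 := ch_rel K hr x c1
    have c4 := (ch_rel K hr y hQ.2.1).en
    rw [c2] at c3
    rw [hQ.2.2.1, hQ.2.2.2, h2] at c4
    have c5 := c3.grad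
    have c6 := c3.en
    rw [hQ.2.2.2, h2] at c5 c6
    exact ⟨c5.symm, c6.trans c4.symm⟩
  have b4 : HasFDerivAt (gradient (S.be x.1 (ch K x q).1)) (Hp K x q)
      (K.κ x (ttau (ch K) y x (l (K.κ y q₁).1))).1 :=
    b0.symm ▸ grad_has (S := S) x.1 (ch K x q).1 (ch_rel K hr x hq.1).mem
  have b5 := (b3.snd.congr_of_eventuallyEq (E3.mono fun Q hQ => hQ.1.symm)).unique
    (HasFDerivAt.comp (f := fun Q => (K.κ x (ttau (ch K) y x (l Q))).1) (K.κ y q₁).1 b4 b3.fst)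
  refine ⟨_, _, b3.fst, congrArg (fun z => (K.κ x z).1) b0, E3.mono fun Q hQ => hQ.2, ?_⟩
  ext1 a
  have d1 := hN (fderiv ℝ l (K.κ y q₁).1 a)
  rw [Lam_apply K y, a4, Lam_apply] at d1
  have d2 := congrArg (fun M => M a) b5
  simp only [ContinuousLinearMap.comp_apply, ContinuousLinearMap.coe_fst',
    ContinuousLinearMap.coe_snd', ContinuousLinearMap.add_apply] at d1 d2 ⊢
  rw [← d1, d2]

/-! ### continuity -/

theorem cq (hr : Rad S r) : ContinuousOn (fun p : Xd X × W =>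
    (((p.1.1, (ch K p.1 p.2).2), (K.κ p.1 p.2).1) : (X × B) × E2)) (univ ×ˢ ball 0 1) :=
  (continuous_fst.fst.continuousOn.prodMk (ch_cont K hr).snd).prodMk K.κ_jc.continuousOn.fst

theorem Lam_cont (hr : Rad S r) :
    ContinuousOn (fun p : Xd X × W => Lam K p.1 p.2) (univ ×ˢ ball 0 1) := by
  have h1 := K.κ_jc.fderiv.continuousOn
  have h2 : ContinuousOn (fun p : Xd X × W => Hm K p.1 p.2) (univ ×ˢ ball 0 1) :=
    (H709.hess_jc S.be_jc).continuousOn.comp (cq K hr) fun p hp =>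
      ⟨mem_univ _, (ch_rel K hr p.1 hp.2).mem⟩
  exact (continuousOn_const.clm_comp h1).add (h2.clm_comp (continuousOn_const.clm_comp h1))

theorem Rt_cont : ContinuousOn (fun p : Xd X × W => Rt K p.1 p.2) (univ ×ˢ ball 0 1) :=
  (K.ι_jc.fderiv.continuousOn.comp (f := fun p : Xd X × W => ((p.1, K.κ p.1 p.2) : Xd X × W))
    (continuousOn_fst.prodMk K.κ_jc.continuousOn) fun p hp => ⟨p.2, hp.2, rfl⟩).clm_comp
    continuousOn_const

theorem Nn_cont (hr : Rad S r) (hC : CrossJC S) :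
    ContinuousOn (fun p : (Xd X × Xd X) × W => (Nn K p.1.1 p.1.2 p.2).det) (chD K) := by
  have h0 := (tau_jc K hr hC).continuousOn
  have h1 := (Lam_cont K hr).comp (s := chD K)
    (f := fun p : (Xd X × Xd X) × W => ((p.1.1, p.2) : Xd X × W)) (by fun_prop)
    fun p hp => ⟨mem_univ _, hp.1⟩
  have h2 := (Rt_cont K).comp (s := chD K)
    (f := fun p : (Xd X × Xd X) × W => ((p.1.2, ttau (ch K) p.1.1 p.1.2 p.2) : Xd X × W))
    (continuous_fst.snd.continuousOn.prodMk h0) fun p hp => ⟨mem_univ _, (tau_spec K hp).1⟩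
  have h3 := (tau_jc K hr hC).fderiv.continuousOn.comp (s := chD K)
    (f := fun p : (Xd X × Xd X) × W =>
      (((p.1.2, p.1.1), ttau (ch K) p.1.1 p.1.2 p.2) : (Xd X × Xd X) × W))
    ((continuous_fst.snd.prodMk continuous_fst.fst).continuousOn.prodMk h0)
    fun p hp => (tau_back K hr hp).1
  exact contDiff_det'.continuous.comp_continuousOn ((h1.clm_comp h3).clm_comp h2)

/-! ### the forms -/

variable [MeasurableSpace B] [BorelSpace B] {A : Area L} (D : BusD S A)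

/-- the density of the leaf of the end in the past -/
def rp (x : Xd X) (z : W) : ℝ := D.ρ x.1 (ch K x z).1 (K.κ x z).1

/-- the density of the leaf of the end in the future -/
def rm (x : Xd X) (z : W) : ℝ := D.ρ x.1 (ch K x z).2 (K.κ x z).1

/-- the Margulis form -/
def es (b : Module.Basis (Fin Dim.m) ℝ E2) (x : Xd X) (z : W) : W [⋀^Fin Dim.m]→L[ℝ] ℝ :=
  Real.exp (-rm K D x z) • pb b (Lam K x z)

/-- the cocycle -/
def ff (x y : Xd X) (q : W) : ℝ :=
  Real.exp (rm K D x q - rm K D y (ttau (ch K) x y q)) / (Nn K x y q).det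

theorem es_apply (b : Module.Basis (Fin Dim.m) ℝ E2) (x : Xd X) (z : W) (v : Fin Dim.m → W) :
    es K D b x z v = Real.exp (-rm K D x z) * b.det fun i => Lam K x z (v i) := rfl

theorem star' (hr : Rad S r) (x : Xd X) {z : W} (hz : z ∈ ball (0 : W) 1) :
    (Hp K x z + Hm K x z).det = Real.exp (rp K D x z + rm K D x z) := by
  have h := ch_rel K hr x hz
  obtain ⟨h1, h2⟩ := D.star x.1 _ _ h.mem h.nu.ne'
  rw [h.en] at h1 h2
  rw [rp, rm, ← h2, Real.exp_log h1]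
  rfl

theorem abs_Nn (hr : Rad S r) (hC : CrossJC S) {x y : Xd X} {q : W} (hq : q ∈ tdom (ch K) x y) :
    |(Nn K x y q).det|
      = Real.exp (rm K D x q - rm K D y (ttau (ch K) x y q) - A.h * shift K x y q) := by
  obtain ⟨θ, Θ, a1, a2, a3, a4⟩ := exists_hol K hr hC hq
  obtain ⟨h1, h2⟩ := tau_spec K hq
  have rx := ch_rel K hr x hq.1
  have ry := ch_rel K hr y h1
  rw [h2] at ry
  obtain ⟨w, w1, -, w3⟩ := H229.exists_sgD S x.1 (ch K x q).1 rx.mem
  have w4 : ((y.1, w), (K.κ y (ttau (ch K) x y q)).1) ∈ sgD L S.en := by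
    refine ⟨ry.mem, ?_⟩
    have h := w3.2
    simp only [w1] at h ⊢
    rwa [ry.en, ← rx.en]
  have nx : S.nu x.1 (L.em w) (K.κ x q).1 ≠ 0 := w1.symm ▸ rx.nu.ne'
  have ny : S.nu y.1 (L.em w) (K.κ y (ttau (ch K) x y q)).1 ≠ 0 := w1.symm ▸ ry.nu.ne'
  have e1 : sgm L S.en y.1 w =ᶠ[𝓝 (K.κ y (ttau (ch K) x y q)).1] sgm L S.en x.1 w ∘ θ :=
    a3.mono fun Q hQ => by
      show sgm L S.en y.1 w Q = sgm L S.en x.1 w (θ Q)
      rw [sgm, sgm, w1, hQ]
  have e2 : sgm L S.en y.1 w (K.κ y (ttau (ch K) x y q)).1 = sgm L S.en x.1 w (K.κ x q).1 := by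
    rw [e1.self_of_nhds, Function.comp_apply, a2]
  have e3 : HasFDerivAt (sgm L S.en x.1 w) (fderiv ℝ (sgm L S.en x.1 w) (K.κ x q).1)
      (θ (K.κ y (ttau (ch K) x y q)).1) := a2.symm ▸ S.sg_jc.hasFDerivAt w3
  have e4 := ((e3.comp _ a1).congr_of_eventuallyEq e1).fderiv
  have dx := (det_ne_zero_iff' _).2 (S.sg_inv _ _ _ w3 nx)
  have dy := (det_ne_zero_iff' _).2 (S.sg_inv _ _ _ w4 ny)
  rw [e4, det_comp'] at dy
  have px := D.ρ_eq _ _ _ w3 nx
  have py := D.ρ_eq _ _ _ w4 ny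
  rw [H229.Rd, w1] at px py
  rw [e4, e2, det_comp', abs_mul, Real.log_mul (abs_ne_zero.2 dx)
    (abs_ne_zero.2 (right_ne_zero_of_mul dy))] at py
  have k1 : |Θ.det| = Real.exp (rp K D y (ttau (ch K) x y q) - rp K D x q - A.h * shift K x y q) := by
    rw [← Real.exp_log (abs_pos.2 (right_ne_zero_of_mul dy)), rp, rp, h2, px, py, shift, tm, tm]
    congr 1
    ring
  have k2 := congrArg (fun M : E2 →L[ℝ] E2 => |M.det|) a4
  simp only [det_comp', abs_mul, star' K D hr y h1, star' K D hr x hq.1, k1, Real.abs_exp] at k2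
  rw [eq_div_of_mul_eq (Real.exp_ne_zero _) k2, ← Real.exp_add, ← Real.exp_sub]
  congr 1
  ring

include D in
theorem Nn_ne (hr : Rad S r) (hC : CrossJC S) {x y : Xd X} {q : W} (hq : q ∈ tdom (ch K) x y) :
    (Nn K x y q).det ≠ 0 := abs_pos.1 (abs_Nn K D hr hC hq ▸ Real.exp_pos _)

theorem abs_ff (hr : Rad S r) (hC : CrossJC S) {x y : Xd X} {q : W} (hq : q ∈ tdom (ch K) x y) :
    |ff K D x y q| = Real.exp (A.h * shift K x y q) := by
  rw [ff, abs_div, abs_Nn K D hr hC hq, Real.abs_exp, ← Real.exp_sub]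
  congr 1
  ring

theorem ff_jc (hr : Rad S r) (hC : CrossJC S) :
    JC (fun (p : Xd X × Xd X) q => ff K D p.1 p.2 q) (chD K) := by
  have h1 := ((shift_jc K hr hC).const_smul A.h).exp
  have h2 := Nn_cont K hr hC
  refine JC.of_local (chD_open K hr) fun p hp => ?_
  rcases (Nn_ne K D hr hC hp).lt_or_gt with h | h
  · refine ⟨chD K ∩ (fun p => (Nn K p.1.1 p.1.2 p.2).det) ⁻¹' Iio 0, ⟨hp, h⟩, (h1.neg.mono
      (h2.isOpen_inter_preimage (chD_open K hr) isOpen_Iio)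
      inter_subset_left).congr fun p hp => ?_⟩
    have h3 := abs_ff K D hr hC hp.1
    rw [abs_of_neg (a := ff K D p.1.1 p.1.2 p.2)
      (div_neg_of_pos_of_neg (Real.exp_pos _) hp.2)] at h3
    exact neg_eq_iff_eq_neg.1 h3
  · refine ⟨chD K ∩ (fun p => (Nn K p.1.1 p.1.2 p.2).det) ⁻¹' Ioi 0, ⟨hp, h⟩, (h1.mono
      (h2.isOpen_inter_preimage (chD_open K hr) isOpen_Ioi)
      inter_subset_left).congr fun p hp => ?_⟩
    have h3 := abs_ff K D hr hC hp.1
    rwa [abs_of_pos (a := ff K D p.1.1 p.1.2 p.2) (div_pos (Real.exp_pos _) hp.2)] at h3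

variable (b : Module.Basis (Fin Dim.m) ℝ E2)

theorem es_cont (hr : Rad S r) :
    ContinuousOn (fun p : Xd X × W => es K D b p.1 p.2) (univ ×ˢ ball 0 1) := by
  have h1 : ContinuousOn (fun p : Xd X × W => rm K D p.1 p.2) (univ ×ˢ ball 0 1) :=
    D.ρ_jc.continuousOn.comp (cq K hr) fun p hp =>
      ⟨(ch_rel K hr p.1 hp.2).mem, (ch_rel K hr p.1 hp.2).nu2.ne⟩
  exact h1.neg.rexp.smul ((contDiff_pb b).continuous.comp_continuousOn (Lam_cont K hr))

theorem es_smul (hr : Rad S r) (g : Γ) (x : Xd X) {z : W} (hz : z ∈ ball (0 : W) 1) :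
    es K D b (g • x) z = es K D b x z := by
  have h := ch_rel K hr x hz
  have h1 : fderiv ℝ (K.κ (g • x)) z = fderiv ℝ (K.κ x) z :=
    EventuallyEq.fderiv_eq (mem_of_superset (isOpen_ball.mem_nhds hz) fun w hw => K.κ_smul g x w hw)
  rw [es, es, rm, rm, Lam, Lam, Hm, Hm, h1, ch_smul K hr g x hz, K.κ_smul g x z hz, Prod.smul_snd,
    Prod.smul_fst, D.ρ_smul g _ _ _ h.mem h.nu2.ne, H709.hess_smul_inv S g _ _ h.mem]

theorem es_eqv (hr : Rad S r) (hC : CrossJC S) {x y : Xd X} {q : W} (hq : q ∈ tdom (ch K) x y) :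
    es K D b y (ttau (ch K) x y q) = ff K D x y q • (es K D b x q).compContinuousLinearMap
      (fderiv ℝ (ttau (ch K) y x) (ttau (ch K) x y q)) := by
  ext v
  have h := Nn_ne K D hr hC hq
  rw [ContinuousAlternatingMap.smul_apply, ContinuousAlternatingMap.compContinuousLinearMap_apply,
    es_apply, es_apply]
  simp only [Function.comp_apply, Lam_tau K hr hC hq]
  rw [det_map b, ff, smul_eq_mul, Real.exp_sub, Real.exp_neg, Real.exp_neg]
  field_simp

theorem es_ne (x : Xd X) {z : W} (hz : z ∈ ball (0 : W) 1) : es K D b x z ≠ 0 := fun h => by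
  have h1 := es_apply K D b x z fun i => Rt K x z (b i)
  simp only [h, Lam_Rt K x hz, ContinuousAlternatingMap.coe_zero, Pi.zero_apply] at h1
  rw [b.det_self, mul_one] at h1
  exact Real.exp_ne_zero _ h1.symm

theorem es_zero (hr : Rad S r) (x : Xd X) :
    ∃ s : ℝ, ∀ v : Fin Dim.m → W, es K D b x 0 v = s * b.det fun i => (v i).2 := by
  refine ⟨Real.exp (-rm K D x 0) * (Lam K x 0 ∘L ContinuousLinearMap.inr ℝ E2 E2).det, fun v => ?_⟩
  rw [es_apply, mul_assoc, ← det_map b]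
  congr 2
  funext i
  exact factor (A := ContinuousLinearMap.snd ℝ E2 E2) (fun _ => rfl)
    (fun w hw => (Lam_eq_zero K x 0 w).2 ((inS_zero K hr x w).2 hw)) (v i)

theorem mem_inl {w : E2} (hw : w ∈ ball (0 : E2) 1) : ((w, 0) : W) ∈ ball (0 : W) 1 := by
  rw [mem_ball_zero_iff] at hw ⊢
  simpa [Prod.norm_def] using hw

theorem mem_inr {w : E2} (hw : w ∈ ball (0 : E2) 1) : ((0, w) : W) ∈ ball (0 : W) 1 := by
  rw [mem_ball_zero_iff] at hw ⊢
  simpa [Prod.norm_def] using hw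

theorem es_S (hr : Rad S r) (hn : NuPos S) :
    JC (fun (x : Xd X) (w : E2) => es K D b x (w, 0)) (univ ×ˢ ball 0 1) := by
  have hO : IsOpen ((univ : Set (Xd X)) ×ˢ ball (0 : E2) 1) := isOpen_univ.prod isOpen_ball
  have h0 : JC (fun (_ : Xd X) (w : E2) => ((w, 0) : W)) (univ ×ˢ ball 0 1) :=
    (JC.id hO).prodMk (JC.const hO 0)
  have h1 := K.κ_jc.comp' h0 fun p hp => ⟨mem_univ _, mem_inl hp.2⟩
  have h2 := K.κ_jc.fderiv.comp' h0 fun p hp => ⟨mem_univ _, mem_inl hp.2⟩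
  have hc : Continuous fun x : Xd X => ((x.1, L.ep x.1) : X × B) :=
    continuous_fst.prodMk (((L.em_cont.comp L.flip_cont).congr fun x => (L.ep_flip x).symm).comp
      continuous_fst)
  have he : ∀ p ∈ (univ : Set (Xd X)) ×ˢ ball (0 : E2) 1, (ch K p.1 (p.2, 0)).2 = L.ep p.1.1 :=
    fun p hp => (ch_S K hr hn p.1 (mem_inl hp.2)).2 rfl
  have h3 := (D.ρ_jc.pullback hc).comp' h1.fst fun p hp =>
    ⟨(ch_rel K hr p.1 (mem_inl hp.2)).mem, he p hp ▸ (ch_rel K hr p.1 (mem_inl hp.2)).nu2.ne⟩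
  have h4 := ((H709.hess_jc S.be_jc).pullback hc).comp' h1.fst fun p hp =>
    ⟨mem_univ _, (ch_rel K hr p.1 (mem_inl hp.2)).mem⟩
  have h5 := ((JC.const hO (ContinuousLinearMap.snd ℝ E2 E2)).clm_comp h2).add
    (h4.clm_comp ((JC.const hO (ContinuousLinearMap.fst ℝ E2 E2)).clm_comp h2))
  refine (h3.neg.exp.smul (h5.comp_contDiff (contDiff_pb b))).congr fun p hp => ?_
  rw [es, rm, Lam, Hm, he p hp]

theorem es_U (hr : Rad S r) (hn : NuPos S) (x : Xd X) :
    ContDiffOn ℝ ∞ (fun a : E2 => es K D b x (0, a) fun i => (0, b i)) (ball 0 1) := by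
  have he : ∀ a ∈ ball (0 : E2) 1, (ch K x (0, a)).1 = L.em x.1 :=
    fun a ha => (ch_U K hr hn x (mem_inr ha)).2 rfl
  have h0 : ContDiff ℝ ∞ fun a : E2 => ((0, a) : W) := contDiff_const.prodMk contDiff_id
  have key : ∀ a ∈ ball (0 : E2) 1, (es K D b x (0, a) fun i => (0, b i))
      = Real.exp (D.ρ x.1 (L.em x.1) (K.κ x (0, a)).1) * ((ContinuousLinearMap.fst ℝ E2 E2 ∘L
        fderiv ℝ (K.κ x) (0, a)) ∘L ContinuousLinearMap.inr ℝ E2 E2).det := by
    intro a ha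
    have h1 := (κ_has K x (mem_inr ha)).comp a (hasFDerivAt_prodMk_right (𝕜 := ℝ) (0 : E2) a)
    have h2 := (grad_has (S := S) x.1 (L.em x.1) (ch_rel K hr x (mem_inr ha)).mem).comp a h1.fst
    have h3 := (h1.snd.congr_of_eventuallyEq (mem_of_superset (isOpen_ball.mem_nhds ha)
      fun w hw => ((K.axU x _ (mem_inr hw)).2 rfl).symm)).unique h2
    have h4 : ∀ v : E2, Lam K x (0, a) (0, v) = ((Hp K x (0, a) + Hm K x (0, a)) ∘L
        ((ContinuousLinearMap.fst ℝ E2 E2 ∘L fderiv ℝ (K.κ x) (0, a)) ∘L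
          ContinuousLinearMap.inr ℝ E2 E2)) v := fun v => by
      rw [Lam_apply, Hp, he a ha]
      exact congrArg (· + _) (congrArg (fun M => M v) h3)
    rw [es_apply]
    simp only [h4]
    rw [det_map b, b.det_self, mul_one, det_comp', star' K D hr x (mem_inr ha), ← mul_assoc,
      ← Real.exp_add, rp, he a ha]
    congr 2
    ring
  refine ContDiffOn.congr (fun a ha => ContDiffAt.contDiffWithinAt ?_) key
  have h1 : ContDiffAt ℝ ∞ (fun a : E2 => K.κ x (0, a)) a :=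
    (K.κ_jc.contDiffAt (p := (x, (0, a))) ⟨mem_univ _, mem_inr ha⟩).comp a h0.contDiffAt
  have h2 : ContDiffAt ℝ ∞ (fun a : E2 => fderiv ℝ (K.κ x) (0, a)) a :=
    (K.κ_jc.fderiv.contDiffAt (p := (x, (0, a))) ⟨mem_univ _, mem_inr ha⟩).comp a h0.contDiffAt
  have h3 := ch_rel K hr x (mem_inr ha)
  have h4 := (D.ρ_jc.contDiffAt (p := ((x.1, L.em x.1), (K.κ x (0, a)).1))
    ⟨h3.mem, he a ha ▸ h3.nu.ne'⟩).comp a h1.fst
  exact h4.exp.mul (contDiff_det'.contDiffAt.comp a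
    ((contDiffAt_const.clm_comp h2).clm_comp contDiffAt_const))

end Mg

variable [Dim]

variable {Γ X B : Type} [Group Γ] [MetricSpace X] [ProperSpace X] [MulAction Γ X]
  [IsIsometricSMul Γ X] [TopologicalSpace B] [CompactSpace B] [T2Space B] [MulAction Γ B]
  [ContinuousConstSMul Γ B] {L : Leaf Γ X B} {T : Tens L} {S : Bus L T} {r : ℝ}

variable (K : Str S r) [MeasurableSpace B] [BorelSpace B]

variable [Countable Γ] [MeasurableSpace X] [BorelSpace X] [SecondCountableTopology B]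

theorem exists_marg (hr : Rad S r) (hn : NuPos S) (hC : CrossJC S) {A : Area L} (D : BusD S A)
    {Z : Sys Γ (Xd X) B E2 W} (hZ : Over K A Z) (b : Module.Basis (Fin Dim.m) ℝ E2) :
    ∃ M : Marg Z b, ∀ x y, ∀ q ∈ Z.dom x y,
      |M.f x y q| = Real.exp (A.h * shift K x y q) := by
  have hd : ∀ x y, Z.dom x y = tdom (ch K) x y := fun x y => by rw [Sys.dom, hZ.c]
  have ht : ∀ x y, Z.τ x y = ttau (ch K) x y := fun x y => by rw [Sys.τ, hZ.c]
  have hD : Z.Dm = chD K := by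
    ext p
    exact iff_of_eq (congrArg (p.2 ∈ ·) (hd p.1.1 p.1.2))
  refine ⟨{ f := Mg.ff K D
            f_jc := hD ▸ Mg.ff_jc K D hr hC
            es := Mg.es K D b
            es_cont := Mg.es_cont K D b hr
            es_smul := fun g x q hq => Mg.es_smul K D b hr g x hq
            es_eqv := fun x y q hq => by
              rw [ht, ht]
              exact Mg.es_eqv K D b hr hC (hd x y ▸ hq)
            es_ne := fun x q hq => Mg.es_ne K D b x hq
            es_zero := fun x => by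
              rw [hZ.pU]
              exact Mg.es_zero K D b hr x
            es_S := by
              rw [hZ.iS]
              exact Mg.es_S K D b hr hn
            es_U := fun x => by
              rw [hZ.iU]
              exact Mg.es_U K D b hr hn x }, fun x y q hq => Mg.abs_ff K D hr hC (hd x y ▸ hq)⟩

end Vale.Agent.P207Z.CS
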