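import Vale.Agent.P207Z.CS.Defs

/-!
# P207, block CS: the straightening maps exist
-/

set_option linter.all false

open Set Filter Topology Metric MeasureTheory
open scoped ContDiff

noncomputable section

namespace Vale.Agent.P207Z.CS

open Vale.Agent.P207.N4 Vale.Agent.P207.N3
open Vale.Agent.P207.N4.H709

variable [Dim]

variable {Γ X B : Type} [Group Γ] [MetricSpace X] [ProperSpace X] [MulAction Γ X]
  [IsIsometricSMul Γ X] [TopologicalSpace B] [CompactSpace B] [T2Space B] [MulAction Γ B]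
  [ContinuousConstSMul Γ B] {L : Leaf Γ X B} {T : Tens L} {S : Bus L T} {r : ℝ}

namespace StrA

theorem jc_two {f : Xd X → W → W} {D : Set (Xd X × W)}
    (h0 : JC (fun x => f (x, Two.o)) {p | ((p.1, Two.o), p.2) ∈ D})
    (h1 : JC (fun x => f (x, Two.i)) {p | ((p.1, Two.i), p.2) ∈ D}) : JC f D := by
  have key : ∀ a : Two, JC (fun x => f (x, a)) {p | ((p.1, a), p.2) ∈ D} →
      JC f {p | p.1.2 = a ∧ p ∈ D} := fun a h => by
    have h2 := h.pullback (c := fun x : Xd X => x.1) continuous_fst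
    have h3 : IsOpen {p : Xd X × W | p.1.2 = a} :=
      (isOpen_discrete {a}).preimage (continuous_snd.comp continuous_fst)
    have e : {p : Xd X × W | p.1.2 = a ∧ p ∈ D} =
        {p : Xd X × W | p.1.2 = a} ∩ {p | ((p.1.1, a), p.2) ∈ D} := by
      ext ⟨⟨x, b⟩, z⟩
      exact and_congr_right fun h' => by
        obtain rfl : b = a := h'
        rfl
    rw [e]
    refine (h2.mono (h3.inter h2.isOpen) fun p hp => hp.2).congr fun ⟨⟨x, b⟩, z⟩ hp => ?_
    obtain rfl : b = a := hp.1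
    rfl
  have e : D = {p | p.1.2 = Two.o ∧ p ∈ D} ∪ {p | p.1.2 = Two.i ∧ p ∈ D} := by
    ext p
    exact ⟨fun h => (Two.cases p.1.2).imp (fun h' => ⟨h', h⟩) fun h' => ⟨h', h⟩,
      fun h => h.elim And.right And.right⟩
  refine JC.of_local (e ▸ (key _ h0).isOpen.union (key _ h1).isOpen) fun p hp => ?_
  rcases Two.cases p.1.2 with h | h
  · exact ⟨{p | p.1.2 = Two.o ∧ p ∈ D}, ⟨h, hp⟩, key _ h0⟩
  · exact ⟨{p | p.1.2 = Two.i ∧ p ∈ D}, ⟨h, hp⟩, key _ h1⟩

theorem two_le : (2 : WithTop ℕ∞) ≤ ∞ := WithTop.coe_le_coe.2 le_top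

theorem ep_cont : Continuous L.ep := by
  rw [funext L.ep_flip]
  exact L.em_cont.comp L.flip_cont

theorem ep_smul (g : Γ) (x : X) : L.ep (g • x) = g • L.ep x := by
  rw [L.ep_flip, L.flip_smul, L.em_smul, L.ep_flip]

theorem grad_congr {x y : X} {ξ η : B} (h : ∀ q ∈ ball (0 : E2) 3, S.be x ξ q = S.be y η q)
    {q : E2} (hq : q ∈ ball (0 : E2) 3) : gradient (S.be x ξ) q = gradient (S.be y η) q :=
  gradient_congr (eventually_of_mem (isOpen_ball.mem_nhds hq) h)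

variable (S)

/-- the covectors of the unstable leaf -/
def Pp (x : X) : E2 → E2 := gradient (S.be x (L.em x))

/-- the difference of the two leaves -/
def Fm (x : X) (q : E2) : E2 := -gradient (gm S x (L.ep x)) q

theorem jc_pull {f : X × B → E2 → ℝ} (h : JC f (univ ×ˢ ball 0 3)) {c : X → B}
    (hc : Continuous c) : JC (fun x => gradient (f (x, c x))) (univ ×ˢ ball 0 3) :=
  (gradient_jc (h.pullback (c := fun x => (x, c x)) (continuous_id.prodMk hc))).mono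
    (isOpen_univ.prod isOpen_ball) fun _ hp => ⟨mem_univ _, hp.2⟩

theorem Pp_jc : JC (Pp S) (univ ×ˢ ball 0 3) := jc_pull S.be_jc L.em_cont

theorem Fm_jc : JC (Fm S) (univ ×ˢ ball 0 3) := (jc_pull (gm_jc S) ep_cont).neg

theorem Fm_zero (x : X) : Fm S x 0 = 0 := by
  rw [Fm, ← L.e_zero, gradient_gm_e S x zero_mem3, neg_zero]

theorem Fm_fderiv (x : X) (q : E2) : fderiv ℝ (Fm S x) q = -hess (gm S x (L.ep x)) q :=
  fderiv_fun_neg

theorem Pp_smul (g : Γ) (x : X) {q : E2} (hq : q ∈ ball (0 : E2) 3) : Pp S (g • x) q = Pp S x q :=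
  grad_congr (fun q hq => by rw [L.em_smul, S.be_smul g x _ q hq]) hq

theorem Fm_smul (g : Γ) (x : X) {q : E2} (hq : q ∈ ball (0 : E2) 3) :
    Fm S (g • x) q = Fm S x q := by
  rw [Fm, Fm, ep_smul, gradient_congr (gm_congr S g x _ hq)]

theorem grad_add_inner {f : E2 → ℝ} {q : E2} (hf : DifferentiableAt ℝ f q) (w : E2) :
    gradient (fun t => f t + innerSL ℝ w t) q = gradient f q + w := by
  rw [gradient_add' hf (innerSL ℝ w).differentiableAt]
  congr 1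
  refine ext_inner_right ℝ fun v => ?_
  rw [gradient_eq_rz, inner_rz, ContinuousLinearMap.fderiv, innerSL_apply_apply]

/-- the inverse of the difference of the two leaves -/
theorem exists_g (hn : NuPos S) : ∃ (ρ c : ℝ) (g : X → E2 → E2), 0 < ρ ∧ ρ ≤ 1 ∧ 0 < c ∧
    JC g (univ ×ˢ ball 0 (c * ρ)) ∧ (∀ x, InjOn (Fm S x) (ball 0 ρ)) ∧
    ∀ x, ∀ w ∈ ball (0 : E2) (c * ρ), c * ‖g x w‖ ≤ ‖w‖ ∧ Fm S x (g x w) = w := by
  obtain ⟨c, hc, h1⟩ := exists_pos S hn (r := 0) (by norm_num)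
  obtain ⟨s, hs, h2⟩ := exists_near S hn (r := 0) (by norm_num) (half_pos hc)
  set ρ := min (s / 2) 1 with hρ
  have hρ0 : 0 < ρ := lt_min (half_pos hs) one_pos
  have hρ1 : ρ ≤ 1 := min_le_right _ _
  have h3 : closedBall (0 : E2) ρ ⊆ ball 0 3 := closedBall_subset_ball (by linarith)
  have hpos : ∀ x, ∀ q ∈ closedBall (0 : E2) ρ, ∀ v,
      c / 2 * ‖v‖ ^ 2 ≤ inner ℝ (hess (gm S x (L.ep x)) q v) v := fun x q hq v => by
    have h4 := h1 x 0 (mem_closedBall_self le_rfl) v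
    have h5 := (h2 x q ((mem_closedBall_zero_iff.1 hq).trans_lt
      ((min_le_left _ _).trans_lt (half_lt_self hs))) 0 (mem_closedBall_self le_rfl)).2
    rw [hess_sum_em S x zero_mem3, L.e_zero] at h4
    rw [L.e_zero, zero_add] at h5
    have h6 := (abs_le.1 ((abs_real_inner_le_norm ((hess (gm S x (L.ep x)) q -
      hess (gm S x (L.ep x)) 0) v) v).trans (mul_le_mul_of_nonneg_right
        (ContinuousLinearMap.le_of_opNorm_le _ h5.le v) (norm_nonneg v)))).1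
    rw [ContinuousLinearMap.sub_apply, inner_sub_left] at h6
    nlinarith
  have hd : ∀ x, ∀ q ∈ ball (0 : E2) 3, DifferentiableAt ℝ (gradient (gm S x (L.ep x))) q :=
    fun x q hq => (jc_pull (gm_jc S) ep_cont).differentiableAt (p := (x, q)) ⟨mem_univ _, hq⟩
  have hd0 : ∀ x, ∀ q ∈ ball (0 : E2) 3, DifferentiableAt ℝ (gm S x (L.ep x)) q :=
    fun x q hq => (gm_jc S).differentiableAt (p := ((x, L.ep x), q)) ⟨mem_univ _, hq⟩
  have hinj : ∀ x, InjOn (Fm S x) (ball 0 ρ) := fun x p hp q hq h => by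
    have h4 := mono_of_hess (convex_closedBall (0 : E2) ρ) (fun p hp => hd x p (h3 hp)) (hpos x)
      (ball_subset_closedBall hp) (ball_subset_closedBall hq)
    rw [neg_injective h, sub_self, inner_zero_left] at h4
    have h5 : ‖p - q‖ ^ 2 ≤ 0 := le_of_mul_le_mul_left (h4.trans_eq (mul_zero _).symm) (half_pos hc)
    exact sub_eq_zero.1 (norm_eq_zero.1 (pow_eq_zero_iff two_ne_zero |>.1
      (le_antisymm h5 (sq_nonneg _))))
  have hex : ∀ x, ∀ w ∈ ball (0 : E2) (c / 2 * ρ), ∃ q ∈ ball (0 : E2) ρ,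
      c / 2 * ‖q‖ ≤ ‖w‖ ∧ Fm S x q = w := fun x w hw => by
    have h4 : ∀ q ∈ ball (0 : E2) 3, gradient (fun t => gm S x (L.ep x) t + innerSL ℝ w t) =ᶠ[𝓝 q]
        fun t => gradient (gm S x (L.ep x)) t + w := fun q hq =>
      eventually_of_mem (isOpen_ball.mem_nhds hq) fun t ht => grad_add_inner (hd0 x t ht) w
    have h5 : gradient (fun t => gm S x (L.ep x) t + innerSL ℝ w t) 0 = w := by
      rw [grad_add_inner (hd0 x 0 zero_mem3), neg_eq_zero.1 (Fm_zero S x), zero_add]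
    obtain ⟨q, hq, h6, h7⟩ := exists_crit (f := fun t => gm S x (L.ep x) t + innerSL ℝ w t) (q := 0)
      hρ0 (half_pos hc) (fun p hp => (hd0 x p (h3 hp)).add (innerSL ℝ w).differentiableAt)
      (fun p hp => ((hd x p (h3 hp)).add_const w).congr_of_eventuallyEq (h4 p (h3 hp)))
      (fun p hp v => by
        rw [hess, (h4 p (h3 hp)).fderiv_eq, fderiv_add_const]
        exact hpos x p hp v)
      (by rw [h5]; exact mem_ball_zero_iff.1 hw)
    rw [h5, sub_zero] at h7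
    rw [grad_add_inner (hd0 x q (h3 (ball_subset_closedBall hq)))] at h6
    exact ⟨q, hq, h7, (eq_neg_of_add_eq_zero_right h6).symm⟩
  have hleft : ∀ x, ∀ q ∈ ball (0 : E2) ρ, Function.invFunOn (Fm S x) (ball 0 ρ) (Fm S x q) = q :=
    fun x q hq => (hinj x).leftInvOn_invFunOn hq
  refine ⟨ρ, c / 2, fun x => Function.invFunOn (Fm S x) (ball 0 ρ), hρ0, hρ1, half_pos hc,
    JC.of_local (isOpen_univ.prod isOpen_ball) fun p hp => ?_, hinj, fun x w hw => ?_⟩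
  · obtain ⟨q, hq, -, h4⟩ := hex p.1 p.2 hp.2
    have h5 : Function.Injective (fderiv ℝ (Fm S p.1) q) := by
      refine (injective_iff_map_eq_zero _).2 fun v hv => ?_
      have h6 := hpos p.1 q (ball_subset_closedBall hq) v
      rw [Fm_fderiv, ContinuousLinearMap.neg_apply, neg_eq_zero] at hv
      rw [hv, inner_zero_left] at h6
      exact norm_eq_zero.1 (pow_eq_zero_iff two_ne_zero |>.1
        (le_antisymm (le_of_mul_le_mul_left (h6.trans_eq (mul_zero _).symm) (half_pos hc))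
          (sq_nonneg _)))
    obtain ⟨U, g', h6, h7, -, h8, -⟩ := ((Fm_jc S).mono (T := univ ×ˢ ball 0 ρ)
      (isOpen_univ.prod isOpen_ball)
      fun a ha => ⟨mem_univ _, h3 (ball_subset_closedBall ha.2)⟩).inverse_local
      (z₀ := p.1) (u₀ := q) ⟨mem_univ _, hq⟩
      ⟨(LinearEquiv.ofInjectiveEndo (fderiv ℝ (Fm S p.1) q : E2 →ₗ[ℝ] E2) h5).toContinuousLinearEquiv,
        by ext v; rfl⟩
    refine ⟨U, by rwa [h4] at h7, h6.congr fun a ha => ?_⟩
    rw [← (h8 a ha).2, hleft _ _ (h8 a ha).1.2, (h8 a ha).2]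
  · obtain ⟨q, hq, h4, rfl⟩ := hex x w hw
    simp only [hleft x q hq]
    exact ⟨h4, trivial⟩

/-- the data of the construction -/
structure Pre (S : Bus L T) (r : ℝ) where
  s : ℝ
  ρ : ℝ
  σ : ℝ
  g : X → E2 → E2
  s_pos : 0 < s
  s_le : s ≤ σ
  ρ_le : ρ ≤ 1
  jc : JC g (univ ×ˢ ball 0 σ)
  inj : ∀ x, InjOn (Fm S x) (ball 0 ρ)
  eq : ∀ x, ∀ w ∈ ball (0 : E2) σ, g x w ∈ ball (0 : E2) ρ ∧ Fm S x (g x w) = w
  mem : ∀ x, ∀ z ∈ ball (0 : W) 1, s • z.2 + g x (s • z.1) ∈ ball (0 : E2) ρ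
  small : ∀ x, ∀ z ∈ ball (0 : W) 1,
    (s • z.2 + g x (s • z.1), s • z.1 + Pp S x (s • z.2 + g x (s • z.1))) ∈ ball (0 : W) r

theorem norm_smul_lt {s : ℝ} (hs : 0 < s) {a : E2} (ha : ‖a‖ < 1) : ‖s • a‖ < s := by
  rw [norm_smul, Real.norm_of_nonneg hs.le]
  exact mul_lt_of_lt_one_right hs ha

theorem ball_iff {z : W} {t : ℝ} : z ∈ ball (0 : W) t ↔ ‖z.1‖ < t ∧ ‖z.2‖ < t := by
  rw [mem_ball_zero_iff, Prod.norm_def, max_lt_iff]

theorem exists_pre (hn : NuPos S) (hr : 0 < r) : Nonempty (Pre S r) := by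
  obtain ⟨ρ, c, g, hρ, hρ1, hc, h1, h2, h3⟩ := exists_g S hn
  obtain ⟨ρ', hρ', h4⟩ := unif_of L (r := 0) (P := fun x y _ => ‖y‖ < 3 → ‖Pp S x y‖ < r / 2)
    (fun γ x y _ h hy => by
      rw [← Pp_smul S γ x (mem_ball_zero_iff.2 hy)]
      exact h hy)
    (fun x q _ => by
      have h5 : ContinuousAt (fun p : (X × E2) × E2 => Pp S p.1.1 p.2) ((x, q), 0) :=
        ContinuousAt.comp_of_eq (f := fun p : (X × E2) × E2 => (p.1.1, p.2))
          ((Pp_jc S).continuousOn.continuousAt (x := (x, 0))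
            ((Pp_jc S).isOpen.mem_nhds ⟨mem_univ _, zero_mem3⟩)) (by fun_prop) rfl
      have h6 : ‖Pp S x 0‖ < r / 2 := by
        rw [Pp, S.be_crit, norm_zero]
        exact half_pos hr
      exact (h5.norm.eventually (gt_mem_nhds h6)).mono fun _ h _ => h)
  set m := min (min ρ ρ') r with hm
  have hm0 : 0 < m := lt_min (lt_min hρ hρ') hr
  have hm1 : m ≤ ρ := (min_le_left _ _).trans (min_le_left _ _)
  have hm2 : m ≤ ρ' := (min_le_left _ _).trans (min_le_right _ _)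
  have hm3 : m ≤ r := min_le_right _ _
  set s := min (c * m / 2) (m / 2) with hs
  have hs0 : 0 < s := lt_min (by positivity) (half_pos hm0)
  have hs1 : s ≤ c * m / 2 := min_le_left _ _
  have hs2 : s ≤ m / 2 := min_le_right _ _
  have hs3 : s ≤ c * ρ := by nlinarith [mul_le_mul_of_nonneg_left hm1 hc.le, mul_pos hc hρ]
  have hq : ∀ x, ∀ z ∈ ball (0 : W) 1, ‖s • z.2 + g x (s • z.1)‖ < m := fun x z hz => by
    have h5 := norm_smul_lt hs0 (ball_iff.1 hz).1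
    have h6 := norm_smul_lt hs0 (ball_iff.1 hz).2
    have h7 := (h3 x _ (mem_ball_zero_iff.2 (h5.trans_le hs3))).1
    have h8 : ‖g x (s • z.1)‖ ≤ m / 2 := le_of_mul_le_mul_left (by linarith) hc
    linarith [norm_add_le (s • z.2) (g x (s • z.1))]
  refine ⟨⟨s, ρ, c * ρ, g, hs0, hs3, hρ1, h1, h2, fun x w hw => ⟨mem_ball_zero_iff.2 ?_, (h3 x w hw).2⟩,
    fun x z hz => mem_ball_zero_iff.2 ((hq x z hz).trans_le hm1), fun x z hz =>
      ball_iff.2 ⟨(hq x z hz).trans_le hm3, ?_⟩⟩⟩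
  · exact lt_of_mul_lt_mul_left ((h3 x w hw).1.trans_lt (mem_ball_zero_iff.1 hw)) hc.le
  · have h5 := h4 x _ ((hq x z hz).trans_le hm2) 0 (mem_closedBall_self le_rfl)
      (by linarith [hq x z hz])
    have h6 := norm_smul_lt hs0 (ball_iff.1 hz).1
    linarith [norm_add_le (s • z.1) (Pp S x (s • z.2 + g x (s • z.1)))]

variable {S}

namespace Pre
variable (P : Pre S r)

/-- the straightening map -/
def k0 (x : X) (z : W) : W :=
  (P.s • z.2 + P.g x (P.s • z.1), P.s • z.1 + Pp S x (P.s • z.2 + P.g x (P.s • z.1)))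

/-- its inverse -/
def i0 (x : X) (y : W) : W :=
  (P.s⁻¹ • (y.2 - Pp S x y.1), P.s⁻¹ • (y.1 - P.g x (y.2 - Pp S x y.1)))

theorem sub3 : ball (0 : E2) P.ρ ⊆ ball 0 3 := ball_subset_ball (by linarith [P.ρ_le])

theorem smul_mem {z : W} (hz : z ∈ ball (0 : W) 1) : P.s • z.1 ∈ ball (0 : E2) P.σ :=
  mem_ball_zero_iff.2 ((norm_smul_lt P.s_pos (ball_iff.1 hz).1).trans_le P.s_le)

theorem g_eq {x : X} {q w : E2} (hq : q ∈ ball (0 : E2) P.ρ) (hw : w ∈ ball (0 : E2) P.σ)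
    (h : Fm S x q = w) : P.g x w = q := P.inj x (P.eq x w hw).1 hq ((P.eq x w hw).2.trans h.symm)

theorem k0_jc : JC P.k0 (univ ×ˢ ball 0 1) := by
  have hD : IsOpen ((univ : Set X) ×ˢ ball (0 : W) 1) := isOpen_univ.prod isOpen_ball
  have h1 := (JC.id hD).fst.const_smul P.s
  have h2 := ((JC.id hD).snd.const_smul P.s).add
    (P.jc.comp' h1 fun p hp => ⟨mem_univ _, P.smul_mem hp.2⟩)
  exact h2.prodMk (h1.add ((Pp_jc S).comp' h2 fun p hp => ⟨mem_univ _, P.sub3 (P.mem _ _ hp.2)⟩))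

theorem i0_k0 (x : X) (z : W) : P.i0 x (P.k0 x z) = z := by
  simp only [i0, k0, add_sub_cancel_right, inv_smul_smul₀ P.s_pos.ne']

theorem k0_i0 (x : X) (y : W) : P.k0 x (P.i0 x y) = y := by
  simp only [i0, k0, smul_inv_smul₀ P.s_pos.ne', sub_add_cancel]

theorem i0_jc : JC P.i0 {a | a.2 ∈ P.k0 a.1 '' ball 0 1} := by
  have hD : IsOpen {p : X × W | p.2.1 ∈ ball (0 : E2) 3} :=
    isOpen_ball.preimage (continuous_fst.comp continuous_snd)
  have h1 := (JC.id hD).snd.sub ((Pp_jc S).comp' (JC.id hD).fst fun p hp => ⟨mem_univ _, hp⟩)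
  have h2 := P.jc.comp h1
  have h3 : JC P.i0 _ := ((h1.mono h2.isOpen fun p hp => hp.1).const_smul P.s⁻¹).prodMk
    (((JC.id h2.isOpen).fst.sub h2).const_smul P.s⁻¹)
  have h4 := isOpen_cdom h3.isOpen ((isOpen_univ (X := X)).prod (isOpen_ball (x := (0 : W)) (ε := 1)))
    h3.continuousOn
  have e : {a : X × W | a.2 ∈ P.k0 a.1 '' ball 0 1} = _ := Set.ext fun a =>
    (⟨fun ⟨z, hz, e⟩ => ⟨⟨by
        show a.2.1 ∈ ball (0 : E2) 3
        rw [← e]
        exact P.sub3 (P.mem _ _ hz), mem_univ _, by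
        rw [← e]
        simpa only [k0, add_sub_cancel_right] using P.smul_mem hz⟩, mem_univ _, by
        rw [← e, P.i0_k0]
        exact hz⟩,
      fun h => ⟨_, h.2.2, P.k0_i0 _ _⟩⟩ : _ ↔ a ∈ cdom P.i0 (cdom (fun x (y : W) => y.2 - Pp S x y.1)
        {p : X × W | p.2.1 ∈ ball (0 : E2) 3} (univ ×ˢ ball 0 P.σ)) (univ ×ˢ ball 0 1))
  rw [e]
  exact h3.mono h4 fun p hp => hp.1

theorem k0_zero (x : X) : P.k0 x 0 = 0 := by
  have h0 : (0 : W) ∈ ball (0 : W) 1 := mem_ball_self one_pos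
  have h1 := P.smul_mem h0
  rw [Prod.fst_zero, smul_zero] at h1
  have h2 : P.g x 0 = 0 :=
    P.g_eq (mem_ball_self (nonempty_ball.1 ⟨_, P.mem x 0 h0⟩)) h1 (Fm_zero S x)
  simp only [k0, Prod.fst_zero, Prod.snd_zero, smul_zero, h2, zero_add, Pp, S.be_crit]
  rfl

theorem k0_smul (γ : Γ) (x : X) {z : W} (hz : z ∈ ball (0 : W) 1) : P.k0 (γ • x) z = P.k0 x z := by
  have h1 := P.eq x _ (P.smul_mem hz)
  have h2 := P.g_eq h1.1 (P.smul_mem hz) ((Fm_smul S γ x (P.sub3 h1.1)).trans h1.2)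
  simp only [k0, h2, Pp_smul S γ x (P.sub3 (P.mem x z hz))]

theorem axU (x : X) (z : W) :
    (P.k0 x z).2 = gradient (S.be x (L.em x)) (P.k0 x z).1 ↔ z.1 = 0 := by
  simp only [k0, Pp, add_eq_right, smul_eq_zero, P.s_pos.ne', false_or]

theorem axS (x : X) {z : W} (hz : z ∈ ball (0 : W) 1) :
    (P.k0 x z).2 = -gradient (S.be x (L.ep x)) (P.k0 x z).1 ↔ z.2 = 0 := by
  have h1 := P.mem x z hz
  have h2 : (P.k0 x z).2 = -gradient (S.be x (L.ep x)) (P.k0 x z).1 ↔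
      Fm S x (P.s • z.2 + P.g x (P.s • z.1)) = P.s • z.1 := by
    rw [Fm, gradient_gm S x _ (P.sub3 h1), neg_add, ← sub_eq_add_neg, sub_eq_iff_eq_add, eq_comm]
    rfl
  rw [h2]
  constructor
  · intro h
    have h3 := P.g_eq h1 (P.smul_mem hz) h
    simpa only [right_eq_add, smul_eq_zero, P.s_pos.ne', false_or] using h3
  · intro h
    rw [h, smul_zero, zero_add]
    exact (P.eq x _ (P.smul_mem hz)).2

theorem g_symm (x : X) {w : E2} (hw : w ∈ ball (0 : E2) P.σ) (u v : E2) :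
    inner ℝ (fderiv ℝ (P.g x) w u) v = inner ℝ u (fderiv ℝ (P.g x) w v) := by
  have h1 := P.sub3 (P.eq x w hw).1
  have h2 := ((Fm_jc S).hasFDerivAt (p := (x, P.g x w)) ⟨mem_univ _, h1⟩).comp w
    (P.jc.hasFDerivAt (p := (x, w)) ⟨mem_univ _, hw⟩)
  have h3 := h2.unique ((hasFDerivAt_id w).congr_of_eventuallyEq
    (eventually_of_mem (isOpen_ball.mem_nhds hw) fun t ht => (P.eq x t ht).2))
  have h4 : ∀ a, -hess (gm S x (L.ep x)) (P.g x w) (fderiv ℝ (P.g x) w a) = a := fun a => by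
    have h5 := congrArg (fun A : E2 →L[ℝ] E2 => A a) h3
    simpa only [ContinuousLinearMap.comp_apply, Fm_fderiv, ContinuousLinearMap.neg_apply,
      ContinuousLinearMap.id_apply] using h5
  have h5 := hess_symm (((gm_jc S).contDiffAt (p := ((x, L.ep x), P.g x w))
    ⟨mem_univ _, h1⟩).of_le two_le) (fderiv ℝ (P.g x) w u) (fderiv ℝ (P.g x) w v)
  conv_lhs => rw [← h4 v]
  conv_rhs => rw [← h4 u]
  rw [inner_neg_left, inner_neg_right, h5]

theorem symp (x : X) {z : W} (hz : z ∈ ball (0 : W) 1) (v w : W) :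
    om (fderiv ℝ (P.k0 x) z v) (fderiv ℝ (P.k0 x) z w) = -P.s ^ 2 * om v w := by
  have h1 := P.sub3 (P.mem x z hz)
  have a1 : HasFDerivAt (fun z : W => P.s • z.1) _ z :=
    (hasFDerivAt_fst (𝕜 := ℝ) (p := z)).const_smul P.s
  have a2 : HasFDerivAt (fun z : W => P.s • z.2 + P.g x (P.s • z.1)) _ z :=
    ((hasFDerivAt_snd (𝕜 := ℝ) (p := z)).const_smul P.s).add
      ((P.jc.hasFDerivAt (p := (x, P.s • z.1)) ⟨mem_univ _, P.smul_mem hz⟩).comp z a1)
  have a3 : HasFDerivAt (P.k0 x) _ z := a2.prodMk (a1.add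
    (((Pp_jc S).hasFDerivAt (p := (x, P.s • z.2 + P.g x (P.s • z.1))) ⟨mem_univ _, h1⟩).comp z a2))
  have h2 : ∀ a b, inner ℝ (fderiv ℝ (Pp S x) (P.s • z.2 + P.g x (P.s • z.1)) a) b =
      inner ℝ a (fderiv ℝ (Pp S x) (P.s • z.2 + P.g x (P.s • z.1)) b) :=
    hess_symm ((S.be_jc.contDiffAt (p := ((x, L.em x), _)) ⟨mem_univ _, h1⟩).of_le two_le)
  have h3 := P.g_symm x (P.smul_mem hz) v.1 w.1
  rw [a3.fderiv]
  simp only [om, ContinuousLinearMap.prod_apply, ContinuousLinearMap.add_apply,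
    ContinuousLinearMap.comp_apply, ContinuousLinearMap.smul_apply, ContinuousLinearMap.coe_fst',
    ContinuousLinearMap.coe_snd']
  rw [inner_add_right, inner_add_left (P.s • v.1), h2, add_sub_add_right_eq_sub]
  simp only [map_smul, inner_add_left, inner_add_right, real_inner_smul_left, real_inner_smul_right,
    h3]
  ring

end Pre

/-- the reflection of the covector -/
def Nn : W →L[ℝ] W := (ContinuousLinearMap.fst ℝ E2 E2).prod (-ContinuousLinearMap.snd ℝ E2 E2)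

/-- the exchange of the two axes -/
def Sw : W →L[ℝ] W := (ContinuousLinearMap.snd ℝ E2 E2).prod (ContinuousLinearMap.fst ℝ E2 E2)

theorem Nn_apply (z : W) : Nn z = (z.1, -z.2) := rfl

theorem Sw_apply (z : W) : Sw z = (z.2, z.1) := rfl

theorem Nn_Nn (z : W) : Nn (Nn z) = z := by simp only [Nn_apply, neg_neg]

theorem Sw_mem {z : W} {t : ℝ} (hz : z ∈ ball (0 : W) t) : Sw z ∈ ball (0 : W) t :=
  ball_iff.2 (ball_iff.1 hz).symm

theorem Nn_mem {z : W} {t : ℝ} (hz : z ∈ ball (0 : W) t) : Nn z ∈ ball (0 : W) t :=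
  ball_iff.2 ⟨(ball_iff.1 hz).1, (norm_neg z.2).trans_lt (ball_iff.1 hz).2⟩

theorem om_Nn (v w : W) : om (Nn v) (Nn w) = -om v w := by
  simp only [om, Nn_apply, inner_neg_left, inner_neg_right]
  ring

theorem om_Sw (v w : W) : om (Sw v) (Sw w) = -om v w := by
  simp only [om, Sw_apply]
  ring

theorem em_flip (x : X) : L.em (L.flip x) = L.ep x := (L.ep_flip x).symm

theorem ep_flip' (x : X) : L.ep (L.flip x) = L.em x := by rw [L.ep_flip, L.flip_flip]

end StrA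

open StrA

theorem exists_str (S : Bus L T) (hn : NuPos S) (hr : 0 < r) (hr1 : r ≤ 1) :
    Nonempty (Str S r) := by
  obtain ⟨P⟩ := exists_pre S hn hr
  have hD : IsOpen ((univ : Set X) ×ˢ ball (0 : W) 1) := isOpen_univ.prod isOpen_ball
  have hfl : ∀ x ξ, ∀ z ∈ ball (0 : W) 1, gradient (S.be (L.flip x) ξ) (P.k0 (L.flip x) z).1 =
      gradient (S.be x ξ) (P.k0 (L.flip x) z).1 := fun x ξ z hz =>
    grad_congr (S.be_flip x ξ) (P.sub3 (P.mem _ _ hz))
  refine ⟨{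
    κ := fun x z => cond x.2 (Nn (P.k0 (L.flip x.1) (Sw z))) (P.k0 x.1 z)
    ι := fun x y => cond x.2 (Sw (P.i0 (L.flip x.1) (Nn y))) (P.i0 x.1 y)
    κ_jc := jc_two (P.k0_jc.mono ?_ fun p hp => ⟨mem_univ _, hp.2⟩) ?_
    κ_mem := ?_
    κ_zero := ?_
    ι_jc := jc_two P.i0_jc ?_
    ι_κ := ?_
    κ_smul := ?_
    c := -P.s ^ 2
    c_ne := neg_ne_zero.2 (pow_ne_zero 2 P.s_pos.ne')
    symp := ?_
    axU := ?_
    axS := ?_
    flip := ?_ }⟩
  · exact hD
  · exact ((P.k0_jc.pullback L.flip_cont).comp' ((JC.id hD).clm Sw)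
      fun p hp => ⟨mem_univ _, Sw_mem hp.2⟩).clm Nn
  · rintro ⟨x, _ | _⟩ z hz
    · exact P.small x z hz
    · exact Nn_mem (P.small _ _ (Sw_mem hz))
  · rintro ⟨x, _ | _⟩
    · exact P.k0_zero x
    · show Nn (P.k0 (L.flip x) (Sw 0)) = 0
      rw [map_zero, P.k0_zero, map_zero]
  · have h1 := ((P.i0_jc.pullback L.flip_cont).comp ((JC.id (isOpen_univ (X := X × W))).clm Nn)).clm Sw
    have e : {p : X × W | ((p.1, Two.i), p.2) ∈ {a : Xd X × W | a.2 ∈ (fun z =>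
        cond a.1.2 (Nn (P.k0 (L.flip a.1.1) (Sw z))) (P.k0 a.1.1 z)) '' ball 0 1}} = _ :=
      Set.ext fun p => (⟨fun ⟨z, hz, e⟩ => ⟨mem_univ _, Sw z, Sw_mem hz, by
          rw [← e]
          exact (Nn_Nn _).symm⟩,
        fun ⟨_, z, hz, e⟩ => ⟨Sw z, Sw_mem hz, by
          show Nn (P.k0 (L.flip p.1) z) = p.2
          rw [e, Nn_Nn]⟩⟩ : _ ↔ p ∈ cdom (fun (_ : X) (u : W) => Nn u) univ
            {p : X × W | (L.flip p.1, p.2) ∈ {a : X × W | a.2 ∈ P.k0 a.1 '' ball 0 1}})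
    rw [e]
    exact h1
  · rintro ⟨x, _ | _⟩ z _
    · exact P.i0_k0 x z
    · show Sw (P.i0 (L.flip x) (Nn (Nn (P.k0 (L.flip x) (Sw z))))) = z
      rw [Nn_Nn, P.i0_k0]
      rfl
  · rintro γ ⟨x, _ | _⟩ z hz
    · exact P.k0_smul γ x hz
    · show Nn (P.k0 (L.flip (γ • x)) (Sw z)) = Nn (P.k0 (L.flip x) (Sw z))
      rw [L.flip_smul, P.k0_smul γ _ (Sw_mem hz)]
  · rintro ⟨x, _ | _⟩ z hz v w
    · exact P.symp x hz v w
    · have h0 := (P.k0_jc.hasFDerivAt (p := (L.flip x, Sw z))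
        ⟨mem_univ _, Sw_mem hz⟩).comp z Sw.hasFDerivAt
      have h1 : HasFDerivAt (fun z => Nn (P.k0 (L.flip x) (Sw z))) _ z := Nn.hasFDerivAt.comp z h0
      show om (fderiv ℝ (fun z => Nn (P.k0 (L.flip x) (Sw z))) z v)
        (fderiv ℝ (fun z => Nn (P.k0 (L.flip x) (Sw z))) z w) = _
      rw [h1.fderiv]
      simp only [ContinuousLinearMap.comp_apply]
      rw [om_Nn, P.symp _ (Sw_mem hz), om_Sw]
      ring
  · rintro ⟨x, _ | _⟩ z hz
    · exact P.axU x z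
    · have h := P.axS (L.flip x) (Sw_mem hz)
      rw [ep_flip', hfl _ _ _ (Sw_mem hz), ← neg_eq_iff_eq_neg] at h
      exact h
  · rintro ⟨x, _ | _⟩ z hz
    · exact P.axS x hz
    · have h := P.axU (L.flip x) (Sw z)
      rw [em_flip, hfl _ _ _ (Sw_mem hz), ← neg_inj] at h
      exact h
  · rintro ⟨x, _ | _⟩ z _
    · show Nn (P.k0 (L.flip (L.flip x)) z) = Nn (P.k0 x z)
      rw [L.flip_flip]
    · exact (Nn_Nn _).symm

end Vale.Agent.P207Z.CS
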