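import Vale.Agent.P207.N4.H824.Area
import Vale.Agent.P207Z.CS.Act
import Vale.Agent.P207Z.Erg.Inv

/-!
# P207, block CS: the invariant measure on the space of triples
-/

set_option linter.all false

open Set Filter Topology Metric MeasureTheory
open scoped ENNReal

noncomputable section

namespace Vale.Agent.P207Z.CS

open Vale.Agent.P207.N4

variable [Dim]

variable {Γ X B : Type} [Group Γ] [MetricSpace X] [ProperSpace X] [MulAction Γ X]
  [IsIsometricSMul Γ X] [TopologicalSpace B] [CompactSpace B] [T2Space B] [MulAction Γ B]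
  [ContinuousConstSMul Γ B] {L : Leaf Γ X B}

theorem D_smul (g : Γ) {ξ η : B} (h : ξ ≠ η) :
    H824.D L (g • ξ) (g • η) = H824.D L ξ η + coc L g ξ + coc L g η := by
  obtain ⟨x, rfl, rfl, -⟩ := L.exists_frame ξ η h 0
  rw [← L.em_smul, ← H824.ep_smul, H824.D_eq, H824.D_eq, coc_eq, L.ep_flip, coc_eq]
  unfold Leaf.lp
  rw [L.flip_smul]
  ring

open Classical in
/-- the function `D`, with value `0` on the diagonal -/
def Dm (L : Leaf Γ X B) : B × B → ℝ :=
  {p : B × B | p.1 ≠ p.2}.piecewise (fun p => H824.D L p.1 p.2) 0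

theorem Dm_eq {p : B × B} (h : p.1 ≠ p.2) : Dm L p = H824.D L p.1 p.2 := by
  classical
  unfold Dm
  exact piecewise_eq_of_mem _ _ _ h

theorem isOpen_off : IsOpen {p : B × B | p.1 ≠ p.2} := isClosed_diagonal.isOpen_compl

theorem Dm_contOn : ContinuousOn (Dm L) {p : B × B | p.1 ≠ p.2} :=
  (H824.D_cont L).congr fun _ hp => Dm_eq hp

variable [MeasurableSpace B] [BorelSpace B]

theorem Dm_meas : Measurable (Dm L) := by
  classical
  have := H824.secondCountable L
  unfold Dm
  exact ContinuousOn.measurable_piecewise (H824.D_cont L) continuousOn_const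
    isOpen_off.measurableSet

theorem area_D (A : Area L) {ξ η : B} (h : ξ ≠ η) : A.D ξ η = Dm L (ξ, η) := by
  rw [Dm_eq h]
  obtain ⟨x, rfl, rfl, -⟩ := L.exists_frame ξ η h 0
  rw [A.D_eq, H824.D_eq]

/-- `exp` with values in `ℝ≥0∞` -/
def ex (a : ℝ) : ℝ≥0∞ := ENNReal.ofReal (Real.exp a)

theorem ex_meas : Measurable ex := Real.measurable_exp.ennreal_ofReal

theorem ex_add (a b : ℝ) : ex (a + b) = ex a * ex b := by
  rw [ex, Real.exp_add, ENNReal.ofReal_mul (Real.exp_pos _).le]
  rfl

theorem ex_zero : ex 0 = 1 := by simp [ex]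

theorem ex_ne_zero (a : ℝ) : ex a ≠ 0 := by
  simp [ex, Real.exp_pos]

theorem ex_ne_top (a : ℝ) : ex a ≠ ⊤ := ENNReal.ofReal_ne_top

theorem smul_meas (g : Γ) : Measurable fun η : B => g • η := (continuous_const_smul g).measurable

theorem coc_meas (g : Γ) : Measurable (coc L g) := (coc_cont g).measurable

/-- the chart formula -/
theorem chart (A : Area L) (x : X) {S : Set B} (hS : MeasurableSet S)
    (h3 : S ⊆ L.e x '' ball 0 3) :
    ∫⁻ η in S, ex (-A.h * Dm L (L.em x, η)) ∂A.ν =
      ∫⁻ u in ball (0 : E2) 3 ∩ L.e x ⁻¹' S,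
        ENNReal.ofReal (Real.exp (-A.h * L.lv x) * A.s x u) := by
  have h1 : MeasurableSet (ball (0 : E2) 3 ∩ L.e x ⁻¹' S) := by
    classical
    have h2 : Measurable ((ball (0 : E2) 3).piecewise (L.e x) fun _ => L.ep x) :=
      ContinuousOn.measurable_piecewise ((H824.e_contOn x).mono ball_subset_closedBall)
        continuousOn_const measurableSet_ball
    have h4 : ball (0 : E2) 3 ∩ L.e x ⁻¹' S = ball (0 : E2) 3 ∩
        ((ball (0 : E2) 3).piecewise (L.e x) fun _ => L.ep x) ⁻¹' S := by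
      ext u
      refine and_congr_right fun hu => ?_
      rw [mem_preimage, mem_preimage, piecewise_eq_of_mem _ _ _ hu]
    rw [h4]
    exact measurableSet_ball.inter (h2 hS)
  have h5 : L.e x '' (ball (0 : E2) 3 ∩ L.e x ⁻¹' S) = S := by
    rw [image_inter_preimage, inter_eq_self_of_subset_right h3]
  rw [A.ν_chart x _ h1 inter_subset_left, h5]
  refine setLIntegral_congr_fun hS fun η hη => ?_
  have h6 : L.em x ≠ η := fun hc => H824.em_notMem x le_rfl (hc ▸ h3 hη)
  show ex _ = ENNReal.ofReal _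
  rw [area_D A h6]
  rfl

theorem map_disc (A : Area L) (g : Γ) (x : X) :
    (A.ν.map fun η => g⁻¹ • η).restrict (L.e x '' ball 0 3) =
      (A.ν.withDensity fun η => ex (A.h * coc L g η)).restrict (L.e x '' ball 0 3) := by
  have hO : MeasurableSet (L.e x '' ball (0 : E2) 3) := (H824.open_disc' L x le_rfl).measurableSet
  set w : B → ℝ≥0∞ := fun η => ex (-A.h * Dm L (g • L.em x, g • η)) with hw
  have hwm : Measurable w :=
    ex_meas.comp ((Dm_meas.comp (measurable_const.prodMk (smul_meas g))).const_mul _)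
  have hcm : Measurable fun η => ex (A.h * coc L g η) := ex_meas.comp ((coc_meas g).const_mul _)
  have key : ((A.ν.map fun η => g⁻¹ • η).restrict (L.e x '' ball 0 3)).withDensity w =
      ((A.ν.withDensity fun η => ex (A.h * coc L g η)).restrict
        (L.e x '' ball 0 3)).withDensity w := by
    ext S hS
    have hS' := hS.inter hO
    rw [withDensity_apply _ hS, withDensity_apply _ hS, Measure.restrict_restrict hS,
      Measure.restrict_restrict hS, setLIntegral_map hS' hwm (smul_meas _),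
      restrict_withDensity hS', lintegral_withDensity_eq_lintegral_mul _ hcm hwm]
    have e1 : ∀ η, w (g⁻¹ • η) = ex (-A.h * Dm L (L.em (g • x), η)) := fun η => by
      simp only [hw, smul_inv_smul, L.em_smul]
    simp only [e1]
    rw [chart A (g • x) (smul_meas _ hS') (by
      rintro η ⟨-, u, hu, he⟩
      refine ⟨u, hu, ?_⟩
      rw [L.e_smul g x u (ball_subset_closedBall hu), he, smul_inv_smul])]
    have e2 : ball (0 : E2) 3 ∩ L.e (g • x) ⁻¹' ((fun η => g⁻¹ • η) ⁻¹' (S ∩ L.e x '' ball 0 3)) =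
        ball (0 : E2) 3 ∩ L.e x ⁻¹' (S ∩ L.e x '' ball 0 3) := by
      ext u
      refine and_congr_right fun hu => ?_
      simp only [mem_preimage, L.e_smul g x u (ball_subset_closedBall hu), inv_smul_smul]
    have e3 : ∫⁻ η in S ∩ L.e x '' ball 0 3, ((fun η => ex (A.h * coc L g η)) * w) η ∂A.ν =
        ex (-A.h * coc L g (L.em x)) *
          ∫⁻ η in S ∩ L.e x '' ball 0 3, ex (-A.h * Dm L (L.em x, η)) ∂A.ν := by
      rw [← lintegral_const_mul' _ _ (ex_ne_top _)]
      refine setLIntegral_congr_fun hS' fun η hη => ?_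
      have h6 : L.em x ≠ η := fun hc => H824.em_notMem x le_rfl (hc ▸ hη.2)
      show ex _ * ex _ = ex _ * ex _
      rw [← ex_add, ← ex_add, Dm_eq (p := (g • L.em x, g • η))
        (fun hc => h6 (MulAction.injective g hc)), Dm_eq (p := (L.em x, η)) h6, D_smul g h6]
      congr 1
      ring
    rw [e2, e3, chart A x hS' inter_subset_right, ← lintegral_const_mul' _ _ (ex_ne_top _),
      inter_comm, ← Measure.restrict_restrict' measurableSet_ball]
    refine lintegral_congr_ae (ae_restrict_of_ae ?_)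
    filter_upwards [ae_restrict_mem measurableSet_ball] with u hu
    rw [A.s_smul g x u hu, ex, ← ENNReal.ofReal_mul (Real.exp_pos _).le, ← mul_assoc,
      ← Real.exp_add, coc_eq]
    congr 3
    ring
  have h1 := congrArg (fun μ : Measure B => μ.withDensity fun η => (w η)⁻¹) key
  rwa [withDensity_inv_same hwm (Eventually.of_forall fun _ => ex_ne_zero _)
    (Eventually.of_forall fun _ => ex_ne_top _), withDensity_inv_same hwm
    (Eventually.of_forall fun _ => ex_ne_zero _) (Eventually.of_forall fun _ => ex_ne_top _)] at h1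

/-- the measure `ν` is quasi-invariant -/
theorem map_nu (A : Area L) (g : Γ) :
    (A.ν.map fun η => g⁻¹ • η) = A.ν.withDensity fun η => ex (A.h * coc L g η) := by
  have := H824.secondCountable L
  have h1 := H824.ext_local (μ := A.ν.map fun η => g⁻¹ • η)
    (μ' := A.ν.withDensity fun η => ex (A.h * coc L g η)) (V := univ) fun p _ => by
      obtain ⟨x, rfl⟩ := H824.exists_ep L p
      exact ⟨_, H824.open_disc' L x le_rfl, H824.mem_disc L x (by norm_num), map_disc A g x⟩
  simpa using h1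

theorem qmp_nu (A : Area L) (g : Γ) :
    Measure.QuasiMeasurePreserving (fun η : B => g • η) A.ν A.ν := by
  refine ⟨smul_meas g, ?_⟩
  have h1 := map_nu A g⁻¹
  rw [inv_inv] at h1
  rw [h1]
  exact withDensity_absolutelyContinuous _ _

instance (A : Area L) : IsFiniteMeasure A.ν := A.ν_finite

instance (A : Area L) : NullSingletonClass A.ν := ⟨A.ν_point⟩

/-- the invariant measure on pairs of end points -/
def mu2 (A : Area L) : Measure (B × B) := (A.ν.prod A.ν).withDensity fun p => ex (-A.h * Dm L p)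

instance (A : Area L) : SFinite (mu2 A) := by
  unfold mu2
  infer_instance

theorem ae_off (A : Area L) : ∀ᵐ p ∂(A.ν.prod A.ν), p.1 ≠ p.2 := by
  have := H824.secondCountable L
  refine (Measure.ae_prod_iff_ae_ae isOpen_off.measurableSet).2 (Eventually.of_forall fun ξ => ?_)
  exact (Measure.ae_ne A.ν ξ).mono fun η h => h.symm

theorem dens_meas (A : Area L) : Measurable fun p : B × B => ex (-A.h * Dm L p) :=
  ex_meas.comp (Dm_meas.const_mul _)

theorem mu2_ac (A : Area L) : mu2 A ≪ A.ν.prod A.ν := withDensity_absolutelyContinuous _ _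

theorem ac_mu2 (A : Area L) : A.ν.prod A.ν ≪ mu2 A :=
  withDensity_absolutelyContinuous' (dens_meas A).aemeasurable
    (Eventually.of_forall fun _ => ex_ne_zero _)

theorem ae_mu2 (A : Area L) : ae (mu2 A) = ae (A.ν.prod A.ν) :=
  le_antisymm (mu2_ac A).ae_le (ac_mu2 A).ae_le

theorem mu2_smul (A : Area L) (g : Γ) :
    MeasurePreserving (fun p : B × B => (g • p.1, g • p.2)) (mu2 A) (mu2 A) := by
  have hm : ∀ k : Γ, Measurable fun p : B × B => (k • p.1, k • p.2) := fun k =>
    ((smul_meas k).comp measurable_fst).prodMk ((smul_meas k).comp measurable_snd)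
  have hcm : Measurable fun η => ex (A.h * coc L g⁻¹ η) :=
    ex_meas.comp ((coc_meas g⁻¹).const_mul _)
  have h1 : (A.ν.prod A.ν).map (fun p : B × B => (g • p.1, g • p.2)) = (A.ν.prod A.ν).withDensity
      fun p => ex (A.h * coc L g⁻¹ p.1) * ex (A.h * coc L g⁻¹ p.2) := by
    have h2 := map_nu A g⁻¹
    rw [inv_inv] at h2
    rw [← prod_withDensity hcm hcm, ← h2, Measure.map_prod_map _ _ (smul_meas g) (smul_meas g)]
    rfl
  refine ⟨hm g, Measure.ext_of_lintegral _ fun f hf => ?_⟩
  have h3 : Measurable fun p : B × B => ex (-A.h * Dm L (g⁻¹ • p.1, g⁻¹ • p.2)) * f p :=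
    ((dens_meas A).comp (hm g⁻¹)).mul hf
  rw [lintegral_map hf (hm g), mu2, lintegral_withDensity_eq_lintegral_mul _ (dens_meas A)
    (g := fun p : B × B => f (g • p.1, g • p.2)) (hf.comp (hm g)),
    lintegral_withDensity_eq_lintegral_mul _ (dens_meas A) hf]
  have h4 := lintegral_map (μ := A.ν.prod A.ν) h3 (hm g)
  simp only [inv_smul_smul] at h4
  refine h4.symm.trans ?_
  rw [h1, lintegral_withDensity_eq_lintegral_mul _
    (f := fun p : B × B => ex (A.h * coc L g⁻¹ p.1) * ex (A.h * coc L g⁻¹ p.2))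
    ((hcm.comp measurable_fst).mul (hcm.comp measurable_snd)) h3]
  refine lintegral_congr_ae ((ae_off A).mono fun p hp => ?_)
  show ex _ * ex _ * (ex _ * f p) = ex _ * f p
  rw [← mul_assoc, ← ex_add, ← ex_add, Dm_eq (p := (g⁻¹ • p.1, g⁻¹ • p.2))
    (fun hc => hp (MulAction.injective g⁻¹ hc)), Dm_eq hp, D_smul g⁻¹ hp]
  congr 2
  ring

/-- the invariant measure on triples -/
def mY (A : Area L) (τ : ℝ) : Measure (Yt L τ) :=
  Measure.comap (fun p : Yt L τ => (p.1 : (B × B) × ℝ)) ((mu2 A).prod volume)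

variable {τ : ℝ}

theorem val_emb : MeasurableEmbedding fun p : Yt L τ => (p.1 : (B × B) × ℝ) := by
  have := H824.secondCountable L
  exact MeasurableEmbedding.subtype_coe (H824.isOpen_ne (B := B)).measurableSet

theorem ae_off3 (A : Area L) : ∀ᵐ q ∂((mu2 A).prod (volume : Measure ℝ)), q.1.1 ≠ q.1.2 :=
  Measure.quasiMeasurePreserving_fst.ae ((mu2_ac A).ae_le (ae_off A))

theorem val_mp (A : Area L) : MeasurePreserving (fun p : Yt L τ => (p.1 : (B × B) × ℝ)) (mY A τ)
    ((mu2 A).prod volume) := by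
  refine ⟨val_emb.measurable, ?_⟩
  rw [mY, val_emb.map_comap]
  exact Measure.restrict_eq_self_of_ae_mem ((ae_off3 A).mono fun q hq => ⟨⟨q, hq⟩, rfl⟩)

theorem mp_of (A : Area L) {T : Yt L τ → Yt L τ} {T' : (B × B) × ℝ → (B × B) × ℝ}
    (hT : Measurable T) (h : ∀ p, (T p).1 = T' p.1)
    (h' : MeasurePreserving T' ((mu2 A).prod volume) ((mu2 A).prod volume)) :
    MeasurePreserving T (mY A τ) (mY A τ) := by
  refine ⟨hT, val_emb.map_injective ?_⟩
  rw [Measure.map_map val_emb.measurable hT, (val_mp A).map_eq]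
  have h1 : ((fun p : Yt L τ => (p.1 : (B × B) × ℝ)) ∘ T) =
      T' ∘ fun p : Yt L τ => (p.1 : (B × B) × ℝ) := funext h
  rw [h1]
  exact (h'.comp (val_mp A)).map_eq

instance : MeasurableConstSMul Γ (Yt L τ) := ⟨fun g => (continuous_const_smul g).measurable⟩

theorem smul_mp (A : Area L) (g : Γ) :
    MeasurePreserving (fun p : Yt L τ => g • p) (mY A τ) (mY A τ) :=
  mp_of A (T' := fun q => ((g • q.1.1, g • q.1.2), q.2 + coc L g q.1.1 / τ))
    (measurable_const_smul g) (fun _ => rfl)
    ((mu2_smul A g).skew_product (g := fun (p : B × B) (t : ℝ) => t + coc L g p.1 / τ)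
      (measurable_snd.add (((coc_meas g).comp measurable_fst.fst).div_const τ))
      (Eventually.of_forall fun _ => map_add_right_eq_self _ _))

instance (A : Area L) : SMulInvariantMeasure Γ (Yt L τ) (mY A τ) :=
  ⟨fun g _ hs => (smul_mp A g).measure_preimage hs.nullMeasurableSet⟩

theorem fl_mp (A : Area L) (s : ℝ) : MeasurePreserving (fl L τ s) (mY A τ) (mY A τ) :=
  mp_of A (T' := fun q => (q.1, q.2 + s)) (fl_cont' s).measurable (fun _ => rfl)
    ((MeasurePreserving.id (mu2 A)).prod (measurePreserving_add_right volume s))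

theorem mu2_cpt (A : Area L) {K : Set (B × B)} (hK : IsCompact K) (h : ∀ p ∈ K, p.1 ≠ p.2) :
    mu2 A K < ⊤ := by
  have := H824.secondCountable L
  obtain ⟨C, hC⟩ := (hK.image_of_continuousOn
    (continuousOn_const.mul ((Dm_contOn (L := L)).mono h) : ContinuousOn
      (fun p => -A.h * Dm L p) K)).bddAbove
  rw [mu2, withDensity_apply _ hK.measurableSet]
  refine (setLIntegral_mono' hK.measurableSet (g := fun _ => ex C) fun p hp =>
    ENNReal.ofReal_le_ofReal (Real.exp_le_exp.2 (hC ⟨p, hp, rfl⟩))).trans_lt ?_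
  rw [setLIntegral_const]
  exact ENNReal.mul_lt_top (ex_ne_top _).lt_top (measure_lt_top _ _)

instance (A : Area L) : IsFiniteMeasureOnCompacts (mY A τ) where
  lt_top_of_isCompact K hK := by
    have h1 : IsCompact ((fun p : Yt L τ => (p.xi, p.eta)) '' K) :=
      hK.image (xi_cont.prodMk eta_cont)
    have h2 : IsCompact (Yt.tm '' K) := hK.image tm_cont
    rw [mY, val_emb.comap_apply]
    refine (measure_mono (t := ((fun p : Yt L τ => (p.xi, p.eta)) '' K) ×ˢ (Yt.tm '' K)) ?_).trans_lt
      ?_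
    · rintro _ ⟨p, hp, rfl⟩
      exact ⟨⟨p, hp, rfl⟩, p, hp, rfl⟩
    · rw [Measure.prod_prod]
      refine ENNReal.mul_lt_top (mu2_cpt A h1 ?_) h2.measure_lt_top
      rintro _ ⟨p, _, rfl⟩
      exact p.ne

theorem mY_ne (A : Area L) : mY A τ ≠ 0 := by
  intro h
  have h1 := (val_mp (τ := τ) A).map_eq
  rw [h, Measure.map_zero] at h1
  have h2 : ((mu2 A).prod (volume : Measure ℝ)) (univ ×ˢ univ) = 0 := by rw [← h1]; rfl
  rw [Measure.prod_prod, mul_eq_zero] at h2
  rcases h2 with h2 | h2
  · have h3 := ac_mu2 A h2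
    rw [← univ_prod_univ, Measure.prod_prod, mul_self_eq_zero, Measure.measure_univ_eq_zero] at h3
    exact A.ν_ne h3
  · simp at h2

/-- transfer of almost sure statements from pairs to triples -/
theorem ae_pair (A : Area L) {P : B × B → Prop} :
    (∀ᵐ p ∂(mY A τ), P (p.xi, p.eta)) ↔ ∀ᵐ q ∂(A.ν.prod A.ν), P q := by
  rw [← ae_mu2]
  have h1 : (∀ᵐ p ∂(mY A τ), P (p.xi, p.eta)) ↔
      ∀ᵐ q ∂((mu2 A).prod (volume : Measure ℝ)), P q.1 := by
    rw [← (val_mp (τ := τ) A).map_eq, val_emb.ae_map_iff]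
    rfl
  rw [h1]
  refine ⟨fun h => ?_, fun h => Measure.quasiMeasurePreserving_fst.ae h⟩
  have h2 := Measure.ae_ae_of_ae_prod h
  refine h2.mono fun q hq => ?_
  exact (hq.exists).elim fun _ h => h

variable [Fact (0 < τ)]

theorem gsys (A : Area L) {Z : Set (Yt L τ)} (h1 : MeasurableSet Z)
    (h2 : ∃ K, IsCompact K ∧ Z ⊆ K) (h3 : ∀ p, ∃! g : Γ, g • p ∈ Z) :
    MET.GSys Γ (mY A τ) Z (fl L τ) where
  act := ⟨fl_zero, fl_add⟩
  mp n := fl_mp A n
  comm t g y := fl_smul g t y
  fund := IsFundamentalDomain.mk' h1.nullMeasurableSet h3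
  fin := h2.elim fun _ hK => ((measure_mono hK.2).trans_lt hK.1.measure_lt_top).ne

end Vale.Agent.P207Z.CS
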