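import Vale.Agent.P207Z.CS.Symp
import Vale.Agent.P207Z.CS.Meas
import Vale.Agent.P207Z.Tim
import Vale.Agent.P207.N3.H862.JC2

/-!
# P207, block CS: the time functions of the straight charts
-/

set_option linter.all false

open Set Filter Topology Metric MeasureTheory
open scoped ContDiff

noncomputable section

namespace Vale.Agent.P207Z.CS

open Vale.Agent.P207.N4 Vale.Agent.P207.N3
open Vale.Agent.P207.N4.H709 (NuPos)

section Prim

variable {Z E : Type} [TopologicalSpace Z] [NormedAddCommGroup E] [NormedSpace ℝ E]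
  {β : Z → E → E →L[ℝ] ℝ}

/-- the radial primitive of a one-form -/
def prim (β : Z → E → E →L[ℝ] ℝ) (x : Z) (z : E) : ℝ := ∫ t in (0 : ℝ)..1, β x (t • z) z

theorem smul_mem_ball {z : E} (hz : z ∈ ball (0 : E) 1) {t : ℝ} (ht : t ∈ uIcc (0 : ℝ) 1) :
    t • z ∈ ball (0 : E) 1 := by
  rw [uIcc_of_le zero_le_one] at ht
  exact (convex_ball (0 : E) 1).smul_mem_of_zero_mem (mem_ball_self one_pos) hz ht

theorem prim_jc [FirstCountableTopology Z] (h : JC β (univ ×ˢ ball 0 1)) :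
    JC (prim β) (univ ×ˢ ball 0 1) := by
  have h1 : JC (fun (p : Z × ℝ) (u : E) => p.2 • u) univ :=
    (JC.param' isOpen_univ continuous_snd).smul (JC.id isOpen_univ)
  have h2 := (h.pullback (c := fun p : Z × ℝ => p.1) continuous_fst).comp h1
  exact (h2.clm_apply (JC.id h2.isOpen)).integral.mono h.isOpen fun p hp t ht =>
    ⟨mem_univ _, mem_univ _, smul_mem_ball hp.2 ht⟩

theorem prim_deriv (h : JC β (univ ×ˢ ball 0 1)) {x : Z}
    (hs : ∀ z ∈ ball (0 : E) 1, ∀ v w, fderiv ℝ (β x) z v w = fderiv ℝ (β x) z w v) {z : E}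
    (hz : z ∈ ball (0 : E) 1) : HasFDerivAt (prim β x) (β x z) z := by
  have h0 : ∀ u ∈ ball (0 : E) 1, HasFDerivWithinAt (β x) (fderiv ℝ (β x) u) (ball 0 1) u :=
    fun u hu => (h.hasFDerivAt (p := (x, u)) ⟨mem_univ _, hu⟩).hasFDerivWithinAt
  have h1 := (convex_ball (0 : E) 1)
    |>.hasFDerivWithinAt_curveIntegral_segment_of_hasFDerivWithinAt_symmetric h0
    (fun u hu v _ w _ => hs u hu v w) (mem_ball_self one_pos) hz
  refine (h1.hasFDerivAt (isOpen_ball.mem_nhds hz)).congr_of_eventuallyEq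
    (Eventually.of_forall fun u => ?_)
  simp [prim, curveIntegral_segment, AffineMap.lineMap_apply]

theorem prim_zero (x : Z) : prim β x 0 = 0 := by simp [prim]

theorem const_of_deriv {f : E → ℝ} (h : ∀ a ∈ ball (0 : E) 1, HasFDerivAt f (0 : E →L[ℝ] ℝ) a)
    {a : E} (ha : a ∈ ball (0 : E) 1) : f a = f 0 :=
  isOpen_ball.is_const_of_fderiv_eq_zero (𝕜 := ℝ) (convex_ball _ _).isPreconnected
    (fun u hu => (h u hu).differentiableAt.differentiableWithinAt) (fun u hu => (h u hu).fderiv) ha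
    (mem_ball_self one_pos)

end Prim

variable [Dim]

variable {Γ X B : Type} [Group Γ] [MetricSpace X] [ProperSpace X] [MulAction Γ X]
  [IsIsometricSMul Γ X] [TopologicalSpace B] [CompactSpace B] [T2Space B] [MulAction Γ B]
  [ContinuousConstSMul Γ B] {L : Leaf Γ X B} {T : Tens L} {S : Bus L T} {r : ℝ}

variable (K : Str S r)

/-- the difference of two primitives of the symplectic form -/
def bet (x : Xd X) (z : W) : W →L[ℝ] ℝ :=
  innerSL ℝ (K.κ x z).2 ∘L (ContinuousLinearMap.fst ℝ E2 E2 ∘L fderiv ℝ (K.κ x) z) +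
    K.c • (innerSL ℝ z.1 ∘L ContinuousLinearMap.snd ℝ E2 E2)

theorem bet_apply (x : Xd X) (z v : W) :
    bet K x z v = liou (K.κ x) z v + K.c * inner ℝ z.1 v.2 := rfl

theorem bet_jc : JC (bet K) (univ ×ˢ ball 0 1) :=
  ((K.κ_jc.snd.clm (innerSL ℝ)).clm_comp ((JC.const K.κ_jc.isOpen _).clm_comp K.κ_jc.fderiv)).add
    ((((JC.id K.κ_jc.isOpen).fst.clm (innerSL ℝ)).clm_comp (JC.const K.κ_jc.isOpen _)).const_smul _)

theorem bet_symm (x : Xd X) {z : W} (hz : z ∈ ball (0 : W) 1) (v w : W) :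
    fderiv ℝ (bet K x) z v w = fderiv ℝ (bet K x) z w v := by
  have key : ∀ v w, fderiv ℝ (bet K x) z v w =
      inner ℝ (K.κ x z).2 (fderiv ℝ (fderiv ℝ (K.κ x)) z v w).1 +
        inner ℝ (fderiv ℝ (K.κ x) z v).2 (fderiv ℝ (K.κ x) z w).1 + K.c * inner ℝ w.2 v.1 := by
    intro v w
    obtain ⟨A, h1, h2⟩ := liou_deriv (κ_smooth K x hz) w
    have h3 : HasFDerivAt (fun u : W => K.c * inner ℝ u.1 w.2)
        (K.c • (innerSL ℝ w.2 ∘L ContinuousLinearMap.fst ℝ E2 E2)) z :=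
      (K.c • (innerSL ℝ w.2 ∘L ContinuousLinearMap.fst ℝ E2 E2)).hasFDerivAt.congr_of_eventuallyEq
        (Eventually.of_forall fun u => congrArg (K.c * ·) (real_inner_comm _ _))
    have h4 := ((ContinuousLinearMap.apply ℝ ℝ w).hasFDerivAt.comp z
      ((bet_jc K).hasFDerivAt (p := (x, z)) ⟨mem_univ _, hz⟩)).unique (h1.add h3)
    rw [← h2]
    exact congrArg (fun A : W →L[ℝ] ℝ => A v) h4
  have h1 := K.symp x z hz v w
  rw [key, key, (((κ_smooth K x hz).of_le two_le_infty).isSymmSndFDerivAt (by simp)).eq w v]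
  rw [om, om, real_inner_comm (fderiv ℝ (K.κ x) z w).2, real_inner_comm w.2] at h1
  linarith

/-- the gauge function -/
def gau : Xd X → W → ℝ := prim (bet K)

theorem gau_jc : JC (gau K) (univ ×ˢ ball 0 1) := prim_jc (bet_jc K)

theorem gau_deriv (x : Xd X) {z : W} (hz : z ∈ ball (0 : W) 1) :
    HasFDerivAt (gau K x) (bet K x z) z := prim_deriv (bet_jc K) (fun _ => bet_symm K x) hz

theorem gau_zero (x : Xd X) : gau K x 0 = 0 := prim_zero x

theorem gau_smul (g : Γ) (x : Xd X) {z : W} (hz : z ∈ ball (0 : W) 1) :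
    gau K (g • x) z = gau K x z := by
  refine intervalIntegral.integral_congr fun t ht => ?_
  have h1 := smul_mem_ball hz ht
  have h2 : K.κ (g • x) =ᶠ[𝓝 (t • z)] K.κ x := by
    filter_upwards [isOpen_ball.mem_nhds h1] with u hu using K.κ_smul g x u hu
  simp only [bet, h2.fderiv_eq, h2.eq_of_nhds]

theorem gau_tau_jc (hr : Rad S r) (hC : CrossJC S) : JC (fun (p : Xd X × Xd X) q =>
    gau K p.1 q - gau K p.2 (ttau (ch K) p.1 p.2 q)) (chD K) :=
  (((gau_jc K).pullback (c := fun p : Xd X × Xd X => p.1) continuous_fst).mono (chD_open K hr)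
    fun _ hp => ⟨mem_univ _, hp.1⟩).sub
    (((gau_jc K).pullback (c := fun p : Xd X × Xd X => p.2) continuous_snd).comp' (tau_jc K hr hC)
      fun _ hp => ⟨mem_univ _, (tau_spec K hp).1⟩)

theorem tau_smul (hr : Rad S r) (g : Γ) {x y : Xd X} {q : W} (hq : q ∈ tdom (ch K) x y) :
    ttau (ch K) (g • x) (g • y) q = ttau (ch K) x y q :=
  tau_eq K hr (tau_spec K hq).1 (by
    rw [ch_smul K hr g y (tau_spec K hq).1, ch_smul K hr g x hq.1, (tau_spec K hq).2])

theorem shift_smul (hr : Rad S r) (g : Γ) {x y : Xd X} {q : W} (hq : q ∈ tdom (ch K) x y) :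
    shift K (g • x) (g • y) q = shift K x y q := by
  have h1 := (tau_spec K hq).1
  rw [shift, shift, tau_smul K hr g hq, ch_smul K hr g x hq.1, K.κ_smul g y _ h1,
    K.κ_smul g x _ hq.1, tm, tm, tm, tm, Prod.smul_fst, Prod.smul_fst, Prod.smul_fst,
    S.be_smul g _ _ _ (ch_rel K hr y h1).mem, S.be_smul g _ _ _ (ch_rel K hr x hq.1).mem]
  linarith [S.b_smul g (ch K x q).1 y.1 x.1]

theorem D_diag (S : Bus L T) (ζ : B) (C : ℝ) :
    ∀ᶠ p : B × B in 𝓝 (ζ, ζ), p.1 ≠ p.2 → H824.D L p.1 p.2 ≤ C := by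
  obtain ⟨x, h1, h2⟩ : ∃ x, L.em x = ζ ∧ L.lv x = (C - 1) / 2 := by
    obtain ⟨y⟩ := L.nonempty
    obtain ⟨η, hη⟩ : ∃ η, ζ ≠ η := by
      by_contra h
      push Not at h
      exact L.em_ne_ep y ((h _).symm.trans (h _))
    obtain ⟨x, h1, -, h2⟩ := L.exists_frame ζ η hη ((C - 1) / 2)
    exact ⟨x, h1, h2⟩
  have h3 : Continuous fun p : B × B => S.b p.1 x + S.b p.2 x :=
    (S.b_cont.comp (f := fun p : B × B => (p.1, x)) (by fun_prop)).add
      (S.b_cont.comp (f := fun p : B × B => (p.2, x)) (by fun_prop))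
  filter_upwards [h3.continuousAt.eventually_lt (x₀ := (ζ, ζ)) (continuousAt_const (y := C)) (by
    simp only [← h1, S.b_em, h2]
    linarith)] with p hp hne
  obtain ⟨z, a1, a2, -⟩ := L.exists_frame _ _ hne 0
  rw [← a1, ← a2] at hp ⊢
  rw [H824.D_eq]
  exact (S.le x z).trans hp.le

/-- the time function of the chart -/
def tim (x : Xd X) (z : W) : ℝ := tm S x.1 (ch K x z).1 (K.κ x z).1 - gau K x z

theorem tim_U (hr : Rad S r) (hn : NuPos S) (x : Xd X) {a : E2} (ha : a ∈ ball (0 : E2) 1) :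
    tim K x (0, a) = L.lv x.1 := by
  have hm : ∀ a ∈ ball (0 : E2) 1, ((0, a) : W) ∈ ball (0 : W) 1 := fun a ha => by
    simpa [Prod.norm_def] using ha
  have h1 := const_of_deriv (f := fun a => tm S x.1 (L.em x.1) (K.κ x (0, a)).1 - gau K x (0, a))
    (fun a ha => by
      have h := ch_rel K hr x (hm a ha)
      have hγ := (ContinuousLinearMap.inr ℝ E2 E2).hasFDerivAt (x := a)
      obtain ⟨A, a1, a2⟩ := tm_deriv (S := S) x.1 (L.em x.1) hγ.differentiableAt
        (κ_diff K x (hm a ha)) h.mem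
      refine (a1.sub ((gau_deriv K x (hm a ha)).comp a hγ)).congr_fderiv ?_
      ext v
      rw [hγ.fderiv, ← (ch_U K hr hn x (hm a ha)).2 rfl] at a2
      have a3 := a2 v
      simp only [ContinuousLinearMap.inr_apply] at a3
      rw [h.grad] at a3
      simp [a3, bet_apply, liou]) ha
  rw [tim, (ch_U K hr hn x (hm a ha)).2 rfl, h1, Prod.mk_zero_zero, K.κ_zero, gau_zero, tm,
    Prod.fst_zero, S.be_zero, S.b_em]
  ring

theorem tim_S (hr : Rad S r) (hn : NuPos S) (x : Xd X) {w : E2} (hw : w ∈ ball (0 : E2) 1) :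
    H824.D L (ch K x (w, 0)).1 (ch K x (w, 0)).2 - tim K x (w, 0) = L.lp x.1 := by
  have hm : ∀ a ∈ ball (0 : E2) 1, ((a, 0) : W) ∈ ball (0 : W) 1 := fun a ha => by
    simpa [Prod.norm_def] using ha
  have h1 := const_of_deriv (f := fun a => tm S x.1 (L.ep x.1) (K.κ x (a, 0)).1 + gau K x (a, 0))
    (fun a ha => by
      have h := ch_rel K hr x (hm a ha)
      have hγ := (ContinuousLinearMap.inl ℝ E2 E2).hasFDerivAt (x := a)
      obtain ⟨A, a1, a2⟩ := tm_deriv (S := S) x.1 (L.ep x.1) hγ.differentiableAt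
        (κ_diff K x (hm a ha)) h.mem
      refine (a1.add ((gau_deriv K x (hm a ha)).comp a hγ)).congr_fderiv ?_
      ext v
      rw [hγ.fderiv, ← (ch_S K hr hn x (hm a ha)).2 rfl] at a2
      have a3 := a2 v
      simp only [ContinuousLinearMap.inl_apply] at a3
      rw [h.grad2] at a3
      simp [a3, bet_apply, liou]) hw
  obtain ⟨y, b1, b2, b3, b4⟩ := (ch_rel K hr x (hm w hw)).exists_fr
  have h2 := H824.D_eq L y
  rw [b1, b2, b3, b4] at h2
  rw [h2, tim, (ch_S K hr hn x (hm w hw)).2 rfl]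
  simp only [Prod.mk_zero_zero, K.κ_zero, gau_zero, tm, Prod.fst_zero, S.be_zero, S.b_ep] at h1 ⊢
  linarith

theorem al_tau (hr : Rad S r) (hC : CrossJC S) {x y : Xd X} {q : W} (hq : q ∈ tdom (ch K) x y)
    (v : W) : inner ℝ (ttau (ch K) x y q).1 (fderiv ℝ (ttau (ch K) x y) q v).2 =
      inner ℝ q.1 v.2 + -K.c⁻¹ * fderiv ℝ (fun q => shift K x y q +
        (gau K x q - gau K y (ttau (ch K) x y q))) q v := by
  have h1 := ((shift_jc K hr hC).hasFDerivAt (p := ((x, y), q)) hq).add ((gau_deriv K x hq.1).sub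
    ((gau_deriv K y (tau_spec K hq).1).comp q (tau_diff K hr hC hq).hasFDerivAt))
  have h2 := congrArg (fun A : W →L[ℝ] ℝ => A v) h1.fderiv
  have h3 := tau_liou K hr hC hq v
  simp only [add_apply, sub_apply, ContinuousLinearMap.comp_apply, bet_apply, liou] at h2
  erw [h2]
  rw [← h3]
  have := K.c_ne
  field_simp
  ring

variable [MeasurableSpace B] [BorelSpace B] [Countable Γ] [MeasurableSpace X] [BorelSpace X]
  [SecondCountableTopology B]

theorem exists_tim (hr : Rad S r) (hn : NuPos S) (hC : CrossJC S) {A : Area L}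
    {Z : Sys Γ (Xd X) B E2 W} (hZ : Over K A Z) {b : Module.Basis (Fin Dim.m) ℝ E2} (M : Marg Z b)
    (hM : ∀ x y, ∀ q ∈ Z.dom x y, |M.f x y q| = Real.exp (A.h * shift K x y q)) :
    ∃ M' : Marg Z b, Nonempty (Tim Z M') := by
  have hτ : Z.τ = ttau (ch K) := by rw [← hZ.c]; rfl
  have hd : Z.dom = tdom (ch K) := by rw [← hZ.c]; rfl
  have hD : Z.Dm = chD K := by rw [Sys.Dm, hd]; rfl
  have hG := gau_tau_jc K hr hC
  have hE : JC (fun x z => Real.exp (-A.h * gau K x z)) (univ ×ˢ ball 0 1) :=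
    ((JC.const (gau_jc K).isOpen _).mul (gau_jc K)).exp
  have hax : ∀ (i : E2 →L[ℝ] W), (∀ a, ‖i a‖ = ‖a‖) →
      JC (fun x a => Real.exp (-A.h * gau K x (i a))) (univ ×ˢ ball 0 1) := fun i hi =>
    hE.comp' (JC.of_contDiff i.contDiff (isOpen_univ.prod isOpen_ball)) fun p hp =>
      ⟨mem_univ _, by simpa [hi] using hp.2⟩
  refine ⟨{
    f := fun x y q => M.f x y q * Real.exp (A.h * (gau K x q - gau K y (ttau (ch K) x y q)))
    f_jc := M.f_jc.mul (hD ▸ ((JC.const hG.isOpen _).mul hG).exp)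
    es := fun x z => Real.exp (-A.h * gau K x z) • M.es x z
    es_cont := hE.continuousOn.smul M.es_cont
    es_smul := fun g x q hq => by rw [gau_smul K g x hq, M.es_smul g x q hq]
    es_eqv := fun x y q hq => ?_
    es_ne := fun x q hq => smul_ne_zero (Real.exp_ne_zero _) (M.es_ne x q hq)
    es_zero := fun x => (M.es_zero x).imp fun s hs v => by
      rw [gau_zero, mul_zero, Real.exp_zero, one_smul, hs]
    es_S := (hax Z.iS fun a => by simp [hZ.iS, Prod.norm_def]).smul M.es_S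
    es_U := fun x => (((hax Z.iU fun a => by simp [hZ.iU, Prod.norm_def]).smooth x).mono
      fun a ha => ⟨mem_univ _, ha⟩).mul (M.es_U x) }, ⟨{
    D := fun p => H824.D L p.1 p.2
    D_pt := fun x => by rw [Sys.pt, hZ.em, hZ.ep, hZ.lv, hZ.lp, H824.D_eq]
    D_cont := H824.D_cont L
    D_diag := D_diag S
    T := tim K
    T_U := fun x a ha => by rw [hZ.iU, hZ.lv]; exact tim_U K hr hn x ha
    T_S := fun x w hw => by rw [hZ.iS, hZ.lp, hZ.c]; exact tim_S K hr hn x hw
    dt := fun x y q => shift K x y q + (gau K x q - gau K y (ttau (ch K) x y q))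
    dt_eq := fun x y q hq => ?_
    dt_jc := hD ▸ (shift_jc K hr hC).add hG
    dt_smul := fun g x y q hq => ?_
    κ := -K.c⁻¹
    κ_ne := neg_ne_zero.2 (inv_ne_zero K.c_ne)
    al_τ := fun x y q hq => ?_
    h := A.h
    f_abs := fun x y q hq => by
      rw [abs_mul, hM x y q hq, abs_of_pos (Real.exp_pos _), ← Real.exp_add, mul_add] }⟩⟩
  · ext v
    simp only [M.es_eqv x y q hq, ContinuousAlternatingMap.smul_apply,
      ContinuousAlternatingMap.compContinuousLinearMap_apply, smul_eq_mul]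
    rw [hτ, ← mul_assoc, ← mul_assoc, mul_assoc (M.f x y q), ← Real.exp_add, mul_comm (M.f x y q)]
    congr 3
    ring
  · rw [hd] at hq
    rw [hτ, tim, tim, (tau_spec K hq).2, shift]
    ring
  · rw [hd] at hq
    rw [shift_smul K hr g hq, tau_smul K hr g hq, gau_smul K g x hq.1,
      gau_smul K g y (tau_spec K hq).1]
  · rw [hd] at hq
    refine ContinuousLinearMap.ext fun v => ?_
    rw [Sys.al, Sys.al, hZ.pS, hZ.pU, hτ]
    exact al_tau K hr hC hq v

end Vale.Agent.P207Z.CS
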