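import Vale.Agent.P207Z.CS.LebI
import Vale.Agent.P207Z.CS.Cross
import Vale.Agent.P207Z.CS.Str
import Vale.Agent.P207Z.CS.Marg
import Vale.Agent.P207Z.CS.TimI
import Vale.Agent.P207Z.CS.Link
import Vale.Agent.P207.N4.H229.Star
import Vale.Agent.P207.N4.Top.Suite

/-!
# P207, block CS: the abstract system of the geometric input
-/

set_option linter.all false

open Set Filter Topology Metric MeasureTheory
open scoped ContDiff

noncomputable section

namespace Vale.Agent.P207Z.CS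

open Vale.Agent.P207.N4 Vale.Agent.P207.N3
open Vale.Agent.P207.H229 (det_ne_zero_iff')

variable [Dim]

variable {Γ X B : Type} [Group Γ] [MetricSpace X] [ProperSpace X] [MulAction Γ X]
  [IsIsometricSMul Γ X] [TopologicalSpace B] [CompactSpace B] [T2Space B] [MulAction Γ B]
  [ContinuousConstSMul Γ B] {L : Leaf Γ X B} [MeasurableSpace B] [BorelSpace B] {V : Type}
  [NormedAddCommGroup V] [NormedSpace ℝ V] [FiniteDimensional ℝ V]

theorem exists_busD (S : Suite L V) : Nonempty (BusD (H709.busA S.X S.H) S.A) := by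
  have h0 : ∀ x, S.A.s x 0 * S.A.s (L.flip x) 0
      = (S.I.r₀ ^ Module.finrank ℝ E2) ^ 2 * (S.M.U x + S.M.U (L.flip x)).det := fun x => by
    rw [S.norm x, ← pow_mul, mul_comm 2 Dim.m, finrank_euclideanSpace_fin]
  exact ⟨BusD.mk' (H709.busA S.X S.H) S.A fun x y y' q hy hy' he =>
    H229.star_geo S.I S.A S.H h0 hy.1 hy'.1 he
      ((det_ne_zero_iff' _).2 ((H709.busA S.X S.H).sg_inv x y q hy.1 hy.2))
      ((det_ne_zero_iff' _).2 ((H709.busA S.X S.H).sg_inv x y' q hy'.1 hy'.2))⟩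

variable [Countable Γ] [MeasurableSpace X] [BorelSpace X] [SecondCountableTopology B]

/-- **the abstract system**, with the Lebesgue class -/
theorem exists_all' (L : Leaf Γ X B) (S : Suite L V)
    (hfl : ∃ C, ∀ x y, dist (L.flip x) (L.flip y) ≤ C * dist x y)
    (b : Module.Basis (Fin Dim.m) ℝ E2) :
    ∃ (Z : Sys Γ (Xd X) B E2 W) (M : Marg Z b), Nonempty (Flip Z) ∧ Nonempty (Prob Z (Yt L 1)) ∧
      Nonempty (Tim Z M) ∧ Leb Z ∧ ∀ TV : Bun Z W,
        (∀ x y, ∀ q ∈ Z.dom x y, TV.A x y q = fderiv ℝ (Z.τ x y) q) →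
        IsS TV (fun _ => Z.Es) → SmoothAlt S.T := by
  have hn : H709.NuPos (H709.busA S.X S.H) := fun x q hq => H709.nu_pos S.I x hq
  have hC := crossJC S.X S.H
  obtain ⟨r, hr⟩ := exists_rad _ hn
  obtain ⟨K⟩ := exists_str _ hn hr.pos hr.le_one
  obtain ⟨D⟩ := exists_busD S
  obtain ⟨Z, hZ⟩ := exists_over K hr hn hC S.A hfl
  obtain ⟨M, hM⟩ := exists_marg K hr hn hC D hZ b
  obtain ⟨M', hT⟩ := exists_tim K hr hn hC hZ M hM
  exact ⟨Z, M', exists_flip K hr hZ, exists_prob K hZ, hT, leb_of_over K hr hn hZ,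
    fun TV h1 h2 => link K hr hn hC hZ TV h1 h2⟩

/-- **the abstract system** -/
theorem exists_all (L : Leaf Γ X B) (S : Suite L V)
    (hfl : ∃ C, ∀ x y, dist (L.flip x) (L.flip y) ≤ C * dist x y)
    (b : Module.Basis (Fin Dim.m) ℝ E2) :
    ∃ (Z : Sys Γ (Xd X) B E2 W) (M : Marg Z b), Nonempty (Flip Z) ∧ Nonempty (Prob Z (Yt L 1)) ∧
      Nonempty (Tim Z M) ∧ ∀ TV : Bun Z W,
        (∀ x y, ∀ q ∈ Z.dom x y, TV.A x y q = fderiv ℝ (Z.τ x y) q) →
        IsS TV (fun _ => Z.Es) → SmoothAlt S.T := by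
  obtain ⟨Z, M, h1, h2, h3, -, h4⟩ := exists_all' L S hfl b
  exact ⟨Z, M, h1, h2, h3, h4⟩

end Vale.Agent.P207Z.CS
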