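import Vale.Agent.P207Z.CS.Tan

/-!
# P207, block CS: the transition maps are symplectic
-/

set_option linter.all false

open Set Filter Topology Metric MeasureTheory
open scoped ContDiff

noncomputable section

namespace Vale.Agent.P207Z.CS

open Vale.Agent.P207.N4 Vale.Agent.P207.N3
open Vale.Agent.P207.N4.H709 (NuPos)

variable [Dim]

variable {Γ X B : Type} [Group Γ] [MetricSpace X] [ProperSpace X] [MulAction Γ X]
  [IsIsometricSMul Γ X] [TopologicalSpace B] [CompactSpace B] [T2Space B] [MulAction Γ B]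
  [ContinuousConstSMul Γ B] {L : Leaf Γ X B} {T : Tens L} {S : Bus L T} {r : ℝ}

/-- the pull-back of the canonical one-form -/
def liou (F : W → W) (q v : W) : ℝ := inner ℝ (F q).2 (fderiv ℝ F q v).1

theorem two_le_infty : (2 : WithTop ℕ∞) ≤ ∞ :=
  WithTop.coe_le_coe.2 (le_top : (2 : ℕ∞) ≤ ⊤)

theorem fderiv_apply_const {G : Type} [NormedAddCommGroup G] [NormedSpace ℝ G] {F : W → G} {q : W}
    (hF : ContDiffAt ℝ ∞ F q) (w : W) : HasFDerivAt (fun u => fderiv ℝ F u w)
      (ContinuousLinearMap.apply ℝ G w ∘L fderiv ℝ (fderiv ℝ F) q) q :=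
  (ContinuousLinearMap.apply ℝ G w).hasFDerivAt.comp q
    (((hF.of_le two_le_infty).fderiv_right (m := 1) (by norm_num)).differentiableAt
      (by norm_num)).hasFDerivAt

theorem liou_deriv {F : W → W} {q : W} (hF : ContDiffAt ℝ ∞ F q) (w : W) :
    ∃ A : W →L[ℝ] ℝ, HasFDerivAt (fun u => liou F u w) A q ∧ ∀ v,
      A v = inner ℝ (F q).2 (fderiv ℝ (fderiv ℝ F) q v w).1 +
        inner ℝ (fderiv ℝ F q v).2 (fderiv ℝ F q w).1 :=
  ⟨_, ((hF.differentiableAt (by simp)).hasFDerivAt.snd).inner ℝ (fderiv_apply_const hF w).fst,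
    fun v => rfl⟩

theorem om_eq_of_exact {F G : W → W} {s : W → ℝ} {q : W} (hF : ContDiffAt ℝ ∞ F q)
    (hG : ContDiffAt ℝ ∞ G q) (hs : ContDiffAt ℝ ∞ s q)
    (h : ∀ᶠ u in 𝓝 q, ∀ v, fderiv ℝ s u v = liou F u v - liou G u v) (v w : W) :
    om (fderiv ℝ F q v) (fderiv ℝ F q w) = om (fderiv ℝ G q v) (fderiv ℝ G q w) := by
  have key : ∀ v w, fderiv ℝ (fderiv ℝ s) q v w =
      (inner ℝ (F q).2 (fderiv ℝ (fderiv ℝ F) q v w).1 +
        inner ℝ (fderiv ℝ F q v).2 (fderiv ℝ F q w).1) -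
      (inner ℝ (G q).2 (fderiv ℝ (fderiv ℝ G) q v w).1 +
        inner ℝ (fderiv ℝ G q v).2 (fderiv ℝ G q w).1) := by
    intro v w
    obtain ⟨A, h1, h2⟩ := liou_deriv hF w
    obtain ⟨A', h1', h2'⟩ := liou_deriv hG w
    have h3 := (fderiv_apply_const hs w).unique
      ((h1.sub h1').congr_of_eventuallyEq (h.mono fun u hu => hu w))
    rw [← h2, ← h2']
    exact congrArg (fun A : W →L[ℝ] ℝ => A v) h3
  have h1 := key v w
  have h2 := key w v
  rw [((hs.of_le two_le_infty).isSymmSndFDerivAt (by simp)).eq w v,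
    ((hF.of_le two_le_infty).isSymmSndFDerivAt (by simp)).eq w v,
    ((hG.of_le two_le_infty).isSymmSndFDerivAt (by simp)).eq w v] at h2
  rw [om, om, real_inner_comm (fderiv ℝ F q w).2, real_inner_comm (fderiv ℝ G q w).2]
  linarith

/-- the derivative of a level along a family of points -/
theorem tm_deriv (x : X) (ξ : B) {F : W → W} {γ : E2 → W} {s : E2} (hγ : DifferentiableAt ℝ γ s)
    (hF : DifferentiableAt ℝ F (γ s)) (hm : (F (γ s)).1 ∈ ball (0 : E2) 3) :
    ∃ A : E2 →L[ℝ] ℝ, HasFDerivAt (fun t => tm S x ξ (F (γ t)).1) A s ∧ ∀ a,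
      A a = inner ℝ (gradient (S.be x ξ) (F (γ s)).1) (fderiv ℝ F (γ s) (fderiv ℝ γ s a)).1 := by
  have h1 : HasFDerivAt (fun t => (F (γ t)).1) _ s := (hF.hasFDerivAt.comp s hγ.hasFDerivAt).fst
  have h2 := ((H709.be_diff S x ξ hm).hasFDerivAt.comp s h1).const_add (S.b ξ x)
  refine ⟨_, h2, fun a => ?_⟩
  rw [H709.gradient_eq_rz, H709.inner_rz]
  rfl

variable (K : Str S r)

theorem shift_deriv (hr : Rad S r) (hC : CrossJC S) {x y : Xd X} {q : W}
    (hq : q ∈ tdom (ch K) x y) (v : W) : fderiv ℝ (shift K x y) q v =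
      liou (K.κ y ∘ ttau (ch K) x y) q v - liou (K.κ x) q v := by
  have hs : DifferentiableAt ℝ (shift K x y) q :=
    (shift_jc K hr hC).differentiableAt (p := ((x, y), q)) hq
  have hF : DifferentiableAt ℝ (K.κ y ∘ ttau (ch K) x y) q :=
    (κ_diff K y (tau_spec K hq).1).comp q (tau_diff K hr hC hq)
  have hy : ∀ {u}, u ∈ tdom (ch K) x y → Rel S y.1 ((K.κ y ∘ ttau (ch K) x y) u) (ch K x u) :=
    fun hu => (tau_spec K hu).2 ▸ ch_rel K hr y (tau_spec K hu).1
  have hx := ch_rel K hr x hq.1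
  have hU : ∀ v, InU K x q v → fderiv ℝ (shift K x y) q v =
      liou (K.κ y ∘ ttau (ch K) x y) q v - liou (K.κ x) q v := by
    intro v h
    obtain ⟨a, rfl⟩ := (inU_iff K hr x hq.1 v).1 h
    have h1 := lfU_ev K hr x hq.1
    have h2 := h1.self_of_nhds.1.differentiableAt (by simp)
    have h3 := lfU_self K hr x hq.1
    obtain ⟨A, a1, a2⟩ := tm_deriv (S := S) y.1 (ch K x q).1 h2 (h3.symm ▸ hF)
      (h3.symm ▸ (hy hq).mem)
    obtain ⟨A', b1, b2⟩ := tm_deriv (S := S) x.1 (ch K x q).1 h2 (h3.symm ▸ κ_diff K x hq.1)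
      (h3.symm ▸ hx.mem)
    have h4 := ((h3.symm ▸ hs : DifferentiableAt ℝ (shift K x y)
      (lfU K x (ch K x q).1 (K.κ x q).1)).hasFDerivAt.comp _ h2.hasFDerivAt).unique
      ((a1.sub b1).congr_of_eventuallyEq (h1.mono fun t ht => by
        show shift K x y _ = _
        rw [shift, ht.2.2.2]
        rfl))
    have h5 := congrArg (fun A : E2 →L[ℝ] ℝ => A a) h4
    simp only [ContinuousLinearMap.comp_apply, ContinuousLinearMap.sub_apply] at h5
    rw [a2, b2, h3, (hy hq).grad, hx.grad] at h5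
    exact h5
  have hS : ∀ v, InS K x q v → fderiv ℝ (shift K x y) q v =
      liou (K.κ y ∘ ttau (ch K) x y) q v - liou (K.κ x) q v := by
    intro v h
    obtain ⟨a, rfl⟩ := (inS_iff K hr x hq.1 v).1 h
    have h1 := lfS_ev K hr x hq.1
    have h2 := h1.self_of_nhds.1.differentiableAt (by simp)
    have h3 := lfS_self K hr x hq.1
    obtain ⟨A, a1, a2⟩ := tm_deriv (S := S) y.1 (ch K x q).2 h2 (h3.symm ▸ hF)
      (h3.symm ▸ (hy hq).mem)
    obtain ⟨A', b1, b2⟩ := tm_deriv (S := S) x.1 (ch K x q).2 h2 (h3.symm ▸ κ_diff K x hq.1)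
      (h3.symm ▸ hx.mem)
    have h4 := ((h3.symm ▸ hs : DifferentiableAt ℝ (shift K x y)
      (lfS K x (ch K x q).2 (K.κ x q).1)).hasFDerivAt.comp _ h2.hasFDerivAt).unique
      ((b1.sub a1).congr_of_eventuallyEq (by
        filter_upwards [h1, h2.continuousAt.eventually_mem
          (h3.symm ▸ tdom_nhds K hr hq)] with t ht hu
        have h6 := (ch_rel K hr x hu.1).tm_add (hy hu)
        rw [ht.2.2.2] at h6
        show shift K x y _ = _ - _
        rw [shift]
        simp only [Function.comp] at h6 ⊢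
        linarith))
    have h5 := congrArg (fun A : E2 →L[ℝ] ℝ => A a) h4
    simp only [ContinuousLinearMap.comp_apply, ContinuousLinearMap.sub_apply] at h5
    rw [a2, b2, h3, (hy hq).grad2, hx.grad2, inner_neg_left, inner_neg_left] at h5
    rw [h5, liou, liou]
    ring
  obtain ⟨a, b, ha, hb, rfl⟩ := split_US K hr x hq.1 v
  rw [map_add, hU a ha, hS b hb]
  simp only [liou, map_add, Prod.fst_add, inner_add_right]
  ring

theorem tau_liou (hr : Rad S r) (hC : CrossJC S) {x y : Xd X} {q : W}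
    (hq : q ∈ tdom (ch K) x y) (v : W) :
    inner ℝ (K.κ y (ttau (ch K) x y q)).2
        (fderiv ℝ (K.κ y) (ttau (ch K) x y q) (fderiv ℝ (ttau (ch K) x y) q v)).1
      - inner ℝ (K.κ x q).2 (fderiv ℝ (K.κ x) q v).1 = fderiv ℝ (shift K x y) q v := by
  rw [shift_deriv K hr hC hq, liou, liou,
    fderiv_comp q (κ_diff K y (tau_spec K hq).1) (tau_diff K hr hC hq)]
  rfl

theorem tau_symp (hr : Rad S r) (hC : CrossJC S) {x y : Xd X} {q : W}
    (hq : q ∈ tdom (ch K) x y) (v w : W) :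
    om (fderiv ℝ (ttau (ch K) x y) q v) (fderiv ℝ (ttau (ch K) x y) q w) = om v w := by
  have h1 := om_eq_of_exact (F := K.κ y ∘ ttau (ch K) x y) (G := K.κ x) (s := shift K x y)
    ((κ_smooth K y (tau_spec K hq).1).comp q (tau_smooth K hr hC hq)) (κ_smooth K x hq.1)
    ((shift_jc K hr hC).contDiffAt (p := ((x, y), q)) hq)
    (by filter_upwards [tdom_nhds K hr hq] with u hu using shift_deriv K hr hC hu) v w
  rw [fderiv_comp q (κ_diff K y (tau_spec K hq).1) (tau_diff K hr hC hq),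
    ContinuousLinearMap.comp_apply, ContinuousLinearMap.comp_apply,
    K.symp y _ (tau_spec K hq).1, K.symp x q hq.1] at h1
  exact mul_left_cancel₀ K.c_ne h1

end Vale.Agent.P207Z.CS
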