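import Vale.Agent.P207Z.CS.Chart

/-!
# P207, block CS: the tangent spaces of the two foliations in the straight charts
-/

set_option linter.all false

open Set Filter Topology Metric MeasureTheory
open scoped ContDiff

noncomputable section

namespace Vale.Agent.P207Z.CS

open Vale.Agent.P207.N4 Vale.Agent.P207.N3
open Vale.Agent.P207.N4.H709 (NuPos)

variable [Dim]

variable {Γ X B : Type} [Group Γ] [MetricSpace X] [ProperSpace X] [MulAction Γ X]
  [IsIsometricSMul Γ X] [TopologicalSpace B] [CompactSpace B] [T2Space B] [MulAction Γ B]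
  [ContinuousConstSMul Γ B] {L : Leaf Γ X B} {T : Tens L} {S : Bus L T} {r : ℝ}

variable (K : Str S r)

/-! ### the straightening maps -/

theorem κ_smooth (x : Xd X) {z : W} (hz : z ∈ ball (0 : W) 1) : ContDiffAt ℝ ∞ (K.κ x) z :=
  K.κ_jc.contDiffAt (p := (x, z)) ⟨mem_univ _, hz⟩

theorem κ_diff (x : Xd X) {z : W} (hz : z ∈ ball (0 : W) 1) : DifferentiableAt ℝ (K.κ x) z :=
  K.κ_jc.differentiableAt (p := (x, z)) ⟨mem_univ _, hz⟩

theorem ι_smooth (x : Xd X) {w : W} (hw : w ∈ K.κ x '' ball 0 1) : ContDiffAt ℝ ∞ (K.ι x) w :=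
  K.ι_jc.contDiffAt (p := (x, w)) hw

theorem im_open (x : Xd X) : IsOpen (K.κ x '' ball 0 1) := isOpen_slice K.ι_jc.isOpen x

theorem dκ_inj (x : Xd X) {z : W} (hz : z ∈ ball (0 : W) 1) :
    Function.Injective (fderiv ℝ (K.κ x) z) := by
  have h1 : (K.ι x ∘ K.κ x) =ᶠ[𝓝 z] id := by
    filter_upwards [isOpen_ball.mem_nhds hz] with u hu using K.ι_κ x u hu
  have h2 := h1.fderiv_eq (𝕜 := ℝ)
  rw [fderiv_comp z ((ι_smooth K x (mem_image_of_mem _ hz)).differentiableAt (by simp))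
    (κ_diff K x hz), fderiv_id] at h2
  intro v w h
  have h3 := congrArg (fun A : W →L[ℝ] W => A v) h2
  have h4 := congrArg (fun A : W →L[ℝ] W => A w) h2
  simp only [ContinuousLinearMap.comp_apply, ContinuousLinearMap.id_apply] at h3 h4
  rw [← h3, h, h4]

theorem dκ_surj (x : Xd X) {z : W} (hz : z ∈ ball (0 : W) 1) :
    Function.Surjective (fderiv ℝ (K.κ x) z) :=
  (LinearMap.injective_iff_surjective (f := (fderiv ℝ (K.κ x) z : W →ₗ[ℝ] W))).1 (dκ_inj K x hz)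

/-- lifts of graphs -/
theorem lf_ev (x : Xd X) {z : W} (hz : z ∈ ball (0 : W) 1) {g : E2 → E2}
    (hg : ∀ᶠ q in 𝓝 (K.κ x z).1, ContDiffAt ℝ ∞ g q) (h0 : g (K.κ x z).1 = (K.κ x z).2) :
    ∀ᶠ q in 𝓝 (K.κ x z).1, ContDiffAt ℝ ∞ (fun q => K.ι x (q, g q)) q ∧
      K.ι x (q, g q) ∈ ball (0 : W) 1 ∧ K.κ x (K.ι x (q, g q)) = (q, g q) := by
  have h1 : ContinuousAt (fun q => ((q, g q) : W)) (K.κ x z).1 :=
    continuousAt_id.prodMk hg.self_of_nhds.continuousAt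
  have h2 : ∀ᶠ q in 𝓝 (K.κ x z).1, ((q, g q) : W) ∈ K.κ x '' ball 0 1 :=
    h1.eventually_mem ((im_open K x).mem_nhds (by
      show (((K.κ x z).1, g (K.κ x z).1) : W) ∈ _
      rw [h0]
      exact mem_image_of_mem _ hz))
  filter_upwards [hg, h2] with q h3 h4
  refine ⟨(ι_smooth K x h4).comp q (contDiffAt_id.prodMk h3), ?_⟩
  obtain ⟨u, hu, e⟩ := h4
  rw [← e, K.ι_κ x u hu]
  exact ⟨hu, rfl⟩

/-- a family of points on a graph is tangent to the graph -/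
theorem tan_of_ev {V : Type} [NormedAddCommGroup V] [NormedSpace ℝ V] (x : Xd X) {γ : V → W}
    {s : V} {g : E2 → E2} (hγ : DifferentiableAt ℝ γ s) (hz : γ s ∈ ball (0 : W) 1)
    (hg : DifferentiableAt ℝ g (K.κ x (γ s)).1)
    (h : ∀ᶠ t in 𝓝 s, (K.κ x (γ t)).2 = g (K.κ x (γ t)).1) (a : V) :
    (fderiv ℝ (K.κ x) (γ s) (fderiv ℝ γ s a)).2 =
      fderiv ℝ g (K.κ x (γ s)).1 (fderiv ℝ (K.κ x) (γ s) (fderiv ℝ γ s a)).1 := by
  have h1 := (κ_diff K x hz).hasFDerivAt.comp s hγ.hasFDerivAt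
  have h2 := hg.hasFDerivAt.comp s h1.fst
  have h3 := (h1.snd.congr_of_eventuallyEq (f₁ := g ∘ fun t => ((K.κ x ∘ γ) t).1)
    (h.mono fun t ht => ht.symm)).unique h2
  exact congrArg (fun A : V →L[ℝ] E2 => A a) h3

theorem lf_iff (x : Xd X) {z : W} (hz : z ∈ ball (0 : W) 1) {g : E2 → E2}
    (hg : ∀ᶠ q in 𝓝 (K.κ x z).1, ContDiffAt ℝ ∞ g q) (h0 : g (K.κ x z).1 = (K.κ x z).2) (v : W) :
    (fderiv ℝ (K.κ x) z v).2 = fderiv ℝ g (K.κ x z).1 (fderiv ℝ (K.κ x) z v).1 ↔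
      ∃ a, fderiv ℝ (fun q => K.ι x (q, g q)) (K.κ x z).1 a = v := by
  have h1 := lf_ev K x hz hg h0
  have h2 : K.ι x ((K.κ x z).1, g (K.κ x z).1) = z := by rw [h0, K.ι_κ x z hz]
  have h3 : HasFDerivAt (K.κ x) (fderiv ℝ (K.κ x) z) (K.ι x ((K.κ x z).1, g (K.κ x z).1)) := by
    rw [h2]
    exact (κ_diff K x hz).hasFDerivAt
  have h4 := h3.comp (K.κ x z).1 (f := fun q => K.ι x (q, g q))
    (h1.self_of_nhds.1.differentiableAt (by simp)).hasFDerivAt
  have h5 := ((hasFDerivAt_id (K.κ x z).1).prodMk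
    (hg.self_of_nhds.differentiableAt (by simp)).hasFDerivAt).congr_of_eventuallyEq
      (f₁ := K.κ x ∘ fun q => K.ι x (q, g q)) (h1.mono fun q hq => hq.2.2)
  have h6 : ∀ a, fderiv ℝ (K.κ x) z (fderiv ℝ (fun q => K.ι x (q, g q)) (K.κ x z).1 a) =
      (a, fderiv ℝ g (K.κ x z).1 a) := fun a => congrArg (fun A : E2 →L[ℝ] W => A a) (h4.unique h5)
  constructor
  · intro h
    refine ⟨(fderiv ℝ (K.κ x) z v).1, dκ_inj K x hz ?_⟩
    rw [h6, ← h]
  · rintro ⟨a, rfl⟩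
    rw [h6]

theorem grad_smooth (x : X) (ξ : B) {q : E2} (hq : q ∈ ball (0 : E2) 3) :
    ContDiffAt ℝ ∞ (gradient (S.be x ξ)) q :=
  (H709.gradient_jc S.be_jc).contDiffAt (p := ((x, ξ), q)) ⟨mem_univ _, hq⟩

theorem grad_ev (x : X) (ξ : B) {q : E2} (hq : q ∈ ball (0 : E2) 3) :
    ∀ᶠ t in 𝓝 q, ContDiffAt ℝ ∞ (gradient (S.be x ξ)) t := by
  filter_upwards [isOpen_ball.mem_nhds hq] with t ht using grad_smooth x ξ ht

theorem grad_ev' (x : X) (ξ : B) {q : E2} (hq : q ∈ ball (0 : E2) 3) :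
    ∀ᶠ t in 𝓝 q, ContDiffAt ℝ ∞ (fun t => -gradient (S.be x ξ) t) t :=
  (grad_ev x ξ hq).mono fun _ h => h.neg

theorem nu_at (x : X) (ξ : B) {q : E2} (hq : q ∈ ball (0 : E2) 3) :
    ContinuousAt (S.nu x ξ) q :=
  (S.nu_cont.continuousAt (H709.isOpen_dom.mem_nhds
    (show ((x, ξ), q) ∈ univ ×ˢ ball (0 : E2) 3 from ⟨mem_univ _, hq⟩))).comp
    (f := fun t : E2 => (((x, ξ), t) : (X × B) × E2)) (by fun_prop)

theorem grad2' (hr : Rad S r) (x : Xd X) {z : W} (hz : z ∈ ball (0 : W) 1) :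
    -gradient (S.be x.1 (ch K x z).2) (K.κ x z).1 = (K.κ x z).2 := by
  rw [(ch_rel K hr x hz).grad2, neg_neg]

theorem inS_iff' (x : Xd X) (z v : W) : InS K x z v ↔ (fderiv ℝ (K.κ x) z v).2 =
    fderiv ℝ (fun t => -gradient (S.be x.1 (ch K x z).2) t) (K.κ x z).1
      (fderiv ℝ (K.κ x) z v).1 := by
  rw [fderiv_fun_neg]
  rfl

/-! ### the leaves -/

theorem lfU_self (hr : Rad S r) (x : Xd X) {z : W} (hz : z ∈ ball (0 : W) 1) :
    lfU K x (ch K x z).1 (K.κ x z).1 = z := by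
  rw [lfU, (ch_rel K hr x hz).grad, K.ι_κ x z hz]

theorem lfU_ev (hr : Rad S r) (x : Xd X) {z : W} (hz : z ∈ ball (0 : W) 1) :
    ∀ᶠ q in 𝓝 (K.κ x z).1, ContDiffAt ℝ ∞ (lfU K x (ch K x z).1) q ∧
      lfU K x (ch K x z).1 q ∈ ball (0 : W) 1 ∧
      K.κ x (lfU K x (ch K x z).1 q) = (q, gradient (S.be x.1 (ch K x z).1) q) ∧
      (ch K x (lfU K x (ch K x z).1 q)).1 = (ch K x z).1 := by
  have h := ch_rel K hr x hz
  filter_upwards [lf_ev K x hz (grad_ev x.1 _ h.mem) h.grad, isOpen_ball.mem_nhds h.mem,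
    (nu_at x.1 _ h.mem).eventually (lt_mem_nhds h.nu)] with q h1 h2 h3
  refine ⟨h1.1, h1.2.1, h1.2.2, ?_⟩
  have h4 : Rel S x.1 (q, gradient (S.be x.1 (ch K x z).1) q)
      ((ch K x z).1, S.en x.1 (ch K x z).1 q) := ⟨h2, h3, rfl, rfl⟩
  rw [ch, lfU, h1.2.2, h4.dar_eq]

theorem inU_iff (hr : Rad S r) (x : Xd X) {z : W} (hz : z ∈ ball (0 : W) 1) (v : W) :
    InU K x z v ↔ ∃ a, fderiv ℝ (lfU K x (ch K x z).1) (K.κ x z).1 a = v :=
  lf_iff K x hz (grad_ev x.1 _ (ch_rel K hr x hz).mem) (ch_rel K hr x hz).grad v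

theorem lfS_self (hr : Rad S r) (x : Xd X) {z : W} (hz : z ∈ ball (0 : W) 1) :
    lfS K x (ch K x z).2 (K.κ x z).1 = z := by
  rw [lfS, grad2' K hr x hz, K.ι_κ x z hz]

theorem lfS_ev (hr : Rad S r) (x : Xd X) {z : W} (hz : z ∈ ball (0 : W) 1) :
    ∀ᶠ q in 𝓝 (K.κ x z).1, ContDiffAt ℝ ∞ (lfS K x (ch K x z).2) q ∧
      lfS K x (ch K x z).2 q ∈ ball (0 : W) 1 ∧
      K.κ x (lfS K x (ch K x z).2 q) = (q, -gradient (S.be x.1 (ch K x z).2) q) ∧
      (ch K x (lfS K x (ch K x z).2 q)).2 = (ch K x z).2 := by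
  have h := ch_rel K hr x hz
  filter_upwards [lf_ev K x hz (grad_ev' x.1 _ h.mem) (grad2' K hr x hz),
    isOpen_ball.mem_nhds h.mem, (nu_at x.1 _ h.mem).eventually (gt_mem_nhds h.nu2)] with q h1 h2 h3
  refine ⟨h1.1, h1.2.1, h1.2.2, ?_⟩
  have h4 : Rel S x.1 (q, -gradient (S.be x.1 (ch K x z).2) q)
      (S.en x.1 (ch K x z).2 q, (ch K x z).2) :=
    ⟨h2, by
      show 0 < S.nu x.1 (S.en x.1 (ch K x z).2 q) q
      rw [S.nu_en _ _ _ h2]
      exact neg_pos.2 h3, H709.gradient_en S _ _ h2, S.en_en _ _ _ h2⟩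
  rw [ch, lfS, h1.2.2, h4.dar_eq]

theorem inS_iff (hr : Rad S r) (x : Xd X) {z : W} (hz : z ∈ ball (0 : W) 1) (v : W) :
    InS K x z v ↔ ∃ a, fderiv ℝ (lfS K x (ch K x z).2) (K.κ x z).1 a = v :=
  (inS_iff' K x z v).trans
    (lf_iff K x hz (grad_ev' x.1 _ (ch_rel K hr x hz).mem) (grad2' K hr x hz) v)

theorem hess_pos (hr : Rad S r) (x : Xd X) {z : W} (hz : z ∈ ball (0 : W) 1) {v : E2}
    (hv : v ≠ 0) : 0 < inner ℝ ((Hp K x z + Hm K x z) v) v := by
  have h := ch_rel K hr x hz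
  have h1 := S.pos x.1 _ _ h.mem h.nu.ne' v hv
  rwa [h.en] at h1

theorem hess_surj (hr : Rad S r) (x : Xd X) {z : W} (hz : z ∈ ball (0 : W) 1) :
    Function.Surjective (Hp K x z + Hm K x z) := by
  refine (LinearMap.injective_iff_surjective
    (f := ((Hp K x z + Hm K x z : E2 →L[ℝ] E2) : E2 →ₗ[ℝ] E2))).1 ?_
  rw [injective_iff_map_eq_zero]
  intro v hv
  by_contra h
  have h1 := hess_pos K hr x hz h
  rw [show (Hp K x z + Hm K x z) v = 0 from hv, inner_zero_left] at h1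
  exact lt_irrefl _ h1

theorem split_US (hr : Rad S r) (x : Xd X) {z : W} (hz : z ∈ ball (0 : W) 1) (v : W) :
    ∃ a b, InU K x z a ∧ InS K x z b ∧ v = a + b := by
  obtain ⟨a, ha⟩ := hess_surj K hr x hz
    ((fderiv ℝ (K.κ x) z v).2 + Hm K x z (fderiv ℝ (K.κ x) z v).1)
  obtain ⟨u, hu⟩ := dκ_surj K x hz (a, Hp K x z a)
  refine ⟨u, v - u, by rw [InU, hu], ?_, by abel⟩
  rw [ContinuousLinearMap.add_apply] at ha
  rw [InS, map_sub, hu, Prod.snd_sub, Prod.fst_sub, map_sub]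
  show _ - Hp K x z a = -(_ - Hm K x z a)
  rw [eq_sub_of_add_eq ha]
  abel

theorem inU_zero (hr : Rad S r) (x : Xd X) (v : W) : InU K x 0 v ↔ v.1 = 0 := by
  have hz : (0 : W) ∈ ball (0 : W) 1 := mem_ball_self one_pos
  have h0 : (ch K x 0).1 = L.em x.1 := by rw [ch_zero]
  constructor
  · intro h
    obtain ⟨a, rfl⟩ := (inU_iff K hr x hz v).1 h
    have h1 := lfU_ev K hr x hz
    have h2 := ((h1.self_of_nhds.1.differentiableAt (by simp)).hasFDerivAt.fst).unique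
      ((hasFDerivAt_const (0 : E2) _).congr_of_eventuallyEq (h1.mono fun q hq =>
        (K.axU x _ hq.2.1).1 (by rw [hq.2.2.1, h0])))
    exact congrArg (fun A : E2 →L[ℝ] E2 => A a) h2
  · intro h
    have h1 := tan_of_ev K x (γ := ContinuousLinearMap.inr ℝ E2 E2) (s := 0)
      (g := gradient (S.be x.1 (L.em x.1))) (ContinuousLinearMap.differentiableAt _)
      (by rwa [map_zero]) (by
        rw [map_zero]
        exact (grad_smooth _ _ (ch_rel K hr x hz).mem).differentiableAt (by simp)) (by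
        filter_upwards [(ContinuousLinearMap.inr ℝ E2 E2).continuous.continuousAt.eventually_mem
          (isOpen_ball.mem_nhds (by rwa [map_zero]))] with t ht
        exact (K.axU x _ ht).2 rfl) v.2
    rw [ContinuousLinearMap.fderiv, map_zero,
      show ContinuousLinearMap.inr ℝ E2 E2 v.2 = v from Prod.ext h.symm rfl, ← h0] at h1
    exact h1

theorem inS_zero (hr : Rad S r) (x : Xd X) (v : W) : InS K x 0 v ↔ v.2 = 0 := by
  have hz : (0 : W) ∈ ball (0 : W) 1 := mem_ball_self one_pos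
  have h0 : (ch K x 0).2 = L.ep x.1 := by rw [ch_zero]
  constructor
  · intro h
    obtain ⟨a, rfl⟩ := (inS_iff K hr x hz v).1 h
    have h1 := lfS_ev K hr x hz
    have h2 := ((h1.self_of_nhds.1.differentiableAt (by simp)).hasFDerivAt.snd).unique
      ((hasFDerivAt_const (0 : E2) _).congr_of_eventuallyEq (h1.mono fun q hq =>
        (K.axS x _ hq.2.1).1 (by rw [hq.2.2.1, h0])))
    exact congrArg (fun A : E2 →L[ℝ] E2 => A a) h2
  · intro h
    have h1 := tan_of_ev K x (γ := ContinuousLinearMap.inl ℝ E2 E2) (s := 0)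
      (g := fun t => -gradient (S.be x.1 (L.ep x.1)) t) (ContinuousLinearMap.differentiableAt _)
      (by rwa [map_zero]) (by
        rw [map_zero]
        exact (grad_smooth _ _ (ch_rel K hr x hz).mem).neg.differentiableAt (by simp)) (by
        filter_upwards [(ContinuousLinearMap.inl ℝ E2 E2).continuous.continuousAt.eventually_mem
          (isOpen_ball.mem_nhds (by rwa [map_zero]))] with t ht
        exact (K.axS x _ ht).2 rfl) v.1
    rw [ContinuousLinearMap.fderiv, map_zero,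
      show ContinuousLinearMap.inl ℝ E2 E2 v.1 = v from Prod.ext rfl h.symm, ← h0] at h1
    exact (inS_iff' K x 0 v).2 h1

/-! ### the transition maps -/

theorem tdom_nhds (hr : Rad S r) {x y : Xd X} {q : W} (hq : q ∈ tdom (ch K) x y) :
    tdom (ch K) x y ∈ 𝓝 q := (isOpen_slice (chD_open K hr) (x, y)).mem_nhds hq

theorem tau_smooth (hr : Rad S r) (hC : CrossJC S) {x y : Xd X} {q : W}
    (hq : q ∈ tdom (ch K) x y) : ContDiffAt ℝ ∞ (ttau (ch K) x y) q :=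
  (tau_jc K hr hC).contDiffAt (p := ((x, y), q)) hq

theorem tau_diff (hr : Rad S r) (hC : CrossJC S) {x y : Xd X} {q : W}
    (hq : q ∈ tdom (ch K) x y) : DifferentiableAt ℝ (ttau (ch K) x y) q :=
  (tau_smooth K hr hC hq).differentiableAt (by simp)

theorem tau_mem {x y : Xd X} {q : W} (hq : q ∈ tdom (ch K) x y) :
    ttau (ch K) x y q ∈ tdom (ch K) y x :=
  ⟨(tau_spec K hq).1, q, hq.1, (tau_spec K hq).2.symm⟩

theorem tau_tau (hr : Rad S r) {x y : Xd X} {q : W} (hq : q ∈ tdom (ch K) x y) :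
    ttau (ch K) y x (ttau (ch K) x y q) = q := tau_eq K hr hq.1 (tau_spec K hq).2.symm

theorem dtau_dtau (hr : Rad S r) (hC : CrossJC S) {x y : Xd X} {q : W}
    (hq : q ∈ tdom (ch K) x y) (v : W) :
    fderiv ℝ (ttau (ch K) y x) (ttau (ch K) x y q) (fderiv ℝ (ttau (ch K) x y) q v) = v := by
  have h1 := ((tau_diff K hr hC (tau_mem K hq)).hasFDerivAt.comp q
    (tau_diff K hr hC hq).hasFDerivAt).unique ((hasFDerivAt_id q).congr_of_eventuallyEq (by
      filter_upwards [tdom_nhds K hr hq] with u hu using tau_tau K hr hu))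
  exact congrArg (fun A : W →L[ℝ] W => A v) h1

/-- a family of points through `q`, seen in the other chart -/
theorem tau_fam (hr : Rad S r) (hC : CrossJC S) {x y : Xd X} {q : W}
    (hq : q ∈ tdom (ch K) x y) {γ : E2 → W} {s : E2} (hγ : DifferentiableAt ℝ γ s) (h0 : γ s = q)
    {g : E2 → E2} (hg : DifferentiableAt ℝ g (K.κ y (ttau (ch K) x y q)).1)
    (h : ∀ᶠ t in 𝓝 s, ∀ w, Rel S y.1 w (ch K x (γ t)) → w.2 = g w.1) (a : E2) :
    (fderiv ℝ (K.κ y) (ttau (ch K) x y q) (fderiv ℝ (ttau (ch K) x y) q (fderiv ℝ γ s a))).2 =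
      fderiv ℝ g (K.κ y (ttau (ch K) x y q)).1 (fderiv ℝ (K.κ y) (ttau (ch K) x y q)
        (fderiv ℝ (ttau (ch K) x y) q (fderiv ℝ γ s a))).1 := by
  subst h0
  have h1 := tan_of_ev K y (γ := ttau (ch K) x y ∘ γ) (s := s) (g := g)
    ((tau_diff K hr hC hq).comp s hγ) (tau_spec K hq).1 hg (by
      filter_upwards [h, hγ.continuousAt.eventually_mem (tdom_nhds K hr hq)] with t h1 h2
      exact h1 _ ((tau_spec K h2).2 ▸ ch_rel K hr y (tau_spec K h2).1)) a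
  rwa [fderiv_comp s (tau_diff K hr hC hq) hγ] at h1

theorem tau_inU_of (hr : Rad S r) (hC : CrossJC S) {x y : Xd X} {q : W}
    (hq : q ∈ tdom (ch K) x y) {v : W} (h : InU K x q v) :
    InU K y (ttau (ch K) x y q) (fderiv ℝ (ttau (ch K) x y) q v) := by
  obtain ⟨a, rfl⟩ := (inU_iff K hr x hq.1 v).1 h
  have h1 := lfU_ev K hr x hq.1
  exact tau_fam K hr hC hq (h1.self_of_nhds.1.differentiableAt (by simp)) (lfU_self K hr x hq.1)
    (g := gradient (S.be y.1 (ch K y (ttau (ch K) x y q)).1))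
    ((grad_smooth _ _ (ch_rel K hr y (tau_spec K hq).1).mem).differentiableAt (by simp))
    (h1.mono fun t ht w hw => by rw [(tau_spec K hq).2, ← ht.2.2.2, hw.grad]) a

theorem tau_inS_of (hr : Rad S r) (hC : CrossJC S) {x y : Xd X} {q : W}
    (hq : q ∈ tdom (ch K) x y) {v : W} (h : InS K x q v) :
    InS K y (ttau (ch K) x y q) (fderiv ℝ (ttau (ch K) x y) q v) := by
  obtain ⟨a, rfl⟩ := (inS_iff K hr x hq.1 v).1 h
  have h1 := lfS_ev K hr x hq.1
  exact (inS_iff' K y _ _).2 (tau_fam K hr hC hq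
    (h1.self_of_nhds.1.differentiableAt (by simp)) (lfS_self K hr x hq.1)
    (g := fun t => -gradient (S.be y.1 (ch K y (ttau (ch K) x y q)).2) t)
    ((grad_smooth _ _ (ch_rel K hr y (tau_spec K hq).1).mem).neg.differentiableAt (by simp))
    (h1.mono fun t ht w hw => by rw [(tau_spec K hq).2, ← ht.2.2.2, hw.grad2, neg_neg]) a)

theorem tau_inU (hr : Rad S r) (hC : CrossJC S) {x y : Xd X} {q : W}
    (hq : q ∈ tdom (ch K) x y) (v : W) :
    InU K y (ttau (ch K) x y q) (fderiv ℝ (ttau (ch K) x y) q v) ↔ InU K x q v := by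
  refine ⟨fun h => ?_, tau_inU_of K hr hC hq⟩
  have h1 := tau_inU_of K hr hC (tau_mem K hq) h
  rwa [dtau_dtau K hr hC hq, tau_tau K hr hq] at h1

theorem tau_inS (hr : Rad S r) (hC : CrossJC S) {x y : Xd X} {q : W}
    (hq : q ∈ tdom (ch K) x y) (v : W) :
    InS K y (ttau (ch K) x y q) (fderiv ℝ (ttau (ch K) x y) q v) ↔ InS K x q v := by
  refine ⟨fun h => ?_, tau_inS_of K hr hC hq⟩
  have h1 := tau_inS_of K hr hC (tau_mem K hq) h
  rwa [dtau_dtau K hr hC hq, tau_tau K hr hq] at h1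

end Vale.Agent.P207Z.CS
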